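import Crest.Agent.R81.Defs

/-! Row 81: elementary lemmas shared by the step and cycle files. -/

set_option autoImplicit false

namespace Crest.Agent.R81

open Crest.AnalysisR.Torus3 MeasureTheory Filter Topology
open Crest.Agent.R75 (ee)
open scoped ContDiff

/-! ### dot products -/

lemma rdot_add_left (l l' : Z3) (x : V) : rdot (l + l') x = rdot l x + rdot l' x := by
  simp [rdot, add_mul, Finset.sum_add_distrib]

lemma rdot_sub_left (l l' : Z3) (x : V) : rdot (l - l') x = rdot l x - rdot l' x := by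
  simp [rdot, sub_mul, Finset.sum_sub_distrib]

lemma rdot_neg_left (l : Z3) (x : V) : rdot (-l) x = -rdot l x := by
  simp [rdot, Finset.sum_neg_distrib]

lemma rdot_smul_left (n : ℤ) (l : Z3) (x : V) : rdot (n • l) x = n * rdot l x := by
  simp [rdot, Finset.mul_sum, mul_assoc]

@[simp] lemma rdot_zero_left (x : V) : rdot 0 x = 0 := by simp [rdot]

lemma rdot_add_right (l : Z3) (x y : V) : rdot l (x + y) = rdot l x + rdot l y := by
  simp [rdot, mul_add, Finset.sum_add_distrib]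

lemma rdot_smul_right (l : Z3) (c : ℝ) (x : V) : rdot l (c • x) = c * rdot l x := by
  simp only [rdot, Pi.smul_apply, smul_eq_mul, Finset.mul_sum]
  exact Finset.sum_congr rfl fun i _ => by ring

lemma rdot_single (l : Z3) (a : Fin 3) : rdot l (Pi.single a (1 : ℝ)) = l a := by
  simp [rdot, Pi.single_apply]

lemma rdot_intCast (l k : Z3) : rdot l (fun i => (k i : ℝ)) = (idot l k : ℤ) := by
  simp [rdot, idot]

lemma rdot_upd (l : Z3) (β : V) (η : ℝ) (a : Fin 3) :
    rdot l (β + η • Pi.single a (1 : ℝ)) = rdot l β + η * l a := by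
  rw [rdot_add_right, rdot_smul_right, rdot_single]

lemma idot_add_left (l l' B : Z3) : idot (l + l') B = idot l B + idot l' B := by
  simp [idot, add_mul, Finset.sum_add_distrib]

lemma idot_sub_left (l l' B : Z3) : idot (l - l') B = idot l B - idot l' B := by
  simp [idot, sub_mul, Finset.sum_sub_distrib]

lemma idot_neg_left (l B : Z3) : idot (-l) B = -idot l B := by
  simp [idot, Finset.sum_neg_distrib]

lemma idot_smul_left (n : ℤ) (l B : Z3) : idot (n • l) B = n * idot l B := by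
  simp [idot, Finset.mul_sum, mul_assoc]

@[simp] lemma idot_zero_left (B : Z3) : idot 0 B = 0 := by simp [idot]

lemma idot_cast {B : Z3} {D : ℝ} {β : V} (h : ∀ i, (B i : ℝ) = D * β i) (l : Z3) :
    ((idot l B : ℤ) : ℝ) = D * rdot l β := by
  simp only [idot, rdot, Int.cast_sum, Int.cast_mul, h, Finset.mul_sum]
  exact Finset.sum_congr rfl fun i _ => by ring

/-- a frequency with vanishing first two components which is orthogonal to `β` vanishes -/
lemma eq_zero_of_comp {a a' : Fin 3} (haa : (a = 0 ∧ a' = 1) ∨ (a = 1 ∧ a' = 0)) {β : V}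
    (hβ : β 2 = 1) {l : Z3} (h1 : l a = 0) (h2 : l a' = 0) (h3 : rdot l β = 0) : l = 0 := by
  have h0 : l 0 = 0 ∧ l 1 = 0 := by
    rcases haa with ⟨rfl, rfl⟩ | ⟨rfl, rfl⟩
    exacts [⟨h1, h2⟩, ⟨h2, h1⟩]
  have h2' : l 2 = 0 := by
    simpa [rdot, Fin.sum_univ_three, h0.1, h0.2, hβ] using h3
  funext i
  fin_cases i
  exacts [h0.1, h0.2, h2']

/-! ### the `L²` norm -/

lemma nrm_nonneg (f : C(T3, ℂ)) : 0 ≤ nrm f := norm_nonneg _

@[simp] lemma nrm_zero : nrm 0 = 0 := by simp [nrm]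

lemma nrm_add_le (f g : C(T3, ℂ)) : nrm (f + g) ≤ nrm f + nrm g := by
  simp only [nrm, map_add]; exact norm_add_le _ _

lemma nrm_neg (f : C(T3, ℂ)) : nrm (-f) = nrm f := by simp only [nrm, map_neg, norm_neg]

lemma nrm_sub_comm (f g : C(T3, ℂ)) : nrm (f - g) = nrm (g - f) := by
  rw [← nrm_neg, neg_sub]

lemma nrm_sub_le (f g : C(T3, ℂ)) : nrm (f - g) ≤ nrm f + nrm g := by
  simp only [nrm, map_sub]; exact norm_sub_le _ _

lemma nrm_triangle (f g k : C(T3, ℂ)) : nrm (f - k) ≤ nrm (f - g) + nrm (g - k) := by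
  have := nrm_add_le (f - g) (g - k)
  rwa [sub_add_sub_cancel] at this

lemma nrm_smul (c : ℂ) (f : C(T3, ℂ)) : nrm (c • f) = ‖c‖ * nrm f := by
  simp only [nrm, map_smul, norm_smul]

lemma nrm_star (f : C(T3, ℂ)) : nrm (star f) = nrm f := by
  simp only [nrm, Lp.norm_def]
  congr 1
  rw [eLpNorm_congr_ae (ContinuousMap.coeFn_toLp (volume : Measure T3) (star f)),
    eLpNorm_congr_ae (ContinuousMap.coeFn_toLp (volume : Measure T3) f)]
  exact eLpNorm_congr_norm_ae (Eventually.of_forall fun x => by simp)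

/-- moving twice the real part -/
lemma nrm_two_re_le (F G G' : C(T3, ℂ)) :
    nrm (F - (G' + star G')) ≤ nrm (F - (G + star G)) + 2 * nrm (G - G') := by
  have h : F - (G' + star G') = (F - (G + star G)) + ((G - G') + star (G - G')) := by
    rw [star_sub]; abel
  rw [h]
  have h1 := nrm_add_le (F - (G + star G)) ((G - G') + star (G - G'))
  have h2 := nrm_add_le (G - G') (star (G - G'))
  rw [nrm_star] at h2
  linarith

lemma star_mode (H : T3 ≃ₜ T3) (l : Z3) : star (mode H l) = mode H (-l) := by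
  ext x
  simp [mode, UnitAddTorus.mFourier_neg]

/-- `rw [sub_smul]`, `rw [add_smul]`, `simp [zero_smul]` do not fire on `C(T3, ℂ)` (instance paths);
use `ext x; simp [comb_apply]` or `exact sub_smul _ _ _`. -/
lemma comb_apply (H : T3 ≃ₜ T3) (Y : Finset Z3) (f : Z3 → ℂ) (x : T3) :
    comb H Y f x = ∑ l ∈ Y, f l * mode H l x := by
  simp [comb]

lemma comb_congr (H : T3 ≃ₜ T3) {Y : Finset Z3} {f g : Z3 → ℂ} (h : ∀ l ∈ Y, f l = g l) :
    comb H Y f = comb H Y g :=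
  Finset.sum_congr rfl fun l hl => by rw [h l hl]

lemma comb_sub (H : T3 ≃ₜ T3) (Y : Finset Z3) (f g : Z3 → ℂ) :
    comb H Y f - comb H Y g = comb H Y fun l => f l - g l := by
  ext x
  simp [comb, sub_mul, Finset.sum_sub_distrib]

lemma comb_add (H : T3 ≃ₜ T3) (Y : Finset Z3) (f g : Z3 → ℂ) :
    comb H Y f + comb H Y g = comb H Y fun l => f l + g l := by
  ext x
  simp [comb, add_mul, Finset.sum_add_distrib]

lemma comb_subset (H : T3 ≃ₜ T3) {Y Y' : Finset Z3} (h : Y ⊆ Y') (f : Z3 → ℂ) :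
    comb H Y f = comb H Y' fun l => if l ∈ Y then f l else 0 := by
  ext x
  simp only [comb, ContinuousMap.coe_sum, Finset.sum_apply, ContinuousMap.smul_apply, smul_eq_mul,
    ite_mul, zero_mul]
  rw [← Finset.sum_filter, Finset.filter_mem_eq_inter, Finset.inter_eq_right.mpr h]

lemma Approx.mono {H : T3 ≃ₜ T3} {F : C(T3, ℂ)} {W W' : Finset Z3} {δ : ℝ} (h : Approx H F W δ)
    (hW : W ⊆ W') : Approx H F W' δ := by
  obtain ⟨f, hf⟩ := h
  exact ⟨_, by rwa [comb_subset H hW] at hf⟩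

/-! ### closeness -/

lemma Close.mono {r : ℕ} {ε ε' : ℝ} {F G : V → V} (h : Close r ε F G) (hε : ε ≤ ε') :
    Close r ε' F G := fun i hi x => (h i hi x).trans hε

lemma Close.trans {r : ℕ} {ε ε' : ℝ} {F G K : V → V} (hF : ContDiff ℝ ∞ F) (hG : ContDiff ℝ ∞ G)
    (hK : ContDiff ℝ ∞ K) (h1 : Close r ε F G) (h2 : Close r ε' G K) : Close r (ε + ε') F K := by
  intro i hi x
  have e : (fun y => F y - K y) = (fun y => F y - G y) + fun y => G y - K y := by
    funext y; simp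
  have hi' : (i : WithTop ℕ∞) ≤ ∞ := by exact_mod_cast le_top
  rw [e, iteratedFDeriv_add_apply ((hF.sub hG).of_le hi').contDiffAt
    ((hG.sub hK).of_le hi').contDiffAt]
  exact (norm_add_le _ _).trans (add_le_add (h1 i hi x) (h2 i hi x))

lemma Valid0.smooth_Tl {S : State} (h : Valid0 S) (κ : ℝ) : ContDiff ℝ ∞ (S.Tl κ) :=
  h.eHl.smooth.comp (h.eHi.smooth.add contDiff_const)

lemma CloseT.trans {r : ℕ} {ε ε' : ℝ} {S S' S'' : State} (h : Valid0 S) (h' : Valid0 S')
    (h'' : Valid0 S'') (h1 : CloseT r ε S' S) (h2 : CloseT r ε' S'' S') :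
    CloseT r (ε + ε') S'' S := by
  rw [add_comm]
  exact ⟨Close.trans (h''.smooth_Tl _) (h'.smooth_Tl _) (h.smooth_Tl _) h2.1 h1.1,
    Close.trans (h''.smooth_Tl _) (h'.smooth_Tl _) (h.smooth_Tl _) h2.2 h1.2⟩

lemma Move.trans {n : ℕ} {Fam : Finset C(UnitAddCircle, ℂ)} {k k' : ℝ} {S S' S'' : State}
    (h : Valid0 S) (h' : Valid0 S') (h'' : Valid0 S'') (h1 : Move n Fam k S S')
    (h2 : Move n Fam k' S' S'') : Move n Fam (k + k') S S'' := by
  refine ⟨by rw [add_div]; exact CloseT.trans h h' h'' h1.1 h2.1, fun φ hφ => ?_⟩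
  have := nrm_triangle (S''.Ψ φ) (S'.Ψ φ) (S.Ψ φ)
  have h3 := h1.2 φ hφ
  have h4 := h2.2 φ hφ
  rw [mul_add, add_div]
  linarith

/-! ### widths -/

lemma Valid0.wd_pos {S : State} (h : Valid0 S) {l : Z3} (hl : l ∈ S.X) : 0 < S.wd l := by
  have h1 : (1 : ℝ) ≤ (idot l S.B : ℤ) := by exact_mod_cast (h.val l hl).1
  have h2 : (0 : ℝ) < S.D := by exact_mod_cast h.D_pos
  have := h.b_pos
  unfold State.wd
  positivity

lemma Valid0.wd_le {S : State} (h : Valid0 S) {ζ : ℝ} (hζ : S.b * S.d.Amax ≤ ζ * S.D) {l : Z3}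
    (hl : l ∈ S.X) : S.wd l ≤ ζ := by
  have h1 : ((idot l S.B : ℤ) : ℝ) ≤ S.d.Amax := by exact_mod_cast (h.val l hl).2
  have h2 : (0 : ℝ) < S.D := by exact_mod_cast h.D_pos
  unfold State.wd
  rw [div_le_iff₀ h2]
  nlinarith [h.b_pos]

lemma Valid0.wd_le_half {S : State} (h : Valid0 S) {l : Z3} (hl : l ∈ S.X) : S.wd l ≤ 1 / 2 :=
  h.wd_le (by linarith [h.bA]) hl

lemma Valid0.neg_notMem {S : State} (h : Valid0 S) {l : Z3} (hl : l ∈ S.X) : -l ∉ S.X := by
  intro h'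
  have h1 := (h.val l hl).1
  have h2 := (h.val _ h').1
  rw [idot_neg_left] at h2
  omega

lemma Valid0.ℓ_ne {S : State} (h : Valid0 S) : S.ℓ ≠ 0 := by
  intro h0
  have := h.ℓa
  rw [h0] at this
  have h1 := h.L_pos
  simp only [Pi.zero_apply] at this
  omega

/-! ### choosing the update -/

lemma exists_rat_of_eventually {p : ℝ → Prop} (h : ∀ᶠ η in 𝓝[≠] (0 : ℝ), p η) :
    ∃ q : ℚ, p q := by
  have h' : ∀ᶠ η in 𝓝[>] (0 : ℝ), p η :=
    h.filter_mono (nhdsWithin_mono _ fun x hx => ne_of_gt hx)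
  obtain ⟨δ, hδ, hs⟩ := (mem_nhdsGT_iff_exists_Ioo_subset).1 h'
  obtain ⟨q, hq⟩ := exists_rat_btwn (show (0 : ℝ) < δ from hδ)
  exact ⟨q, hs hq⟩

/-- the update of a pre-state, with any further eventual requirement `p` on the parameter -/
lemma exists_upd (hU : UpdStmt) {P : State} (hP : PreValid P) {p : ℝ → Prop}
    (h : ∀ᶠ η in 𝓝[≠] (0 : ℝ), p η) : ∃ η : ℝ, Valid (P.upd η) ∧ p η := by
  obtain ⟨q, h1, h2⟩ := exists_rat_of_eventually ((hU P hP).and h)
  exact ⟨q, h1 ⟨q, rfl⟩, h2⟩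

/-- the cost of one step for a family adapted to the state.  (`Ψ`, `Tl`, `gap`, `wd`, `θ` of
`P.upd η` are those of `P` by `rfl`.) -/
lemma move_of_step {n : ℕ} {Fam : Finset C(UnitAddCircle, ℂ)} {R e₀ ζ : ℝ} {S P : State}
    (hp : Par n Fam R e₀ ζ) (hm : Mid n S e₀ ζ) (ho : StepOut S P)
    (hc : S.Promise n (1 / 2 ^ n) → CloseT n (1 / 2 ^ n) P S) : Move n Fam 1 S P := by
  refine ⟨hc hm.prom, fun φ hφ => ?_⟩
  have hR : 0 ≤ R := by linarith [hp.one_le]
  have he := hm.valid.spec.e_pos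
  have h1 := ho.stab φ R (1 / 2 ^ n) R (by positivity) hR (hp.bdd φ hφ) (fun l hl x hx => by
    refine hp.modc φ hφ _ _ (hx.trans ?_)
    have h2 := hm.valid.wd_le hm.wd_le (hm.valid.sub hl)
    have h3 := hm.valid.wd_pos (hm.valid.sub hl)
    nlinarith [mul_pos he h3]) (fun x _ => hp.bdd φ hφ x)
  have h2 : √S.d.e ≤ √e₀ := Real.sqrt_le_sqrt hm.e_le
  have h3 : √(S.gap + 5 * S.d.e) ≤ 4 * √e₀ := by
    rw [Real.sqrt_le_left (by positivity), mul_pow, Real.sq_sqrt hp.e_pos.le]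
    linarith [hm.gap_le, hm.e_le, hp.e_pos]
  have h4 := hp.Re
  have h5 : 10 * R * √S.d.e ≤ 10 * (R * √e₀) := by nlinarith
  have h6 : R * √(S.gap + 5 * S.d.e) ≤ 4 * (R * √e₀) := by nlinarith
  have h7 : 15 * (1 : ℝ) / 2 ^ n = 15 * (1 / 2 ^ n) := by ring
  linarith

end Crest.Agent.R81
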