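import Crest.Agent.R81.Basic

/-! Row 81: the three steps which capture a test function. -/

set_option autoImplicit false

namespace Crest.Agent.R81

open Crest.AnalysisR.Torus3 MeasureTheory Filter Topology
open Crest.Agent.R75 (ee)
open scoped ContDiff

namespace Cap

lemma exists_R (X : Finset Z3) (f : Z3 → ℂ) (wd : Z3 → ℝ) (h : ∀ l ∈ X, 0 < wd l) :
    ∃ R : ℝ, 0 ≤ R ∧ ∀ l ∈ X, ‖f l‖ ^ 2 ≤ R * wd l := by
  refine ⟨∑ l ∈ X, ‖f l‖ ^ 2 / wd l,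
    Finset.sum_nonneg fun l hl => div_nonneg (by positivity) (h l hl).le, fun l hl => ?_⟩
  rw [← div_le_iff₀ (h l hl)]
  exact Finset.single_le_sum (f := fun l => ‖f l‖ ^ 2 / wd l)
    (fun l hl => div_nonneg (by positivity) (h l hl).le) hl

lemma exists_mod (Fam : Finset C(UnitAddCircle, ℂ)) (δ : ℝ) (hδ : 0 < δ) :
    ∃ ζ : ℝ, 0 < ζ ∧ ζ ≤ δ ∧ ∀ φ ∈ Fam, ∀ x y, ‖x - y‖ ≤ ζ → ‖φ x - φ y‖ ≤ δ := by
  classical
  induction Fam using Finset.induction_on with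
  | empty => exact ⟨δ, hδ, le_rfl, by simp⟩
  | insert φ s _ ih =>
    obtain ⟨ζ, h1, h2, h3⟩ := ih
    have hu : UniformContinuous φ := CompactSpace.uniformContinuous_of_continuous φ.continuous
    obtain ⟨ζ', h4, h5⟩ := Metric.uniformContinuous_iff_le.1 hu δ hδ
    refine ⟨min ζ ζ', lt_min h1 h4, (min_le_left _ _).trans h2, fun ψ hψ x y hxy => ?_⟩
    rcases Finset.mem_insert.1 hψ with rfl | hψ
    · rw [← dist_eq_norm]
      exact h5 (by rw [dist_eq_norm]; exact hxy.trans (min_le_right _ _))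
    · exact h3 ψ hψ x y (hxy.trans (min_le_left _ _))

lemma close_self (r : ℕ) (ε : ℝ) (hε : 0 ≤ ε) (F : V → V) : Close r ε F F := by
  intro i _ x
  have : (fun y => F y - F y) = fun _ => (0 : V) := by funext y; simp
  rw [this, iteratedFDeriv_fun_zero]
  simpa using hε

lemma le_of_sq_le {a c e : ℝ} (hc : 0 ≤ c) (he : 0 ≤ e) (h : a ^ 2 ≤ c ^ 2 * e) :
    a ≤ c * √e := by
  refine le_trans (le_abs_self a) (abs_le_of_sq_le_sq ?_ (by positivity))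
  rw [mul_pow, Real.sq_sqrt he]
  exact h

/-- absorbing the new frequencies -/
noncomputable def absorb (P : State) : State := { P with O := P.X }

lemma absorb_preValid {P : State} (hP : PreValid P) (hV : P.d.Vnew = ∅)
    (hsep : SepFam P.X P.θ P.wd) : PreValid (absorb P) where
  mp := hP.mp
  eHl := hP.eHl
  eHi := hP.eHi
  lHl := hP.lHl
  lHi := hP.lHi
  aa := hP.aa
  β2 := hP.β2
  ratw := hP.ratw
  L_pos := hP.L_pos
  ℓa := hP.ℓa
  ℓa' := hP.ℓa'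
  ℓβ := hP.ℓβ
  ℓB := hP.ℓB
  ℓw := hP.ℓw
  b_pos := hP.b_pos
  D_pos := hP.D_pos
  bA := hP.bA
  spec := hP.spec
  prof := hP.prof
  sub := Finset.Subset.refl _
  ne := hP.ne.mono hP.sub
  dO := hP.dX
  dX := hP.dX
  val := hP.val
  γn := hP.γn
  sep := hsep
  old := fun l _ a' ha' => by
    have : a' ∈ P.d.Vnew := ha'
    rw [hV] at this
    simp at this
  sepX := hP.sepX
  B_eq := hP.B_eq
  genPre := hP.genPre

lemma absorb_gap {P : State} (hP : Valid0 P) : (absorb P).gap ≤ P.gap := by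
  have : ∑ l ∈ P.O, P.wd l ≤ ∑ l ∈ P.X, P.wd l :=
    Finset.sum_le_sum_of_subset_of_nonneg hP.sub fun l hl _ => (hP.wd_pos hl).le
  change 1 - 2 * ∑ l ∈ P.X, P.wd l ≤ 1 - 2 * ∑ l ∈ P.O, P.wd l
  linarith

lemma absorb_Ψ (hO : OrthStmt) (hSum : SepSumStmt) {P : State} (hP : Valid0 P)
    (hsep : SepFam P.X P.θ P.wd) (φ : UnitAddCircle → ℂ) (R : ℝ) (hR : ∀ x, ‖φ x‖ ≤ R) :
    nrm ((absorb P).Ψ φ - P.Ψ φ) ^ 2 ≤ R ^ 2 * (P.gap / 2) := by
  classical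
  have h1 : (absorb P).Ψ φ - P.Ψ φ = comb P.H P.X fun l =>
      P.γ l * φ (P.θ l) - if l ∈ P.O then P.γ l * φ (P.θ l) else 0 := by
    rw [← comb_sub, ← comb_subset P.H hP.sub]
    rfl
  rw [h1, hO P.H hP.mp]
  have h2 := hSum P.X P.θ P.wd (fun l hl => hP.wd_pos hl) hsep
  have h3 : ∑ l ∈ P.X, ‖P.γ l * φ (P.θ l) - if l ∈ P.O then P.γ l * φ (P.θ l) else 0‖ ^ 2
      ≤ ∑ l ∈ P.X, R ^ 2 * (P.wd l - if l ∈ P.O then P.wd l else 0) := by
    refine Finset.sum_le_sum fun l hl => ?_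
    split_ifs with h
    · simp
    · rw [sub_zero, sub_zero, norm_mul, mul_pow, hP.γn l hl, mul_comm]
      exact mul_le_mul_of_nonneg_right (pow_le_pow_left₀ (norm_nonneg _) (hR _) 2)
        (hP.wd_pos hl).le
  refine h3.trans ?_
  rw [← Finset.mul_sum, Finset.sum_sub_distrib, ← Finset.sum_filter, Finset.filter_mem_eq_inter,
    Finset.inter_eq_right.mpr hP.sub]
  refine mul_le_mul_of_nonneg_left ?_ (by positivity)
  unfold State.gap
  linarith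

end Cap

open Cap

theorem cap (hS : StepStmt) (hU : UpdStmt) (hO : OrthStmt) (hO' : OrthStarStmt)
    (hSum : SepSumStmt) (hB : BumpStmt) : CapStmt := by
  classical
  intro n Fam R e₀ ζ S F hp hm hF hA
  obtain ⟨f4, hf4⟩ := hA
  have hpow : (0 : ℝ) < 1 / 2 ^ n := by positivity
  have hpow1 : (1 : ℝ) / 2 ^ n ≤ 1 := by
    rw [div_le_one (by positivity)]; exact one_le_pow₀ (by norm_num)
  have hV : Valid0 S := hm.valid.toValid0
  have he0 := hp.e_pos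
  have hR0 : 0 ≤ R := by linarith [hp.one_le]
  have hsq : √e₀ ≤ 1 / 2 ^ n := by
    have := hp.Re
    have h1 := hp.one_le
    nlinarith [Real.sqrt_nonneg e₀]
  have hsq3 : √e₀ ≤ 1 / 3 := by
    rw [Real.sqrt_le_left (by norm_num)]
    linarith [hp.e_le]
  -- the size of `f4`
  have hs4 : ∑ l ∈ S.X, ‖f4 l‖ ^ 2 ≤ 9 / 2 := by
    have h1 := hO' S.H hV.mp S.X f4 fun l hl => hV.neg_notMem hl
    have h2 : nrm (comb S.H S.X f4 + star (comb S.H S.X f4)) ≤ 3 := by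
      have h3 := nrm_sub_le F (F - (comb S.H S.X f4 + star (comb S.H S.X f4)))
      rw [sub_sub_cancel] at h3
      linarith
    have h4 := nrm_nonneg (comb S.H S.X f4 + star (comb S.H S.X f4))
    nlinarith
  -- step D
  obtain ⟨P5, hP5, ho5, -, -, hβ5, he5, hb5, -, hVn5, -, hc5, hpr5⟩ :=
    hS S hm.valid e₀ ζ (1 / 2 ^ n) (1 / 2 ^ n) n n ∅ (S.X \ S.O) he0 hp.e_le hp.ζ_pos hpow
      (fun l hl => Finset.mem_sdiff.1 hl)
  obtain ⟨η5, hv5, hpr5'⟩ := exists_upd hU hP5 (hpr5.filter_mono nhdsWithin_le_nhds)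
  have hm5 : Mid n (P5.upd η5) e₀ ζ :=
    ⟨hv5, hpr5', he5.le, ho5.gap.trans (by linarith [hm.e_le]), hb5⟩
  have hmv5 : Move n Fam 1 S (P5.upd η5) := move_of_step (P := P5) hp hm ho5 hc5
  obtain ⟨R4, hR4, hR4'⟩ := exists_R S.X f4 S.wd fun l hl => hV.wd_pos hl
  obtain ⟨f5, hf5, -⟩ := ho5.trans f4 R4 hR4 hR4'
  have hf5' : nrm (comb S.H S.X f4 - comb P5.H P5.X f5) ≤ 22 * √e₀ := by
    refine le_of_sq_le (by norm_num) he0.le (hf5.trans ?_)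
    have h1 := hm.e_le
    have h2 := hV.spec.e_pos
    have h3 : 0 ≤ ∑ l ∈ S.X, ‖f4 l‖ ^ 2 := Finset.sum_nonneg fun _ _ => by positivity
    nlinarith
  have hs5 : ∑ l ∈ P5.X, ‖f5 l‖ ^ 2 ≤ 121 := by
    rw [← hO P5.H hP5.mp]
    have h1 : nrm (comb S.H S.X f4) ≤ 3 := by
      have h2 := hO S.H hV.mp S.X f4
      nlinarith [nrm_nonneg (comb S.H S.X f4)]
    have h3 := nrm_sub_le (comb S.H S.X f4) (comb S.H S.X f4 - comb P5.H P5.X f5)
    rw [sub_sub_cancel] at h3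
    have h4 := nrm_nonneg (comb P5.H P5.X f5)
    have h5 : nrm (comb P5.H P5.X f5) ≤ 11 := by linarith
    nlinarith
  have hnew5 : ∀ ν ∈ P5.X, ν ∉ P5.O → idot ν P5.B ∈ P5.d.Vnew := by
    intro ν hν hν'
    obtain ⟨l, hl, hl', k, rfl⟩ := ho5.parN ν hν hν'
    have h1 : idot S.ℓ P5.B = 0 := by
      have h2 := idot_cast hP5.B_eq S.ℓ
      rw [hβ5, hV.ℓβ, mul_zero] at h2
      exact_mod_cast h2
    rw [hVn5, idot_add_left, idot_smul_left, h1, mul_zero, add_zero]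
    exact Finset.mem_image.2 ⟨l, Finset.mem_sdiff.2 ⟨hl, hl'⟩, rfl⟩
  -- step E
  obtain ⟨R5, hR5, hR5'⟩ := exists_R P5.X f5 P5.wd fun l hl => hP5.toValid0.wd_pos hl
  set Rn : ℝ := max R √(2 * P5.d.M0 * R5) with hRn
  have hRn1 : 1 ≤ Rn := hp.one_le.trans (le_max_left _ _)
  set e1 : ℝ := min e₀ ((1 / (2 ^ (n + 1) * Rn)) ^ 2) with he1
  have he1pos : 0 < e1 := lt_min he0 (by positivity)
  have he1le : e1 ≤ e₀ := min_le_left _ _
  have he1R : Rn * √e1 ≤ 1 / 2 ^ (n + 1) := by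
    have h1 : √e1 ≤ 1 / (2 ^ (n + 1) * Rn) := by
      rw [Real.sqrt_le_left (by positivity)]
      exact min_le_right _ _
    calc Rn * √e1 ≤ Rn * (1 / (2 ^ (n + 1) * Rn)) := by gcongr
      _ = 1 / 2 ^ (n + 1) := by field_simp
  obtain ⟨P6, hP6, ho6, -, -, -, he6, hb6, -, hVn6, -, hc6, hpr6⟩ :=
    hS (P5.upd η5) hv5 e1 ζ (1 / 2 ^ n) (1 / 2 ^ n) n n ∅ ∅ he1pos (he1le.trans hp.e_le) hp.ζ_pos
      hpow (by simp)
  rw [Finset.image_empty] at hVn6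
  have hV6 : Valid0 P6 := hP6.toValid0
  have hmv6 : Move n Fam 1 (P5.upd η5) P6 := move_of_step hp hm5 ho6 hc6
  obtain ⟨f6, hf6, hf6b⟩ := ho6.trans f5 R5 hR5 hR5'
  have hf6' : nrm (comb P5.H P5.X f5 - comb P6.H P6.X f6) ≤ 110 * √e₀ := by
    refine le_of_sq_le (by norm_num) he0.le (hf6.trans ?_)
    change 100 * P5.d.e * ∑ l ∈ P5.X, ‖f5 l‖ ^ 2 ≤ _
    rw [he5]
    nlinarith
  have hsep6 : SepFam P6.X P6.θ P6.wd := ho6.ins hnew5 ho5.clus
  have hgap6 : P6.gap ≤ 7 * e₀ := by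
    have h1 : P6.gap ≤ 7 * P5.d.e := ho6.gap
    rwa [he5] at h1
  -- absorption
  have hP6' : PreValid (absorb P6) := absorb_preValid hP6 hVn6 hsep6
  obtain ⟨η6, hv6, hpr6'⟩ := exists_upd hU hP6' (hpr6.filter_mono nhdsWithin_le_nhds)
  have hm6 : Mid n ((absorb P6).upd η6) e₀ ζ :=
    ⟨hv6, hpr6', he6.le.trans he1le, (absorb_gap hV6).trans hgap6, hb6⟩
  have hmv6' : Move n Fam 1 P6 ((absorb P6).upd η6) := by
    refine ⟨⟨close_self _ _ hpow.le _, close_self _ _ hpow.le _⟩, fun φ hφ => ?_⟩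
    have h1 := absorb_Ψ hO hSum hV6 hsep6 φ R (hp.bdd φ hφ)
    have h2 : nrm ((absorb P6).Ψ φ - P6.Ψ φ) ≤ 2 * R * √e₀ := by
      refine le_of_sq_le (by positivity) he0.le (h1.trans ?_)
      nlinarith [sq_nonneg R]
    have h3 := hp.Re
    have h4 : 15 * (1 : ℝ) / 2 ^ n = 15 * (1 / 2 ^ n) := by ring
    change nrm ((absorb P6).Ψ φ - P6.Ψ φ) ≤ _
    linarith
  -- the bump function
  have hγ : ∀ l ∈ P6.X, P6.γ l ≠ 0 := by
    intro l hl h0
    have h1 := hV6.γn l hl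
    have h2 := hV6.wd_pos hl
    rw [h0] at h1
    simp at h1
    linarith
  obtain ⟨φ, hφs, hφb, hφv, hφ0⟩ := hB P6.X P6.θ P6.wd (fun l hl => hV6.wd_pos hl) hsep6 e1 Rn
    (fun l => f6 l / P6.γ l) he1pos (by linarith [hp.e_le]) (by linarith) (fun l hl => by
      refine le_trans ?_ (le_max_right _ _)
      refine Real.le_sqrt_of_sq_le ?_
      have h1 : ‖f6 l‖ ^ 2 ≤ 2 * P5.d.M0 * R5 * P6.wd l := hf6b l hl
      rw [norm_div, div_pow, hV6.γn l hl, div_le_iff₀ (hV6.wd_pos hl)]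
      exact h1)
  have hφθ : ∀ l ∈ P6.X, φ (P6.θ l) = f6 l / P6.γ l := by
    intro l hl
    refine hφv l hl _ ?_
    have h1 := hV6.wd_pos hl
    have h2 : 0 ≤ 1 - e1 / 2 := by linarith [hp.e_le]
    rw [sub_self, norm_zero]
    positivity
  have hΨ6 : ((absorb P6).upd η6).Ψ φ = comb P6.H P6.X f6 := by
    change comb P6.H P6.X (fun l => P6.γ l * φ (P6.θ l)) = _
    refine comb_congr _ fun l hl => ?_
    rw [hφθ l hl, mul_div_cancel₀ _ (hγ l hl)]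
  -- step F
  obtain ⟨ζ1, hζ1, hζ1le, hζ1m⟩ := exists_mod (insert φ Fam) (1 / 2 ^ (n + 1)) (by positivity)
  obtain ⟨P7, hP7, ho7, -, -, -, he7, hb7, -, -, -, hc7, hpr7⟩ :=
    hS ((absorb P6).upd η6) hv6 e1 ζ1 (1 / 2 ^ n) (1 / 2 ^ (n + 1)) n (n + 1) ∅ ∅ he1pos
      (he1le.trans hp.e_le) hζ1 (by positivity) (by simp)
  obtain ⟨η7, hv7, hpr7'⟩ := exists_upd hU hP7 (hpr7.filter_mono nhdsWithin_le_nhds)
  have hmv7 : Move n Fam 1 ((absorb P6).upd η6) (P7.upd η7) :=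
    move_of_step (P := P7) hp hm6 ho7 hc7
  have hstab : nrm (P7.Ψ φ - comb P6.H P6.X f6) ≤ 5 * (1 / 2 ^ n) := by
    have h1 := ho7.stab φ Rn 0 0 le_rfl le_rfl hφb (fun l hl x hx => by
      have hl' : l ∈ P6.X := hl
      have hx' : ‖x - P6.θ l‖ ≤ (1 - P6.d.e / 2) * P6.wd l / 2 := hx
      rw [he6] at hx'
      change ‖φ x - φ (P6.θ l)‖ ≤ 0
      rw [hφv l hl' x hx', hφθ l hl', sub_self, norm_zero]) (fun x hx => by
      rw [hφ0 x hx, norm_zero])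
    rw [hΨ6] at h1
    have h2 : ((absorb P6).upd η6).d.e = e1 := he6
    rw [h2] at h1
    have h3 : (1 : ℝ) / 2 ^ (n + 1) = 1 / 2 * (1 / 2 ^ n) := by rw [pow_succ]; ring
    nlinarith
  refine ⟨P7.upd η7, φ, ⟨?_, Rn, e1, ζ1, ⟨he1pos, he1le.trans hp.e_le, hζ1, hζ1le, hRn1, he1R,
    ?_, hζ1m⟩, ⟨hv7, hpr7', he7.le, ?_, hb7⟩⟩, ?_, hφs, ?_⟩
  · refine Finset.Subset.antisymm (fun ν hν => ?_) hP7.sub
    by_contra h
    obtain ⟨l, hl, hl', -⟩ := ho7.parN ν hν h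
    exact hl' hl
  · intro ψ hψ x
    rcases Finset.mem_insert.1 hψ with rfl | hψ
    · exact hφb x
    · exact (hp.bdd ψ hψ x).trans (le_max_left _ _)
  · have h1 : P7.gap ≤ 7 * P6.d.e := ho7.gap
    rwa [he6] at h1
  · have h1 := Move.trans hV hv5.toValid0 hV6 hmv5 hmv6
    have h2 := Move.trans hV hV6 hv6.toValid0 h1 hmv6'
    have h3 := Move.trans hV hv6.toValid0 hv7.toValid0 h2 hmv7
    have h4 : (1 : ℝ) + 1 + 1 + 1 = 4 := by norm_num
    rwa [h4] at h3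
  · change nrm (F - (P7.Ψ φ + star (P7.Ψ φ))) ≤ _
    have h1 := nrm_two_re_le F (comb S.H S.X f4) (comb P5.H P5.X f5)
    have h2 := nrm_two_re_le F (comb P5.H P5.X f5) (comb P6.H P6.X f6)
    have h3 := nrm_two_re_le F (comb P6.H P6.X f6) (P7.Ψ φ)
    rw [nrm_sub_comm] at hstab
    have h4 : (1000 : ℝ) / 2 ^ n = 1000 * (1 / 2 ^ n) := by ring
    linarith

end Crest.Agent.R81
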