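import Crest.Agent.R81.Defs

/-! Row 81: disjoint arcs of the circle (total length, Riemann sums, bump functions). -/

set_option autoImplicit false

namespace Crest.Agent.R81

open MeasureTheory Metric

namespace Circle

instance : IsProbabilityMeasure (volume : Measure UnitAddCircle) := ⟨UnitAddCircle.measure_univ⟩

/-- a finite family of disjoint arcs -/
structure Arcs {κ : Type} (s : Finset κ) (c : κ → UnitAddCircle) (w : κ → ℝ) : Prop where
  pos : ∀ i ∈ s, 0 < w i
  le : ∀ i ∈ s, w i ≤ 1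
  sep : ∀ i ∈ s, ∀ j ∈ s, i ≠ j → (w i + w j) / 2 ≤ ‖c i - c j‖

theorem real_ball (x : UnitAddCircle) {w : ℝ} (h0 : 0 ≤ w) (h1 : w ≤ 1) :
    (volume : Measure UnitAddCircle).real (ball x (w / 2)) = w := by
  rw [measureReal_def, ← measure_congr AddCircle.closedBall_ae_eq_ball,
    AddCircle.volume_closedBall, mul_div_cancel₀ _ two_ne_zero, min_eq_right h1,
    ENNReal.toReal_ofReal h0]

theorem norm_fourier_sub (m : ℤ) (x y : UnitAddCircle) :
    ‖fourier m x - fourier m y‖ ≤ 2 * Real.pi * |(m : ℝ)| * ‖x - y‖ := by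
  obtain ⟨z, rfl⟩ : ∃ z, x = z + y := ⟨x - y, by abel⟩
  obtain ⟨t, rfl⟩ := QuotientAddGroup.mk_surjective z
  have h1 : ((t : ℝ) : UnitAddCircle) = ((t - round t : ℝ) : UnitAddCircle) := by
    have : (((round t : ℤ) : ℝ) : UnitAddCircle) = 0 :=
      (AddCircle.coe_eq_zero_iff (1 : ℝ)).2 ⟨round t, by simp⟩
    rw [AddCircle.coe_sub, this, sub_zero]
  have h2 : fourier m (((t : ℝ) : UnitAddCircle) + y) =
      fourier m ((t : ℝ) : UnitAddCircle) * fourier m y := by
    simp only [fourier_apply, zsmul_add, AddCircle.toCircle_add, Circle.coe_mul]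
  have h3 : ‖fourier m y‖ = 1 := by rw [fourier_apply, Circle.norm_coe]
  rw [add_sub_cancel_right, UnitAddCircle.norm_eq, h2, ← sub_one_mul, norm_mul, h3, mul_one, h1,
    fourier_coe_apply]
  have h4 := Real.norm_exp_I_mul_ofReal_sub_one_le (x := 2 * Real.pi * m * (t - round t))
  rw [Real.norm_eq_abs, abs_mul, abs_mul, abs_of_pos Real.two_pi_pos] at h4
  convert h4 using 4
  push_cast
  ring

namespace Arcs

variable {κ : Type} {s : Finset κ} {c : κ → UnitAddCircle} {w : κ → ℝ} (h : Arcs s c w)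
include h

theorem disj : (s : Set κ).PairwiseDisjoint fun i => ball (c i) (w i / 2) := by
  intro i hi j hj hij
  refine ball_disjoint_ball ?_
  rw [dist_eq_norm, ← add_div]
  exact h.sep i hi j hj hij

theorem real_union :
    (volume : Measure UnitAddCircle).real (⋃ i ∈ s, ball (c i) (w i / 2)) = ∑ i ∈ s, w i := by
  rw [measureReal_biUnion_finset h.disj fun _ _ => measurableSet_ball]
  exact Finset.sum_congr rfl fun i hi => real_ball _ (h.pos i hi).le (h.le i hi)

theorem sum_le : ∑ i ∈ s, w i ≤ 1 := by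
  rw [← h.real_union]
  exact measureReal_le_one

theorem rie {m : ℤ} (hm : m ≠ 0) {ζ : ℝ} (hζ : 0 ≤ ζ) (hw : ∀ i ∈ s, w i ≤ ζ) :
    ‖∑ i ∈ s, (w i : ℂ) * fourier m (c i)‖ ≤ (1 - ∑ i ∈ s, w i) + 7 * |(m : ℝ)| * ζ := by
  have hint : Integrable (fourier m : UnitAddCircle → ℂ) volume :=
    (fourier m).continuous.integrable_of_hasCompactSupport (HasCompactSupport.of_compactSpace _)
  have h0 : ∫ x : UnitAddCircle, fourier m x = 0 :=
    integral_eq_zero_of_add_right_eq_neg (fourier_add_half_inv_index hm one_pos)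
  have hU : MeasurableSet (⋃ i ∈ s, ball (c i) (w i / 2)) :=
    Finset.measurableSet_biUnion _ fun _ _ => measurableSet_ball
  rw [← integral_add_compl hU hint, integral_biUnion_finset s (fun _ _ => measurableSet_ball)
    h.disj fun _ _ => hint.integrableOn] at h0
  have h1 : ∑ i ∈ s, (w i : ℂ) * fourier m (c i) =
      -(∫ x in (⋃ i ∈ s, ball (c i) (w i / 2))ᶜ, fourier m x) +
        ∑ i ∈ s, ∫ x in ball (c i) (w i / 2), (fourier m (c i) - fourier m x) := by
    rw [← eq_neg_iff_add_eq_zero] at h0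
    rw [← h0, ← Finset.sum_add_distrib]
    refine Finset.sum_congr rfl fun i hi => ?_
    rw [integral_sub (integrable_const _) hint.integrableOn, setIntegral_const,
      real_ball _ (h.pos i hi).le (h.le i hi), Complex.real_smul]
    ring
  rw [h1]
  refine (norm_add_le _ _).trans (add_le_add ?_ ?_)
  · rw [norm_neg]
    refine (norm_setIntegral_le_of_norm_le_const (C := 1) (measure_lt_top _ _)
      fun x _ => by rw [fourier_apply, Circle.norm_coe]).trans ?_
    rw [one_mul, probReal_compl_eq_one_sub hU, h.real_union]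
  · refine (norm_sum_le _ _).trans ?_
    have hm0 : 0 ≤ 7 * |(m : ℝ)| * ζ := by positivity
    calc _ ≤ ∑ i ∈ s, 7 * |(m : ℝ)| * ζ * w i := Finset.sum_le_sum fun i hi => ?_
      _ = 7 * |(m : ℝ)| * ζ * ∑ i ∈ s, w i := (Finset.mul_sum ..).symm
      _ ≤ _ := mul_le_of_le_one_right hm0 h.sum_le
    refine le_of_le_of_eq (norm_setIntegral_le_of_norm_le_const (C := 7 * |(m : ℝ)| * ζ)
      (measure_lt_top _ _) fun x hx => ?_) (by rw [real_ball (c i) (h.pos i hi).le (h.le i hi)])
    refine (norm_fourier_sub m _ _).trans ?_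
    rw [mem_ball', dist_eq_norm] at hx
    have h2 : ‖c i - x‖ ≤ ζ := by linarith [hw i hi, h.pos i hi]
    have h3 := Real.pi_le_four
    have h4 := Real.pi_lt_d2
    gcongr
    linarith

end Arcs

/-- the trapezoidal bump -/
noncomputable def tz (e w : ℝ) (c x : UnitAddCircle) : ℝ :=
  max 0 (min 1 ((w / 2 - ‖x - c‖) / (e * w / 4)))

theorem continuous_tz (e w : ℝ) (c : UnitAddCircle) : Continuous (tz e w c) := by
  unfold tz; fun_prop

theorem tz_nonneg (e w : ℝ) (c x : UnitAddCircle) : 0 ≤ tz e w c x := le_max_left _ _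

theorem tz_le (e w : ℝ) (c x : UnitAddCircle) : tz e w c x ≤ 1 :=
  max_le zero_le_one (min_le_left _ _)

theorem tz_zero {e w : ℝ} (he : 0 < e) (hw : 0 < w) {c x : UnitAddCircle} (h : w / 2 ≤ ‖x - c‖) :
    tz e w c x = 0 :=
  max_eq_left ((min_le_right _ _).trans
    (div_nonpos_of_nonpos_of_nonneg (by linarith) (by positivity)))

theorem tz_one {e w : ℝ} (he : 0 < e) (hw : 0 < w) {c x : UnitAddCircle}
    (h : ‖x - c‖ ≤ (1 - e / 2) * w / 2) : tz e w c x = 1 := by
  rw [tz, min_eq_left, max_eq_right zero_le_one]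
  rw [one_le_div (by positivity)]
  linarith

theorem tz_neg (e w : ℝ) (c x : UnitAddCircle) : tz e w c (-x) = tz e w (-c) x := by
  rw [tz, tz, ← norm_neg (-x - c)]
  congr 5
  abel

theorem Arcs.sum_tz {κ : Type} {s : Finset κ} {c : κ → UnitAddCircle} {w : κ → ℝ}
    (h : Arcs s c w) {e : ℝ} (he : 0 < e) (v : κ → ℂ) {x : UnitAddCircle} {i : κ} (hi : i ∈ s)
    (hx : ‖x - c i‖ < w i / 2) :
    ∑ j ∈ s, v j * (tz e (w j) (c j) x : ℂ) = v i * (tz e (w i) (c i) x : ℂ) := by
  refine Finset.sum_eq_single_of_mem i hi fun j hj hji => ?_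
  have h1 := h.sep j hj i hi hji
  have h2 : ‖c j - c i‖ ≤ ‖x - c j‖ + ‖x - c i‖ := by
    rw [← norm_neg (x - c j)]
    refine le_of_eq_of_le ?_ (norm_add_le _ _)
    congr 1; abel
  rw [tz_zero he (h.pos j hj) (by linarith), Complex.ofReal_zero, mul_zero]

/-- centres of the doubled family -/
def ctr (θ : Z3 → UnitAddCircle) (i : Z3 × Bool) : UnitAddCircle := if i.2 then θ i.1 else -θ i.1

theorem arcs {Y : Finset Z3} {θ : Z3 → UnitAddCircle} {wd : Z3 → ℝ} (h0 : ∀ l ∈ Y, 0 < wd l)
    (h : SepFam Y θ wd) : Arcs (Y ×ˢ Finset.univ) (ctr θ) fun i => wd i.1 where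
  pos i hi := h0 _ (Finset.mem_product.1 hi).1
  le i hi := by
    have h1 := (h _ (Finset.mem_product.1 hi).1 _ (Finset.mem_product.1 hi).1).1
    have h2 := AddCircle.norm_le_half_period (1 : ℝ) (x := θ i.1 + θ i.1) one_ne_zero
    rw [abs_one] at h2
    linarith
  sep := by
    rintro ⟨l, b⟩ hi ⟨l', b'⟩ hj hij
    obtain ⟨h1, h2⟩ := h _ (Finset.mem_product.1 hi).1 _ (Finset.mem_product.1 hj).1
    cases b <;> cases b' <;> simp only [ctr, Bool.false_eq_true, if_true, if_false]
    · rw [neg_sub_neg, norm_sub_rev]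
      exact h2 fun h => hij (congrArg (·, false) h)
    · rwa [← neg_add', norm_neg]
    · rwa [sub_neg_eq_add]
    · exact h2 fun h => hij (congrArg (·, true) h)

theorem sum_double {M : Type} [AddCommMonoid M] (Y : Finset Z3) (f : Z3 × Bool → M) :
    ∑ i ∈ Y ×ˢ Finset.univ, f i = ∑ l ∈ Y, (f (l, true) + f (l, false)) := by
  rw [Finset.sum_product]
  exact Finset.sum_congr rfl fun l _ => Fintype.sum_bool _

end Circle

open _root_.Crest.Agent.R81.Circle

theorem sepSum : SepSumStmt := by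
  intro Y θ wd h0 h
  have := (arcs h0 h).sum_le
  rw [sum_double, Finset.sum_add_distrib] at this
  simp only at this
  linarith

theorem rie : RieStmt := by
  intro Y θ wd h0 h m ζ hm hζ hw
  have := (arcs h0 h).rie hm hζ fun i hi => hw _ (Finset.mem_product.1 hi).1
  rw [sum_double, sum_double, Finset.sum_add_distrib (f := fun l => wd l), ← two_mul] at this
  refine le_of_eq_of_le ?_ this
  congr 1
  refine Finset.sum_congr rfl fun l _ => ?_
  simp only [ctr, Bool.false_eq_true, if_true, if_false, fourier_apply, zsmul_neg, neg_zsmul,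
    mul_add]

theorem bump : BumpStmt := by
  intro Y θ wd h0 h e R v he he1 hR hv
  have hA := arcs h0 h
  let V : Z3 × Bool → ℂ := fun i => if i.2 then v i.1 else (starRingEnd ℂ) (v i.1)
  refine ⟨⟨fun x => ∑ i ∈ Y ×ˢ Finset.univ, V i * (tz e (wd i.1) (ctr θ i) x : ℂ), ?_⟩,
    fun x => ?_, fun x => ?_, fun l hl x hx => ?_, fun x hx => ?_⟩
  · exact continuous_finsetSum _ fun i _ =>
      continuous_const.mul (Complex.continuous_ofReal.comp (continuous_tz _ _ _))
  · simp only [ContinuousMap.coe_mk, sum_double, map_sum]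
    refine Finset.sum_congr rfl fun l _ => ?_
    simp only [V, ctr, Bool.false_eq_true, if_true, if_false, tz_neg, neg_neg, map_add, map_mul,
      Complex.conj_ofReal, Complex.conj_conj]
    ring
  · simp only [ContinuousMap.coe_mk]
    by_cases hx : ∃ i ∈ Y ×ˢ (Finset.univ : Finset Bool), ‖x - ctr θ i‖ < wd i.1 / 2
    · obtain ⟨i, hi, hx⟩ := hx
      rw [hA.sum_tz he V hi hx, norm_mul, Complex.norm_real, Real.norm_of_nonneg (tz_nonneg ..)]
      have h1 : ‖V i‖ ≤ R := by
        have := hv _ (Finset.mem_product.1 hi).1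
        simp only [V]
        split_ifs
        · exact this
        · rwa [Complex.norm_conj]
      exact (mul_le_of_le_one_right (norm_nonneg _) (tz_le ..)).trans h1
    · push Not at hx
      rw [Finset.sum_eq_zero fun i hi => by
        rw [tz_zero he (hA.pos i hi) (hx i hi), Complex.ofReal_zero, mul_zero]]
      rwa [norm_zero]
  · simp only [ContinuousMap.coe_mk]
    have hw := h0 l hl
    have hi : (l, true) ∈ Y ×ˢ (Finset.univ : Finset Bool) := by simpa using hl
    have hx' : ‖x - ctr θ (l, true)‖ ≤ (1 - e / 2) * wd l / 2 := hx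
    rw [hA.sum_tz he V hi (hx'.trans_lt (by nlinarith)), tz_one he hw hx']
    simp [V]
  · simp only [ContinuousMap.coe_mk]
    refine Finset.sum_eq_zero fun i hi => ?_
    have h1 := hx _ (Finset.mem_product.1 hi).1
    rw [tz_zero he (hA.pos i hi), Complex.ofReal_zero, mul_zero]
    simp only [ctr]
    split_ifs
    · exact h1.1
    · rw [sub_neg_eq_add]; exact h1.2

end Crest.Agent.R81
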