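import Crest.Agent.R81.Core4

/-! Row 81: the step, last part.  The invariant of the new state, and the core step theorem. -/

set_option autoImplicit false

namespace Crest.Agent.R81

open Crest.AnalysisR.Torus3 MeasureTheory Filter Topology
open Crest.Agent.R75 (ee)

namespace Core

variable {S : State} {n : NextData} {s : ℝ} {h : T3 ≃ₜ T3} {c : Z3 → ℤ → ℂ} {π : Z3}

lemma equivar_sh {χ : ℝ → ℝ} (hχ : SmoothPer χ) (ℓ : Z3) (β : V) : Equivar (sh χ ℓ β) := by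
  constructor
  · refine contDiff_id.add ((hχ.smooth.comp ?_).smul contDiff_const)
    unfold rdot
    fun_prop
  · intro x k
    have := hχ.per.int_mul (idot ℓ k) (rdot ℓ x)
    rw [mul_one] at this
    simp only [sh, rdot_add_right, rdot_intCast, this]
    abel

lemma Equivar.comp {F G : V → V} (hF : Equivar F) (hG : Equivar G) : Equivar (F ∘ G) :=
  ⟨hF.smooth.comp hG.smooth, fun x k => by simp only [Function.comp, hG.equi, hF.equi]⟩

lemma SmoothPer.neg {χ : ℝ → ℝ} (hχ : SmoothPer χ) : SmoothPer (-χ) :=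
  ⟨hχ.smooth.neg, fun x => by simp only [Pi.neg_apply, hχ.per x]⟩

namespace Ctx

variable (C : Ctx S n s h c π)
include C

lemma dvd_idx {l : Z3} (hl : l ∈ S.X) {k : ℤ} (hk : k ∈ S.d.Good (idot l S.B)) {d : ℤ} {μ : Z3}
    (hμ : l + k • S.ℓ = d • μ) : ∃ k' : ℤ, k = d * k' ∧ l = d • (μ - k' • S.ℓ) := by
  have h1 : d ∣ idot l S.B := ⟨idot μ S.B, by rw [← C.idot_desc l k, hμ, idot_smul_left]⟩
  have h2 := C.hS.spec.dvd_M _ (C.hS.val l hl).1 (C.hS.val l hl).2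
  have h3 := C.hS.spec.dvd_ρ _ (C.hS.val l hl).1 (C.hS.val l hl).2
  have h4 : idot l S.B ∣ k := by simpa using dvd_add (h2.trans ((C.good hl).sub k hk)) h3
  obtain ⟨k', rfl⟩ := h1.trans h4
  refine ⟨k', rfl, ?_⟩
  rw [smul_sub, ← hμ, smul_smul, add_sub_cancel_right]

lemma divClosed {Y : Finset Z3} (hY : Y ⊆ S.X) (hd : DivClosed Y) :
    DivClosed (desc S s Y ∪ fill S s π) := by
  intro ν hν d μ hd0 hμ
  rcases Finset.mem_union.1 hν with h1 | h1
  · obtain ⟨l, hl, k, hk, rfl⟩ := mem_desc.1 h1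
    have hk' := C.mem_Sl.1 hk
    obtain ⟨k', rfl, h2⟩ := C.dvd_idx (hY hl) hk'.1 hμ
    have hl' := hd l hl d _ hd0 h2
    set l' := μ - k' • S.ℓ with hl'def
    have h3 : idot l S.B = d * idot l' S.B := by rw [h2, idot_smul_left]
    refine Finset.mem_union_left _ (mem_desc.2 ⟨l', hl', k', C.mem_Sl.2 ⟨?_, ?_⟩, by simp [hl'def]⟩)
    · refine C.hS.spec.div _ d k' (C.hS.val l' (hY hl')).1 hd0 ?_ ?_
      · rw [← h3]; exact (C.hS.val l (hY hl)).2
      · rw [← h3]; exact hk'.1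
    · have h4 : S.wd l = d * S.wd l' := by
        simp only [State.wd, h3]; push_cast; ring
      have h5 := hk'.2
      have hd' : (0 : ℝ) < d := by exact_mod_cast hd0
      rw [h4, Int.cast_mul, abs_mul, abs_of_pos hd'] at h5
      refine le_of_mul_le_mul_left ?_ hd'
      linarith
  · obtain ⟨k, hk, rfl⟩ := mem_fill.1 h1
    obtain ⟨k', -, h2⟩ := C.dvd_idx C.πX (C.mem_FI.1 hk).2.1 hμ
    obtain rfl := C.πprim d _ hd0 h2
    rw [one_smul] at hμ
    exact hμ ▸ hν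

lemma ratw : RatVec (S.w + s • S.v) := by
  obtain ⟨Dw, hDw, hw⟩ := C.hS.ratw
  obtain ⟨q, hq⟩ := C.anc.2
  have hM : (0 : ℝ) < S.d.M0 := by exact_mod_cast C.hS.spec.M0_pos
  have hq0 : 0 < q := by
    have : (0 : ℝ) < q := by
      by_contra hn
      nlinarith [mul_nonneg (mul_pos C.s_pos hM).le (neg_nonneg.2 (not_lt.1 hn))]
    exact_mod_cast this
  lift q to ℕ using hq0.le
  have hq1 : 0 < q := by exact_mod_cast hq0
  refine ⟨Dw * (S.L * (S.d.M0 * q)),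
    Nat.mul_pos hDw (Nat.mul_pos C.hS.L_pos (Nat.mul_pos C.hS.spec.M0_pos hq1)), fun i => ?_⟩
  obtain ⟨z, hz⟩ := hw i
  have hL : (S.L : ℝ) ≠ 0 := by exact_mod_cast C.hS.L_pos.ne'
  refine ⟨z * (S.L * (S.d.M0 * q)) + if i = S.a then Dw else 0, ?_⟩
  simp only [State.v, Pi.add_apply, Pi.smul_apply, smul_eq_mul, Pi.single_apply]
  push_cast at hq ⊢
  rw [← hz]
  split_ifs
  · field_simp
    linear_combination (-1 : ℝ) * hq
  · ring

lemma one_le_val' {l : Z3} (hl : l ∈ S.X) : 1 ≤ idot l n.B := by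
  have h1 := abs_le.1 (C.hS.near1 l hl)
  have h2 := C.one_le_val hl
  have h3 := C.e_le
  have hD : (0 : ℝ) < S.D := by exact_mod_cast C.hS.D_pos
  have hD' : (0 : ℝ) < n.D := by exact_mod_cast C.hn.D_pos
  have h4 : 0 < rdot l S.β := pos_of_mul_pos_of_pos_left' hD (by linarith [h1.1])
  have h5 : (0 : ℝ) < (idot l n.B : ℤ) := by rw [idot_cast C.hn.B_eq]; positivity
  have : 0 < idot l n.B := by exact_mod_cast h5
  omega
where
  pos_of_mul_pos_of_pos_left' {a b : ℝ} (ha : 0 < a) (h : 0 < a * b) : 0 < b :=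
    (mul_pos_iff_of_pos_left ha).1 h

lemma preValid (hC : CountStmt) (hSum : SepSumStmt) : PreValid (New S n s h c π) where
  mp := C.mpNew
  eHl := Equivar.comp (F := S.Hl) (G := sh (S.chi s) S.ℓ S.β) C.hS.eHl (equivar_sh C.chi_sp _ _)
  eHi := Equivar.comp (F := sh (-S.chi s) S.ℓ S.β) (G := S.Hi)
    (equivar_sh (SmoothPer.neg C.chi_sp) _ _) C.hS.eHi
  lHl x := by
    change S.H (h (proj x)) = proj (S.Hl (sh (S.chi s) S.ℓ S.β x))
    rw [C.shear.lift, C.hS.lHl]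
  lHi x := by
    change h.symm (S.H.symm (proj x)) = proj (sh (-S.chi s) S.ℓ S.β (S.Hi x))
    rw [C.hS.lHi, C.shear.lift_symm]
  aa := by
    change (S.a' = 0 ∧ S.a = 1) ∨ (S.a' = 1 ∧ S.a = 0)
    have := C.hS.aa
    tauto
  β2 := C.hS.β2
  ratw := C.ratw
  L_pos := C.hn.L_pos
  ℓa := C.hn.ℓa
  ℓa' := C.hn.ℓa'
  ℓβ := C.hn.ℓβ
  ℓB := by
    have : ((idot n.ℓ n.B : ℤ) : ℝ) = 0 := by rw [idot_cast C.hn.B_eq, C.hn.ℓβ, mul_zero]
    exact_mod_cast this
  ℓw := by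
    obtain ⟨z, hz⟩ := C.hn.ℓw
    refine ⟨z, ?_⟩
    change rdot n.ℓ (S.w + s • S.v) = z
    simp [State.v, rdot_add_right, rdot_smul_right, rdot_single, hz, C.hn.ℓa']
  b_pos := by
    have hD : (0 : ℝ) < S.D := by exact_mod_cast C.hS.D_pos
    exact mul_pos (mul_pos (by linarith [C.e_le]) hD) C.s_pos
  D_pos := C.hn.D_pos
  bA := C.small2
  spec := C.hn.spec
  prof := C.hn.prof
  sub := New_sub C.hS.sub
  ne := by
    by_contra hne
    have h1 := C.gap_le hC hSum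
    rw [State.gap, Finset.not_nonempty_iff_eq_empty.1 hne, Finset.sum_empty] at h1
    linarith [C.e_le]
  dO := C.divClosed C.hS.sub C.hS.dO
  dX := C.divClosed subset_rfl C.hS.dX
  val ν hν := by
    obtain ⟨l, hl, k, -, rfl⟩ := C.parent C.πX hν
    change 1 ≤ idot (l + k • S.ℓ) n.B ∧ idot (l + k • S.ℓ) n.B ≤ n.d.Amax
    rw [C.idot_desc']
    exact ⟨C.one_le_val' hl, C.hn.val_le l hl⟩
  γn ν hν := C.γ_norm hν
  sep := C.sepO
  old ν hν := by
    obtain ⟨l, hl, k, -, rfl⟩ := C.parent C.πO hν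
    change ∀ a' ∈ n.d.Vnew, ¬ a' ∣ idot (l + k • S.ℓ) n.B
    rw [C.idot_desc']
    exact C.hn.old l hl
  sepX ν hν ν' hν' := by
    obtain ⟨l, hl, k, -, rfl⟩ := C.parent C.πX hν
    obtain ⟨l', hl', k', -, rfl⟩ := C.parent C.πX hν'
    have := C.hn.sepX l hl l' hl'
    have e : ∀ (l : Z3) (k : ℤ), (l + k • S.ℓ) S.a' = l S.a' := fun l k => by
      simp [C.hS.ℓa']
    rw [← C.idot_desc' l k, ← C.idot_desc' l' k', ← e l k, ← e l' k'] at this
    exact this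
  B_eq := C.hn.B_eq
  genPre ν hν ν' hν' m h1 h2 := by
    obtain ⟨l, hl, k, -, rfl⟩ := C.parent C.πX hν
    obtain ⟨l', hl', k', -, rfl⟩ := C.parent C.πX hν'
    change rdot _ S.β = 0 at h1
    change (l + k • S.ℓ - m • (l' + k' • S.ℓ)) S.a = 0 at h2
    rw [rdot_sub_left, rdot_smul_left, C.rdot_desc, C.rdot_desc, ← rdot_smul_left,
      ← rdot_sub_left] at h1
    obtain rfl := C.hS.gen l hl l' hl' m h1
    have hL : (S.L : ℤ) ≠ 0 := by exact_mod_cast C.hS.L_pos.ne'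
    have h3 : (k - m * k') * (S.L : ℤ) = 0 := by
      simp only [Pi.sub_apply, Pi.add_apply, Pi.smul_apply, smul_eq_mul, C.hS.ℓa] at h2
      linear_combination h2
    have h4 : k = m * k' := sub_eq_zero.1 ((mul_eq_zero.1 h3).resolve_right hL)
    rw [h4, smul_add, smul_smul]

lemma stepOut (hC : CountStmt) (hSum : SepSumStmt) (hO : OrthStmt) (hT : TransStmt) :
    StepOut S (New S n s h c π) where
  parO ν hν := by
    obtain ⟨l, hl, k, -, rfl⟩ := C.parent C.πO hν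
    exact ⟨l, hl, k, rfl⟩
  parN ν h1 h2 := by
    obtain ⟨l, hl, hO, k, -, rfl⟩ := parent_new h1 h2
    exact ⟨l, hl, hO, k, rfl⟩
  gap := C.gap_le hC hSum
  stab := C.stab hC hSum hO hT
  trans := C.trans hT
  clus := C.clus
  ins := C.ins

end Ctx

lemma exists_prim (hS : Valid S) :
    ∃ π ∈ S.O, ∀ (d : ℤ) (μ : Z3), 0 < d → π = d • μ → d = 1 := by
  obtain ⟨π, hπ, hmin⟩ := S.O.exists_min_image (fun l => idot l S.B) hS.ne
  refine ⟨π, hπ, fun d μ hd hμ => ?_⟩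
  have hμO := hS.dO π hπ d μ hd hμ
  have h1 := hmin μ hμO
  have h2 := (hS.val μ (hS.sub hμO)).1
  rw [hμ, idot_smul_left] at h1
  nlinarith

lemma ev_small (K : ℝ) {ε : ℝ} (hε : 0 < ε) : ∀ᶠ s in 𝓝[>] (0 : ℝ), s * K ≤ ε := by
  have : Tendsto (fun s : ℝ => s * K) (𝓝 0) (𝓝 (0 * K)) := (continuous_id.mul continuous_const).tendsto 0
  rw [zero_mul] at this
  exact (this.eventually (ge_mem_nhds hε)).filter_mono nhdsWithin_le_nhds

lemma ka_mode (hKA : KAStmt) (hS : Valid S) {l : Z3} (hl : l ∈ S.X) :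
    ∀ᶠ s in 𝓝[>] (0 : ℝ), ∃ c : ℤ → ℂ, (∀ k, ‖c k‖ ^ 2 = S.d.M (idot l S.B) * s / S.wd l) ∧
      ∫ x in (0 : ℝ)..1,
        ‖ee (rdot l S.β * S.chi s x) - ∑ k ∈ Sl S s l, c k * ee (k * x)‖ ^ 2 ≤ 100 * S.d.e := by
  have h1 := (hS.val l hl).1
  have h2 := (hS.val l hl).2
  refine hKA S.d.e S.d.M0 _ _ _ _ _ S.φ S.ψ (rdot l S.β) S.b (S.wd l) hS.spec.e_pos hS.spec.e_le
    hS.spec.M0_pos (hS.spec.M_pos _ h1 h2) (hS.spec.flat _ h1 h2) (hS.spec.good _ h1 h2) hS.prof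
    ?_ (hS.wd_pos hl) ?_
  · have h3 : ∀ i ∈ Finset.range S.d.M0,
        ‖ee (rdot l S.β * (S.D * S.d.τ i)) - S.d.f (idot l S.B) i‖ ^ 2 ≤
          2 * S.d.e ^ 2 + 2 * ‖ee ((idot l S.B : ℤ) * S.d.τ i) - S.d.f (idot l S.B) i‖ ^ 2 := by
      intro i hi
      have h4 := hS.near2 l hl i (Finset.mem_range.1 hi)
      have h5 := norm_sub_le_norm_sub_add_norm_sub (ee (rdot l S.β * (S.D * S.d.τ i)))
        (ee ((idot l S.B : ℤ) * S.d.τ i)) (S.d.f (idot l S.B) i)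
      have h6 := pow_le_pow_left₀ (norm_nonneg _) (h5.trans (add_le_add h4 le_rfl)) 2
      nlinarith [sq_nonneg (S.d.e - ‖ee ((idot l S.B : ℤ) * S.d.τ i) - S.d.f (idot l S.B) i‖)]
    refine (Finset.sum_le_sum h3).trans ?_
    rw [Finset.sum_add_distrib, Finset.sum_const, Finset.card_range, nsmul_eq_mul,
      ← Finset.mul_sum]
    linarith [hS.spec.approx _ h1 h2]
  · have hD : (0 : ℝ) < S.D := by exact_mod_cast hS.D_pos
    have h3 : rdot l S.β * S.b - S.wd l = S.b / S.D * (S.D * rdot l S.β - (idot l S.B : ℤ)) := by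
      unfold State.wd; field_simp
    have h4 : S.d.e / 4 * S.wd l = S.b / S.D * (S.d.e / 4 * (idot l S.B : ℤ)) := by
      unfold State.wd; ring
    have h5 : 0 < S.b / S.D := div_pos hS.b_pos hD
    have h6 : (1 : ℝ) ≤ (idot l S.B : ℤ) := by exact_mod_cast h1
    rw [h3, h4, abs_mul, abs_of_pos h5]
    refine mul_le_mul_of_nonneg_left ((hS.near1 l hl).trans ?_) h5.le
    nlinarith [hS.spec.e_pos]

end Core

open Crest.Agent.R81.Core in
theorem core (hKA : KAStmt) (hC : CountStmt) (hSum : SepSumStmt) (hO : OrthStmt)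
    (hT : TransStmt) : CoreStmt := by
  intro S n hS hn
  obtain ⟨π, hπ, hprim⟩ := exists_prim hS
  have he := hS.spec.e_pos
  have hD' : (0 : ℝ) < n.D := by exact_mod_cast hn.D_pos
  have E1 := (eventually_all_finset S.X).2 fun l hl => ka_mode hKA hS hl
  have E2 := (eventually_all_finset S.X).2 fun l hl =>
    ev_small (|(l S.a : ℝ)| + S.d.Amax + S.d.M0)
      (show 0 < S.d.e * S.wd l / 4 from div_pos (mul_pos he (hS.wd_pos hl)) four_pos)
  have E3 := ev_small ((1 - S.d.e) * S.D * n.d.Amax) (half_pos hD')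
  have E4 := ev_small (2 * S.d.Amax + 2 * S.d.M0 + S.O.card * (3 * S.d.Amax)) (half_pos he)
  filter_upwards [E1, E2, E3, E4, self_mem_nhdsWithin] with s h1 h2 h3 h4 hs hanc h hsh
  choose! c hc using h1
  have C : Ctx S n s h c π :=
    ⟨hS, hn, hs, hanc, hsh, fun l hl => (hc l hl).1, fun l hl => (hc l hl).2, hπ, hprim, h2,
      by linarith, h4⟩
  exact ⟨_, _, _, C.preValid hC hSum, C.stepOut hC hSum hO hT⟩

end Crest.Agent.R81
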