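import Crest.Agent.R81.Basic

/-! Row 81: the step, part 1.  The new frequencies, their eigenvalues and widths. -/

set_option autoImplicit false

namespace Crest.Agent.R81.Core

open Crest.AnalysisR.Torus3 MeasureTheory Filter Topology
open Crest.Agent.R75 (ee)

/-- indices of the descendants of `l` -/
noncomputable def Sl (S : State) (s : ℝ) (l : Z3) : Finset ℤ :=
  Sset (S.d.Good (idot l S.B)) s ((1 - S.d.e) * S.wd l / 2)

/-- displacement of the eigenvalue -/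
noncomputable def shift (S : State) (s : ℝ) (l : Z3) (k : ℤ) : ℝ := s * k + s * l S.a / S.L

/-- real representative of the new eigenvalue -/
noncomputable def pos (S : State) (s : ℝ) (l : Z3) (k : ℤ) : ℝ := rdot l S.w + shift S s l k

open Classical in
/-- indices of the fillers -/
noncomputable def FI (S : State) (s : ℝ) (π : Z3) : Finset ℤ :=
  (Finset.Icc ⌈(S.d.Amax * s - pos S s π 0) / s⌉ ⌊(1 / 2 - S.d.Amax * s - pos S s π 0) / s⌋).filter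
    fun k => k ∈ S.d.Good (idot π S.B) ∧
      ∀ l ∈ S.O, S.wd l / 2 + S.d.Amax * s ≤ |pos S s π k - ‖S.θ l‖|

noncomputable def pairs (S : State) (s : ℝ) (Y : Finset Z3) : Finset (Σ _ : Z3, ℤ) :=
  Y.sigma fun l => Sl S s l

def mp (S : State) (p : Σ _ : Z3, ℤ) : Z3 := p.1 + p.2 • S.ℓ

noncomputable def desc (S : State) (s : ℝ) (Y : Finset Z3) : Finset Z3 :=
  (pairs S s Y).image (mp S)

noncomputable def fill (S : State) (s : ℝ) (π : Z3) : Finset Z3 :=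
  (FI S s π).image fun k => π + k • S.ℓ

/-- transport of coefficients -/
noncomputable def push (S : State) (s : ℝ) (c : Z3 → ℤ → ℂ) (Y : Finset Z3) (f : Z3 → ℂ)
    (ν : Z3) : ℂ :=
  ∑ p ∈ (pairs S s Y).filter (fun p => mp S p = ν), f p.1 * c p.1 p.2

noncomputable def phase (z : ℂ) : ℂ := if z = 0 then 1 else z / ‖z‖

noncomputable def wdN (S : State) (n : NextData) (s : ℝ) (ν : Z3) : ℝ :=
  (1 - S.d.e) * S.D * s * (idot ν n.B : ℝ) / n.D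

/-- the new state -/
noncomputable def New (S : State) (n : NextData) (s : ℝ) (h : T3 ≃ₜ T3) (c : Z3 → ℤ → ℂ) (π : Z3) :
    State :=
  S.next n s h (desc S s S.O ∪ fill S s π) (desc S s S.X ∪ fill S s π)
    fun ν => phase (push S s c S.O S.γ ν) * (√(wdN S n s ν) : ℝ)

structure Ctx (S : State) (n : NextData) (s : ℝ) (h : T3 ≃ₜ T3) (c : Z3 → ℤ → ℂ) (π : Z3) :
    Prop where
  hS : Valid S
  hn : NextSpec S n
  s_pos : 0 < s
  anc : Anchor S s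
  shear : IsShear h (S.chi s) S.ℓ S.β
  cn : ∀ l ∈ S.X, ∀ k, ‖c l k‖ ^ 2 = S.d.M (idot l S.B) * s / S.wd l
  ka : ∀ l ∈ S.X, ∫ x in (0 : ℝ)..1,
    ‖ee (rdot l S.β * S.chi s x) - ∑ k ∈ Sl S s l, c l k * ee (k * x)‖ ^ 2 ≤ 100 * S.d.e
  πO : π ∈ S.O
  πprim : ∀ (d : ℤ) (μ : Z3), 0 < d → π = d • μ → d = 1
  small1 : ∀ l ∈ S.X, s * (|(l S.a : ℝ)| + S.d.Amax + S.d.M0) ≤ S.d.e * S.wd l / 4
  small2 : (1 - S.d.e) * S.D * s * n.d.Amax ≤ n.D / 2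
  small3 : s * (2 * S.d.Amax + 2 * S.d.M0 + S.O.card * (3 * S.d.Amax)) ≤ S.d.e / 2

lemma norm_phase (z : ℂ) : ‖phase z‖ = 1 := by
  unfold phase
  split_ifs with h
  · simp
  · simp [norm_ne_zero_iff.mpr h]

lemma phase_mul (z : ℂ) : phase z * (‖z‖ : ℝ) = z := by
  unfold phase
  split_ifs with h
  · simp [h]
  · have : ((‖z‖ : ℝ) : ℂ) ≠ 0 := by exact_mod_cast norm_ne_zero_iff.mpr h
    field_simp

lemma le_norm_coe {x r : ℝ} (h : ∀ j : ℤ, r ≤ |x - j|) : r ≤ ‖(x : UnitAddCircle)‖ := by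
  rw [UnitAddCircle.norm_eq]; exact h _

lemma norm_coe_le (x : ℝ) : ‖(x : UnitAddCircle)‖ ≤ |x| := by
  simpa using QuotientAddGroup.norm_mk_le_norm (S := AddSubgroup.zmultiples (1 : ℝ)) (m := x)

lemma norm_coe_eq {x : ℝ} (h : |x| ≤ 1 / 2) : ‖(x : UnitAddCircle)‖ = |x| :=
  (AddCircle.norm_coe_eq_abs_iff (1 : ℝ) one_ne_zero).2 (by simpa using h)

lemma coe_add_int (x : ℝ) (z : ℤ) : ((x + z : ℝ) : UnitAddCircle) = (x : UnitAddCircle) := by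
  have : ((z : ℝ) : UnitAddCircle) = 0 := by
    rw [AddCircle.coe_eq_zero_iff]; exact ⟨z, by simp⟩
  rw [AddCircle.coe_add, this, add_zero]

lemma pos_eq (S : State) (s : ℝ) (l : Z3) (k : ℤ) : pos S s l k = pos S s l 0 + s * k := by
  simp only [pos, shift]; push_cast; ring

variable {S : State} {n : NextData} {s : ℝ} {h : T3 ≃ₜ T3} {c : Z3 → ℤ → ℂ} {π : Z3}

lemma mem_pairs {Y : Finset Z3} {p : Σ _ : Z3, ℤ} :
    p ∈ pairs S s Y ↔ p.1 ∈ Y ∧ p.2 ∈ Sl S s p.1 := Finset.mem_sigma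

lemma mem_desc {Y : Finset Z3} {ν : Z3} :
    ν ∈ desc S s Y ↔ ∃ l ∈ Y, ∃ k ∈ Sl S s l, ν = l + k • S.ℓ := by
  simp only [desc, Finset.mem_image, mem_pairs, mp]
  constructor
  · rintro ⟨p, ⟨h1, h2⟩, rfl⟩; exact ⟨p.1, h1, p.2, h2, rfl⟩
  · rintro ⟨l, h1, k, h2, rfl⟩; exact ⟨⟨l, k⟩, ⟨h1, h2⟩, rfl⟩

lemma mem_fill {ν : Z3} : ν ∈ fill S s π ↔ ∃ k ∈ FI S s π, ν = π + k • S.ℓ := by
  simp only [fill, Finset.mem_image, eq_comm]

lemma New_O : (New S n s h c π).O = desc S s S.O ∪ fill S s π := rfl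
lemma New_X : (New S n s h c π).X = desc S s S.X ∪ fill S s π := rfl
lemma New_wd (ν : Z3) : (New S n s h c π).wd ν = wdN S n s ν := rfl
lemma New_H : (New S n s h c π).H = h.trans S.H := rfl
lemma New_γ (ν : Z3) :
    (New S n s h c π).γ ν = phase (push S s c S.O S.γ ν) * (√(wdN S n s ν) : ℝ) := rfl

namespace Ctx

variable (C : Ctx S n s h c π)
include C

lemma e_pos : 0 < S.d.e := C.hS.spec.e_pos
lemma e_le : S.d.e ≤ 1 / 10 := C.hS.spec.e_le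
lemma πX : π ∈ S.X := C.hS.sub C.πO

lemma one_le_val {l : Z3} (hl : l ∈ S.X) : (1 : ℝ) ≤ (idot l S.B : ℤ) := by
  exact_mod_cast (C.hS.val l hl).1

lemma val_le {l : Z3} (hl : l ∈ S.X) : ((idot l S.B : ℤ) : ℝ) ≤ S.d.Amax := by
  exact_mod_cast (C.hS.val l hl).2

lemma one_le_Amax : (1 : ℝ) ≤ S.d.Amax := (C.one_le_val C.πX).trans (C.val_le C.πX)

lemma good {l : Z3} (hl : l ∈ S.X) :
    GoodSet S.d.M0 (S.d.M (idot l S.B)) (S.d.ρ (idot l S.B)) S.d.e (S.d.Good (idot l S.B)) :=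
  C.hS.spec.good _ (C.hS.val l hl).1 (C.hS.val l hl).2

lemma M_pos {l : Z3} (hl : l ∈ S.X) : 0 < S.d.M (idot l S.B) :=
  C.hS.spec.M_pos _ (C.hS.val l hl).1 (C.hS.val l hl).2

lemma val_le_M {l : Z3} (hl : l ∈ S.X) : idot l S.B ≤ S.d.M (idot l S.B) :=
  Int.le_of_dvd (C.M_pos hl) (C.hS.spec.dvd_M _ (C.hS.val l hl).1 (C.hS.val l hl).2)

lemma M_old {l : Z3} (hl : l ∈ S.O) : S.d.M (idot l S.B) = idot l S.B :=
  C.hS.spec.old _ (C.hS.val l (C.hS.sub hl)).1 (C.hS.val l (C.hS.sub hl)).2 (C.hS.old l hl)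

lemma mem_Sl {l : Z3} {k : ℤ} :
    k ∈ Sl S s l ↔ k ∈ S.d.Good (idot l S.B) ∧ |(k : ℝ)| * s ≤ (1 - S.d.e) * S.wd l / 2 := by
  simp only [Sl, Sset, Finset.mem_filter, Finset.mem_Icc]
  rw [← abs_le, Int.le_floor, Int.cast_abs, le_div_iff₀ C.s_pos, and_comm]

lemma mem_FI {k : ℤ} :
    k ∈ FI S s π ↔ (S.d.Amax * s ≤ pos S s π k ∧ pos S s π k ≤ 1 / 2 - S.d.Amax * s) ∧
      k ∈ S.d.Good (idot π S.B) ∧
      ∀ l ∈ S.O, S.wd l / 2 + S.d.Amax * s ≤ |pos S s π k - ‖S.θ l‖| := by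
  simp only [FI, Finset.mem_filter, Finset.mem_Icc]
  rw [Int.ceil_le, Int.le_floor, div_le_iff₀ C.s_pos, le_div_iff₀ C.s_pos, pos_eq S s π k]
  refine and_congr_left fun _ => and_congr ?_ ?_ <;> constructor <;> intro <;> linarith

lemma rdot_desc (l : Z3) (k : ℤ) : rdot (l + k • S.ℓ) S.β = rdot l S.β := by
  rw [rdot_add_left, rdot_smul_left, C.hS.ℓβ, mul_zero, add_zero]

lemma idot_desc (l : Z3) (k : ℤ) : idot (l + k • S.ℓ) S.B = idot l S.B := by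
  rw [idot_add_left, idot_smul_left, C.hS.ℓB, mul_zero, add_zero]

lemma idot_desc' (l : Z3) (k : ℤ) : idot (l + k • S.ℓ) n.B = idot l n.B := by
  have : ((idot (l + k • S.ℓ) n.B : ℤ) : ℝ) = (idot l n.B : ℤ) := by
    rw [idot_cast C.hn.B_eq, idot_cast C.hn.B_eq, C.rdot_desc]
  exact_mod_cast this

lemma inj_val {l l' : Z3} (hl : l ∈ S.X) (hl' : l' ∈ S.X) (h : rdot l S.β = rdot l' S.β) :
    l = l' := by
  simpa using C.hS.gen l hl l' hl' 1 (by rw [one_smul, rdot_sub_left, h, sub_self])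

lemma inj_idx {l : Z3} {k k' : ℤ} (h : l + k • S.ℓ = l + k' • S.ℓ) : k = k' :=
  smul_left_injective ℤ C.hS.ℓ_ne (add_left_cancel h)

lemma uniq {l l' : Z3} {k k' : ℤ} (hl : l ∈ S.X) (hl' : l' ∈ S.X)
    (h : l + k • S.ℓ = l' + k' • S.ℓ) : l = l' ∧ k = k' := by
  have h1 : l = l' := C.inj_val hl hl' (by rw [← C.rdot_desc l k, h, C.rdot_desc])
  subst h1
  exact ⟨rfl, C.inj_idx h⟩

lemma injOn_mp {Y : Finset Z3} (hY : Y ⊆ S.X) : Set.InjOn (mp S) (pairs S s Y) := by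
  rintro ⟨l, k⟩ hp ⟨l', k'⟩ hp' h
  obtain ⟨rfl, rfl⟩ := C.uniq (hY (mem_pairs.1 hp).1) (hY (mem_pairs.1 hp').1) h
  rfl

lemma sum_desc {M : Type*} [AddCommMonoid M] {Y : Finset Z3} (hY : Y ⊆ S.X) (g : Z3 → M) :
    ∑ ν ∈ desc S s Y, g ν = ∑ l ∈ Y, ∑ k ∈ Sl S s l, g (l + k • S.ℓ) := by
  rw [desc, Finset.sum_image (C.injOn_mp hY), pairs, Finset.sum_sigma]
  rfl

lemma sum_fill {M : Type*} [AddCommMonoid M] (g : Z3 → M) :
    ∑ ν ∈ fill S s π, g ν = ∑ k ∈ FI S s π, g (π + k • S.ℓ) := by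
  rw [fill, Finset.sum_image fun k _ k' _ h => C.inj_idx h]

lemma push_desc {Y : Finset Z3} (hY : Y ⊆ S.X) (f : Z3 → ℂ) {l : Z3} (hl : l ∈ Y) {k : ℤ}
    (hk : k ∈ Sl S s l) : push S s c Y f (l + k • S.ℓ) = f l * c l k := by
  have hp : (⟨l, k⟩ : Σ _ : Z3, ℤ) ∈ pairs S s Y := mem_pairs.2 ⟨hl, hk⟩
  rw [push, Finset.sum_eq_single (⟨l, k⟩ : Σ _ : Z3, ℤ)]
  · intro p hp' hne
    rw [Finset.mem_filter] at hp'
    exact absurd (C.injOn_mp hY hp'.1 hp hp'.2) hne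
  · intro h
    exact absurd (Finset.mem_filter.2 ⟨hp, show mp S ⟨l, k⟩ = l + k • S.ℓ from rfl⟩) h

omit C in
lemma push_notMem {Y : Finset Z3} (f : Z3 → ℂ) {ν : Z3} (hν : ν ∉ desc S s Y) :
    push S s c Y f ν = 0 := by
  refine Finset.sum_eq_zero fun p hp => ?_
  rw [Finset.mem_filter] at hp
  exact absurd (Finset.mem_image.2 ⟨p, hp.1, hp.2⟩) hν

lemma θ_eq (l : Z3) (k : ℤ) :
    (New S n s h c π).θ (l + k • S.ℓ) = ((pos S s l k : ℝ) : UnitAddCircle) := by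
  obtain ⟨z, hz⟩ := C.hS.ℓw
  have hL : (S.L : ℝ) ≠ 0 := by exact_mod_cast C.hS.L_pos.ne'
  have hℓ : ((S.ℓ S.a : ℤ) : ℝ) = S.L := by rw [C.hS.ℓa]; simp
  have : rdot (l + k • S.ℓ) (S.w + s • S.v) = pos S s l k + (k * z : ℤ) := by
    rw [rdot_add_left, rdot_smul_left]
    simp only [State.v, rdot_add_right, rdot_smul_right, rdot_single, hz, hℓ, pos, shift]
    push_cast
    field_simp
    ring
  change ((rdot (l + k • S.ℓ) (S.w + s • S.v) : ℝ) : UnitAddCircle) = _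
  rw [this, coe_add_int]

lemma θ_eq' (l : Z3) (k : ℤ) :
    (New S n s h c π).θ (l + k • S.ℓ) = S.θ l + ((shift S s l k : ℝ) : UnitAddCircle) := by
  rw [C.θ_eq, pos, AddCircle.coe_add]; rfl

lemma wd_eq (l : Z3) (k : ℤ) :
    wdN S n s (l + k • S.ℓ) = (1 - S.d.e) * s * (S.D * rdot l S.β) := by
  have hD : (n.D : ℝ) ≠ 0 := by exact_mod_cast C.hn.D_pos.ne'
  rw [wdN, idot_cast C.hn.B_eq, C.rdot_desc]
  field_simp

lemma wd_ub {l : Z3} (hl : l ∈ S.X) (k : ℤ) :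
    wdN S n s (l + k • S.ℓ) ≤ (idot l S.B : ℤ) * s := by
  have h1 := abs_le.1 (C.hS.near1 l hl)
  have h2 := C.one_le_val hl
  have h3 := C.e_pos
  have h4 := C.e_le
  have h5 : (1 - S.d.e) * (S.D * rdot l S.β) ≤ (idot l S.B : ℤ) := by nlinarith
  rw [C.wd_eq]
  nlinarith [C.s_pos]

lemma wd_lb {l : Z3} (hl : l ∈ S.X) (k : ℤ) :
    (1 - 2 * S.d.e) * ((idot l S.B : ℤ) * s) ≤ wdN S n s (l + k • S.ℓ) := by
  have h1 := abs_le.1 (C.hS.near1 l hl)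
  have h2 := C.one_le_val hl
  have h3 := C.e_pos
  have h4 := C.e_le
  have h5 : (1 - 2 * S.d.e) * (idot l S.B : ℤ) ≤ (1 - S.d.e) * (S.D * rdot l S.β) := by nlinarith
  rw [C.wd_eq]
  nlinarith [C.s_pos]

lemma wd_pos {l : Z3} (hl : l ∈ S.X) (k : ℤ) : 0 < wdN S n s (l + k • S.ℓ) := by
  refine lt_of_lt_of_le ?_ (C.wd_lb hl k)
  have h2 := C.one_le_val hl
  have h4 := C.e_le
  exact mul_pos (by linarith) (mul_pos (by linarith) C.s_pos)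

lemma wd_ub' {l : Z3} (hl : l ∈ S.X) (k : ℤ) : wdN S n s (l + k • S.ℓ) ≤ S.d.Amax * s :=
  (C.wd_ub hl k).trans (mul_le_mul_of_nonneg_right (C.val_le hl) C.s_pos.le)

lemma small_a {l : Z3} (hl : l ∈ S.X) : s * |(l S.a : ℝ)| ≤ S.d.e * S.wd l / 4 := by
  have h1 := C.small1 l hl
  have h2 := C.one_le_Amax
  have h3 : (0 : ℝ) ≤ S.d.M0 := Nat.cast_nonneg _
  nlinarith [C.s_pos]

lemma small_A {l : Z3} (hl : l ∈ S.X) : S.d.Amax * s ≤ S.d.e * S.wd l / 4 := by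
  have h1 := C.small1 l hl
  have h2 := abs_nonneg (l S.a : ℝ)
  have h3 : (0 : ℝ) ≤ S.d.M0 := Nat.cast_nonneg _
  nlinarith [C.s_pos]

lemma small_M {l : Z3} (hl : l ∈ S.X) : S.d.M0 * s ≤ S.d.e * S.wd l / 4 := by
  have h1 := C.small1 l hl
  have h2 := abs_nonneg (l S.a : ℝ)
  have h3 := C.one_le_Amax
  nlinarith [C.s_pos]

lemma abs_div_L (x : ℝ) : |x / S.L| ≤ |x| := by
  have hL : (1 : ℝ) ≤ S.L := by exact_mod_cast C.hS.L_pos
  rw [abs_div, abs_of_pos (by linarith : (0 : ℝ) < S.L)]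
  exact div_le_self (abs_nonneg _) hL

/-- descendants stay in the shrunken arc -/
lemma near {l : Z3} (hl : l ∈ S.X) {k : ℤ} (hk : k ∈ Sl S s l) :
    ‖(New S n s h c π).θ (l + k • S.ℓ) - S.θ l‖ ≤ (1 - S.d.e / 2) * S.wd l / 2 := by
  rw [C.θ_eq', add_sub_cancel_left]
  refine (norm_coe_le _).trans ((abs_add_le _ _).trans ?_)
  have h1 := (C.mem_Sl.1 hk).2
  have h2 := C.abs_div_L (s * l S.a)
  have h3 := C.small_a hl
  rw [abs_mul, abs_of_pos C.s_pos] at h2 ⊢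
  linarith

lemma norm_fill {k : ℤ} (hk : k ∈ FI S s π) :
    ‖(New S n s h c π).θ (π + k • S.ℓ)‖ = pos S s π k := by
  have h1 := (C.mem_FI.1 hk).1
  have h2 : 0 < S.d.Amax * s := mul_pos (by linarith [C.one_le_Amax]) C.s_pos
  have h3 : 0 ≤ pos S s π k := by linarith [h1.1]
  rw [C.θ_eq, norm_coe_eq (by rw [abs_of_nonneg h3]; linarith [h1.2]), abs_of_nonneg h3]

/-- fillers are far from the old arcs -/
lemma far {k : ℤ} (hk : k ∈ FI S s π) {l : Z3} (hl : l ∈ S.O) :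
    S.wd l / 2 + S.d.Amax * s ≤ ‖(New S n s h c π).θ (π + k • S.ℓ) - S.θ l‖ ∧
      S.wd l / 2 + S.d.Amax * s ≤ ‖(New S n s h c π).θ (π + k • S.ℓ) + S.θ l‖ := by
  have h1 := (C.mem_FI.1 hk).2.2 l hl
  rw [← C.norm_fill hk] at h1
  refine ⟨h1.trans (abs_norm_sub_norm_le _ _), ?_⟩
  rw [← norm_neg (S.θ l)] at h1
  simpa using h1.trans (abs_norm_sub_norm_le _ _)

lemma disjoint_fill {Y : Finset Z3} (hY : Y ⊆ S.X) : Disjoint (desc S s Y) (fill S s π) := by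
  rw [Finset.disjoint_left]
  intro ν h1 h2
  obtain ⟨l, hl, k, hk, rfl⟩ := mem_desc.1 h1
  obtain ⟨k', hk', h3⟩ := mem_fill.1 h2
  obtain ⟨rfl, rfl⟩ := C.uniq (hY hl) C.πX h3
  have h4 := C.near C.πX hk
  have h5 := (C.far hk' C.πO).1
  have h6 : 0 < S.d.Amax * s := mul_pos (by linarith [C.one_le_Amax]) C.s_pos
  nlinarith [mul_pos C.e_pos (C.hS.wd_pos C.πX)]

/-- every new frequency has a parent and a good index -/
lemma parent {Y : Finset Z3} (hπ : π ∈ Y) {ν : Z3} (hν : ν ∈ desc S s Y ∪ fill S s π) :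
    ∃ l ∈ Y, ∃ k ∈ S.d.Good (idot l S.B), ν = l + k • S.ℓ := by
  rcases Finset.mem_union.1 hν with h1 | h1
  · obtain ⟨l, hl, k, hk, rfl⟩ := mem_desc.1 h1
    exact ⟨l, hl, k, (C.mem_Sl.1 hk).1, rfl⟩
  · obtain ⟨k, hk, rfl⟩ := mem_fill.1 h1
    exact ⟨π, hπ, k, (C.mem_FI.1 hk).2.1, rfl⟩

omit C in
lemma parent_new {ν : Z3} (h1 : ν ∈ (New S n s h c π).X) (h2 : ν ∉ (New S n s h c π).O) :
    ∃ l ∈ S.X, l ∉ S.O ∧ ∃ k ∈ Sl S s l, ν = l + k • S.ℓ := by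
  rw [New_O, Finset.mem_union, not_or] at h2
  rcases Finset.mem_union.1 h1 with h1 | h1
  · obtain ⟨l, hl, k, hk, rfl⟩ := mem_desc.1 h1
    exact ⟨l, hl, fun hO => h2.1 (mem_desc.2 ⟨l, hO, k, hk, rfl⟩), k, hk, rfl⟩
  · exact absurd h1 h2.2

end Ctx

end Crest.Agent.R81.Core
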