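import Crest.Agent.R81.Core1

/-! Row 81: the step, part 2.  Separation of the new arcs. -/

set_option autoImplicit false

namespace Crest.Agent.R81.Core

open Crest.AnalysisR.Torus3 MeasureTheory Filter Topology
open Crest.Agent.R75 (ee)

variable {S : State} {n : NextData} {s : ℝ} {h : T3 ≃ₜ T3} {c : Z3 → ℤ → ℂ} {π : Z3}

lemma norm_add_ge {G : Type*} [SeminormedAddCommGroup G] (x y x' y' : G) :
    ‖x + y‖ - ‖x' - x‖ - ‖y' - y‖ ≤ ‖x' + y'‖ := by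
  have h : x + y = (x' + y') - (x' - x) - (y' - y) := by abel
  have h1 := norm_sub_le ((x' + y') - (x' - x)) (y' - y)
  have h2 := norm_sub_le (x' + y') (x' - x)
  rw [h]
  linarith

lemma norm_sub_ge {G : Type*} [SeminormedAddCommGroup G] (x y x' y' : G) :
    ‖x - y‖ - ‖x' - x‖ - ‖y' - y‖ ≤ ‖x' - y'‖ := by
  have := norm_add_ge x (-y) x' (-y')
  rwa [← sub_eq_add_neg, ← sub_eq_add_neg, neg_sub_neg, norm_sub_rev y] at this

namespace Ctx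

variable (C : Ctx S n s h c π)
include C

local notation "θ'" => State.θ (New S n s h c π)
local notation "wd'" => wdN S n s

lemma same_parent {l : Z3} (hl : l ∈ S.X) {k k' : ℤ} (hk : k ∈ S.d.Good (idot l S.B))
    (hk' : k' ∈ S.d.Good (idot l S.B)) (hne : k ≠ k') (hd : |s * k - s * k'| ≤ 1 / 2) :
    (wd' (l + k • S.ℓ) + wd' (l + k' • S.ℓ)) / 2 ≤ ‖θ' (l + k • S.ℓ) - θ' (l + k' • S.ℓ)‖ := by
  have h1 : pos S s l k - pos S s l k' = s * k - s * k' := by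
    rw [pos_eq S s l k, pos_eq S s l k']; ring
  rw [C.θ_eq, C.θ_eq, ← AddCircle.coe_sub, h1, norm_coe_eq hd]
  have h2 : S.d.M (idot l S.B) ∣ k - k' := by
    have := dvd_sub ((C.good hl).sub k hk) ((C.good hl).sub k' hk')
    simpa using this
  have h3 : idot l S.B ≤ |k - k'| :=
    (C.val_le_M hl).trans (Int.le_of_dvd (abs_pos.2 (sub_ne_zero.2 hne)) ((dvd_abs _ _).2 h2))
  have h4 : ((idot l S.B : ℤ) : ℝ) ≤ |(k : ℝ) - k'| := by exact_mod_cast h3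
  rw [← mul_sub, abs_mul, abs_of_pos C.s_pos]
  have h5 := C.wd_ub hl k
  have h6 := C.wd_ub hl k'
  nlinarith [C.s_pos]

lemma same_desc {l : Z3} (hl : l ∈ S.X) {k k' : ℤ} (hk : k ∈ Sl S s l) (hk' : k' ∈ Sl S s l)
    (hne : k ≠ k') :
    (wd' (l + k • S.ℓ) + wd' (l + k' • S.ℓ)) / 2 ≤ ‖θ' (l + k • S.ℓ) - θ' (l + k' • S.ℓ)‖ := by
  refine C.same_parent hl (C.mem_Sl.1 hk).1 (C.mem_Sl.1 hk').1 hne ((abs_sub _ _).trans ?_)
  have h1 := (C.mem_Sl.1 hk).2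
  have h2 := (C.mem_Sl.1 hk').2
  rw [abs_mul, abs_mul, abs_of_pos C.s_pos]
  nlinarith [C.hS.wd_le_half hl, mul_pos C.e_pos (C.hS.wd_pos hl)]

lemma diff_plus {l l' : Z3} (hl : l ∈ S.X) (hl' : l' ∈ S.X) {k k' : ℤ} (hk : k ∈ Sl S s l)
    (hk' : k' ∈ Sl S s l') (hs : (S.wd l + S.wd l') / 2 ≤ ‖S.θ l + S.θ l'‖) :
    (wd' (l + k • S.ℓ) + wd' (l' + k' • S.ℓ)) / 2 ≤ ‖θ' (l + k • S.ℓ) + θ' (l' + k' • S.ℓ)‖ := by
  have h1 := norm_add_ge (S.θ l) (S.θ l') (θ' (l + k • S.ℓ)) (θ' (l' + k' • S.ℓ))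
  have h2 := C.near hl hk
  have h3 := C.near hl' hk'
  have h4 := C.wd_ub' hl k
  have h5 := C.wd_ub' hl' k'
  have h6 := C.small_A hl
  have h7 := C.small_A hl'
  have h8 := mul_pos C.e_pos (C.hS.wd_pos hl)
  have h9 := mul_pos C.e_pos (C.hS.wd_pos hl')
  linarith

lemma diff_minus {l l' : Z3} (hl : l ∈ S.X) (hl' : l' ∈ S.X) {k k' : ℤ} (hk : k ∈ Sl S s l)
    (hk' : k' ∈ Sl S s l') (hs : (S.wd l + S.wd l') / 2 ≤ ‖S.θ l - S.θ l'‖) :
    (wd' (l + k • S.ℓ) + wd' (l' + k' • S.ℓ)) / 2 ≤ ‖θ' (l + k • S.ℓ) - θ' (l' + k' • S.ℓ)‖ := by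
  have h1 := norm_sub_ge (S.θ l) (S.θ l') (θ' (l + k • S.ℓ)) (θ' (l' + k' • S.ℓ))
  have h2 := C.near hl hk
  have h3 := C.near hl' hk'
  have h4 := C.wd_ub' hl k
  have h5 := C.wd_ub' hl' k'
  have h6 := C.small_A hl
  have h7 := C.small_A hl'
  have h8 := mul_pos C.e_pos (C.hS.wd_pos hl)
  have h9 := mul_pos C.e_pos (C.hS.wd_pos hl')
  linarith

lemma rdot_anchor (l : Z3) : ∃ z : ℤ, rdot l S.w = s * S.d.M0 * z := by
  choose z hz using C.anc.1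
  refine ⟨idot l z, ?_⟩
  simp only [rdot, idot, hz, Int.cast_sum, Int.cast_mul, Finset.mul_sum]
  exact Finset.sum_congr rfl fun i _ => by ring

/-- the arithmetic behind the separation by the design -/
lemma design_aux {l l' : Z3} (hl : l ∈ S.X) (hl' : l' ∈ S.X) {k k' : ℤ} (σ : ℤ)
    (hσ : σ = 1 ∨ σ = -1)
    (hsep : ∀ j : ℤ, |l S.a| + |l' S.a| + idot l S.B + idot l' S.B ≤ |k + j * S.d.M0 + σ * k'|) :
    (wd' (l + k • S.ℓ) + wd' (l' + k' • S.ℓ)) / 2 ≤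
      ‖((pos S s l k + σ * pos S s l' k' : ℝ) : UnitAddCircle)‖ := by
  refine le_norm_coe fun j => ?_
  obtain ⟨z, hz⟩ := C.rdot_anchor l
  obtain ⟨z', hz'⟩ := C.rdot_anchor l'
  obtain ⟨q, hq⟩ := C.anc.2
  have h1 : pos S s l k + σ * pos S s l' k' - j =
      s * (((k + (z + σ * z' - j * q) * S.d.M0 + σ * k' : ℤ) : ℝ) +
        ((l S.a : ℝ) / S.L + σ * ((l' S.a : ℝ) / S.L))) := by
    simp only [pos, shift, hz, hz']
    push_cast
    linear_combination (-(j : ℝ)) * hq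
  have h2 : ((|l S.a| + |l' S.a| + idot l S.B + idot l' S.B : ℤ) : ℝ) ≤
      ((|k + (z + σ * z' - j * q) * S.d.M0 + σ * k'| : ℤ) : ℝ) := by
    exact_mod_cast hsep (z + σ * z' - j * q)
  rw [Int.cast_abs] at h2
  have h3 : |(l S.a : ℝ) / S.L + σ * ((l' S.a : ℝ) / S.L)| ≤ |(l S.a : ℝ)| + |(l' S.a : ℝ)| := by
    refine (abs_add_le _ _).trans (add_le_add (C.abs_div_L _) ?_)
    have : |(σ : ℝ)| = 1 := by rcases hσ with rfl | rfl <;> simp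
    rw [abs_mul, this, one_mul]
    exact C.abs_div_L _
  rw [h1, abs_mul, abs_of_pos C.s_pos]
  set A : ℝ := ((k + (z + σ * z' - j * q) * S.d.M0 + σ * k' : ℤ) : ℝ)
  set B : ℝ := (l S.a : ℝ) / S.L + σ * ((l' S.a : ℝ) / S.L)
  have h4 : |A| - |B| ≤ |A + B| := by
    have := abs_sub_abs_le_abs_sub A (-B)
    rwa [abs_neg, sub_neg_eq_add] at this
  have h5 : ((idot l S.B : ℤ) : ℝ) + (idot l' S.B : ℤ) ≤ |A + B| := by
    push_cast at h2
    linarith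
  have h6 := C.wd_ub hl k
  have h7 := C.wd_ub hl' k'
  have h8 := C.wd_pos hl k
  have h9 := C.wd_pos hl' k'
  nlinarith [C.s_pos]

lemma design_plus {l l' : Z3} (hl : l ∈ S.X) (hl' : l' ∈ S.X) (hV : idot l' S.B ∈ S.d.Vnew)
    {k k' : ℤ} (hk : k ∈ S.d.Good (idot l S.B)) (hk' : k' ∈ S.d.Good (idot l' S.B)) :
    (wd' (l + k • S.ℓ) + wd' (l' + k' • S.ℓ)) / 2 ≤ ‖θ' (l + k • S.ℓ) + θ' (l' + k' • S.ℓ)‖ := by
  have := C.design_aux hl hl' (k := k) (k' := k') 1 (Or.inl rfl) fun j => by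
    simpa using (C.hS.sepX l hl l' hl' hV _ ((C.good hl).per k hk j) k' hk').1
  rw [C.θ_eq, C.θ_eq, ← AddCircle.coe_add]
  simpa using this

lemma design_minus {l l' : Z3} (hl : l ∈ S.X) (hl' : l' ∈ S.X) (hV : idot l' S.B ∈ S.d.Vnew)
    (hne : idot l S.B ≠ idot l' S.B)
    {k k' : ℤ} (hk : k ∈ S.d.Good (idot l S.B)) (hk' : k' ∈ S.d.Good (idot l' S.B)) :
    (wd' (l + k • S.ℓ) + wd' (l' + k' • S.ℓ)) / 2 ≤ ‖θ' (l + k • S.ℓ) - θ' (l' + k' • S.ℓ)‖ := by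
  have := C.design_aux hl hl' (k := k) (k' := k') (-1) (Or.inr rfl) fun j => by
    have := (C.hS.sepX l hl l' hl' hV _ ((C.good hl).per k hk j) k' hk').2 hne
    rwa [neg_one_mul, ← sub_eq_add_neg]
  rw [C.θ_eq, C.θ_eq, ← AddCircle.coe_sub]
  have e : pos S s l k - pos S s l' k' = pos S s l k + ((-1 : ℤ) : ℝ) * pos S s l' k' := by
    push_cast; ring
  rwa [e]

lemma fill_desc {k : ℤ} (hk : k ∈ FI S s π) {l : Z3} (hl : l ∈ S.O) {k' : ℤ}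
    (hk' : k' ∈ Sl S s l) :
    (wd' (π + k • S.ℓ) + wd' (l + k' • S.ℓ)) / 2 ≤ ‖θ' (π + k • S.ℓ) + θ' (l + k' • S.ℓ)‖ ∧
    (wd' (π + k • S.ℓ) + wd' (l + k' • S.ℓ)) / 2 ≤ ‖θ' (π + k • S.ℓ) - θ' (l + k' • S.ℓ)‖ := by
  have hX := C.hS.sub hl
  have h1 := norm_add_ge (θ' (π + k • S.ℓ)) (S.θ l) (θ' (π + k • S.ℓ)) (θ' (l + k' • S.ℓ))
  have h2 := norm_sub_ge (θ' (π + k • S.ℓ)) (S.θ l) (θ' (π + k • S.ℓ)) (θ' (l + k' • S.ℓ))
  rw [sub_self, norm_zero] at h1 h2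
  have h3 := C.far hk hl
  have h4 := C.near hX hk'
  have h5 := C.wd_ub' C.πX k
  have h6 := C.wd_ub' hX k'
  have h7 := mul_pos C.e_pos (C.hS.wd_pos hX)
  constructor <;> linarith [h3.1, h3.2]

lemma fill_plus {k k' : ℤ} (hk : k ∈ FI S s π) (hk' : k' ∈ FI S s π) :
    (wd' (π + k • S.ℓ) + wd' (π + k' • S.ℓ)) / 2 ≤ ‖θ' (π + k • S.ℓ) + θ' (π + k' • S.ℓ)‖ := by
  rw [C.θ_eq, C.θ_eq, ← AddCircle.coe_add]
  have h1 := (C.mem_FI.1 hk).1
  have h2 := (C.mem_FI.1 hk').1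
  have h5 := C.wd_ub' C.πX k
  have h6 := C.wd_ub' C.πX k'
  have h7 : 0 < S.d.Amax * s := mul_pos (by linarith [C.one_le_Amax]) C.s_pos
  refine le_norm_coe fun j => ?_
  rcases le_or_gt j 0 with hj | hj
  · have : (j : ℝ) ≤ 0 := by exact_mod_cast hj
    exact le_trans (by linarith [h1.1, h2.1]) (le_abs_self _)
  · have : (1 : ℝ) ≤ j := by exact_mod_cast hj
    exact le_trans (by linarith [h1.2, h2.2]) (neg_le_abs _)

lemma fill_minus {k k' : ℤ} (hk : k ∈ FI S s π) (hk' : k' ∈ FI S s π) (hne : k ≠ k') :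
    (wd' (π + k • S.ℓ) + wd' (π + k' • S.ℓ)) / 2 ≤ ‖θ' (π + k • S.ℓ) - θ' (π + k' • S.ℓ)‖ := by
  refine C.same_parent C.πX (C.mem_FI.1 hk).2.1 (C.mem_FI.1 hk').2.1 hne ?_
  have h1 := (C.mem_FI.1 hk).1
  have h2 := (C.mem_FI.1 hk').1
  have h7 : 0 < S.d.Amax * s := mul_pos (by linarith [C.one_le_Amax]) C.s_pos
  rw [pos_eq S s π k] at h1
  rw [pos_eq S s π k'] at h2
  rw [abs_le]
  constructor <;> linarith [h1.1, h1.2, h2.1, h2.2]

lemma sepO : SepFam (New S n s h c π).O (New S n s h c π).θ (New S n s h c π).wd := by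
  intro ν hν ν' hν'
  simp only [New_wd]
  rcases Finset.mem_union.1 hν with h1 | h1 <;> rcases Finset.mem_union.1 hν' with h2 | h2
  · obtain ⟨l, hl, k, hk, rfl⟩ := mem_desc.1 h1
    obtain ⟨l', hl', k', hk', rfl⟩ := mem_desc.1 h2
    have hs := C.hS.sep l hl l' hl'
    refine ⟨C.diff_plus (C.hS.sub hl) (C.hS.sub hl') hk hk' hs.1, fun hne => ?_⟩
    by_cases hll : l = l'
    · subst hll
      exact C.same_desc (C.hS.sub hl) hk hk' fun h => hne (by rw [h])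
    · exact C.diff_minus (C.hS.sub hl) (C.hS.sub hl') hk hk' (hs.2 hll)
  · obtain ⟨l, hl, k, hk, rfl⟩ := mem_desc.1 h1
    obtain ⟨k', hk', rfl⟩ := mem_fill.1 h2
    have := C.fill_desc hk' hl hk
    rw [add_comm (wd' _), add_comm (θ' _), norm_sub_rev]
    exact ⟨this.1, fun _ => this.2⟩
  · obtain ⟨k, hk, rfl⟩ := mem_fill.1 h1
    obtain ⟨l, hl, k', hk', rfl⟩ := mem_desc.1 h2
    have := C.fill_desc hk hl hk'
    exact ⟨this.1, fun _ => this.2⟩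
  · obtain ⟨k, hk, rfl⟩ := mem_fill.1 h1
    obtain ⟨k', hk', rfl⟩ := mem_fill.1 h2
    exact ⟨C.fill_plus hk hk', fun hne => C.fill_minus hk hk' fun h => hne (by rw [h])⟩

/-- a new frequency with a parent outside `O` is a genuine descendant -/
lemma parent_notO {l : Z3} (hl : l ∈ S.X) (hO : l ∉ S.O) {k : ℤ}
    (hν : l + k • S.ℓ ∈ (New S n s h c π).X) : k ∈ Sl S s l := by
  rcases Finset.mem_union.1 hν with h1 | h1
  · obtain ⟨l', hl', k', hk', h2⟩ := mem_desc.1 h1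
    obtain ⟨rfl, rfl⟩ := C.uniq hl hl' h2
    exact hk'
  · obtain ⟨k', -, h2⟩ := mem_fill.1 h1
    obtain ⟨rfl, rfl⟩ := C.uniq hl C.πX h2
    exact absurd C.πO hO

lemma mem_O_of_parent {l : Z3} (hl : l ∈ S.O) {k : ℤ}
    (hν : l + k • S.ℓ ∈ (New S n s h c π).X) : l + k • S.ℓ ∈ (New S n s h c π).O := by
  by_contra hO
  obtain ⟨l', hl', hO', k', -, h2⟩ := parent_new hν hO
  obtain ⟨rfl, rfl⟩ := C.uniq (C.hS.sub hl) hl' h2
  exact hO' hl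

lemma clus : (New S n s h c π).ClusterSep := by
  intro ν hν ν' hν' hne hv
  obtain ⟨l, hl, k, -, rfl⟩ := C.parent C.πX hν
  obtain ⟨l', hl', k', -, rfl⟩ := C.parent C.πX hν'
  have hD : (n.D : ℝ) ≠ 0 := by exact_mod_cast C.hn.D_pos.ne'
  have h1 : ((idot (l + k • S.ℓ) n.B : ℤ) : ℝ) = (idot (l' + k' • S.ℓ) n.B : ℤ) := by
    exact_mod_cast hv
  rw [idot_cast C.hn.B_eq, idot_cast C.hn.B_eq, C.rdot_desc, C.rdot_desc] at h1
  obtain rfl := C.inj_val hl hl' (mul_left_cancel₀ hD h1)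
  by_cases hO : l ∈ S.O
  · exact (C.sepO _ (C.mem_O_of_parent hO hν) _ (C.mem_O_of_parent hO hν')).2 hne
  · exact C.same_desc hl (C.parent_notO hl hO hν) (C.parent_notO hl hO hν')
      fun h => hne (by rw [h])

lemma ins_aux (hV : ∀ l ∈ S.X, l ∉ S.O → idot l S.B ∈ S.d.Vnew) (hc : S.ClusterSep) {ν ν' : Z3}
    (hν : ν ∈ (New S n s h c π).X) (hν' : ν' ∈ (New S n s h c π).X)
    (hO : ν' ∉ (New S n s h c π).O) :
    (wd' ν + wd' ν') / 2 ≤ ‖θ' ν + θ' ν'‖ ∧ (ν ≠ ν' → (wd' ν + wd' ν') / 2 ≤ ‖θ' ν - θ' ν'‖) := by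
  obtain ⟨l, hl, k, hk, rfl⟩ := C.parent C.πX hν
  obtain ⟨l', hl', hO', k', hk', rfl⟩ := parent_new hν' hO
  have hV' := hV l' hl' hO'
  refine ⟨C.design_plus hl hl' hV' hk (C.mem_Sl.1 hk').1, fun hne => ?_⟩
  by_cases hv : idot l S.B = idot l' S.B
  · have hlO : l ∉ S.O := fun h => C.hS.old l h _ hV' (by rw [hv])
    have hk2 := C.parent_notO hl hlO hν
    by_cases hll : l = l'
    · subst hll
      exact C.same_desc hl hk2 hk' fun h => hne (by rw [h])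
    · exact C.diff_minus hl hl' hk2 hk' (hc l hl l' hl' hll hv)
  · exact C.design_minus hl hl' hV' hv hk (C.mem_Sl.1 hk').1

lemma ins (hV : ∀ l ∈ S.X, l ∉ S.O → idot l S.B ∈ S.d.Vnew) (hc : S.ClusterSep) :
    SepFam (New S n s h c π).X (New S n s h c π).θ (New S n s h c π).wd := by
  intro ν hν ν' hν'
  by_cases hO' : ν' ∈ (New S n s h c π).O
  · by_cases hO : ν ∈ (New S n s h c π).O
    · exact C.sepO ν hO ν' hO'
    · have := C.ins_aux hV hc hν' hν hO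
      simp only [New_wd]
      rw [add_comm (wd' _), add_comm (θ' _), norm_sub_rev]
      exact ⟨this.1, fun h => this.2 h.symm⟩
  · exact C.ins_aux hV hc hν hν' hO'

end Ctx

end Crest.Agent.R81.Core
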