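import Crest.Agent.R81.Core2

/-! Row 81: the step, part 3.  Counting: the new arcs almost tile the circle. -/

set_option autoImplicit false

namespace Crest.Agent.R81.Core

open Crest.AnalysisR.Torus3 MeasureTheory Filter Topology
open Crest.Agent.R75 (ee)

variable {S : State} {n : NextData} {s : ℝ} {h : T3 ≃ₜ T3} {c : Z3 → ℤ → ℂ} {π : Z3}

namespace Ctx

variable (C : Ctx S n s h c π)
include C

local notation "wd'" => wdN S n s

lemma count {l : Z3} (hC : CountStmt) (hl : l ∈ S.X) (u v : ℝ) (T : Finset ℤ) :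
    ((∀ k ∈ S.d.Good (idot l S.B), u ≤ (k : ℝ) → (k : ℝ) ≤ v → k ∈ T) →
        (1 - S.d.e) * (v - u) - 2 * S.d.M0 ≤ S.d.M (idot l S.B) * (T.card : ℝ)) ∧
      ((∀ k ∈ T, k ∈ S.d.Good (idot l S.B) ∧ u ≤ (k : ℝ) ∧ (k : ℝ) ≤ v) → u ≤ v →
        S.d.M (idot l S.B) * (T.card : ℝ) ≤ v - u + S.d.M (idot l S.B)) :=
  hC _ _ _ _ _ C.hS.spec.M0_pos (C.M_pos hl) C.e_pos.le (by linarith [C.e_le]) (C.good hl) u v T

lemma card_Sl_lb (hC : CountStmt) {l : Z3} (hl : l ∈ S.X) :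
    (1 - 3 * S.d.e) * S.wd l ≤ S.d.M (idot l S.B) * s * (Sl S s l).card := by
  set r := (1 - S.d.e) * S.wd l / 2 with hr
  have hs := C.s_pos
  have h1 := (C.count hC hl (-(r / s)) (r / s) (Sl S s l)).1 fun k hk h1 h2 =>
    C.mem_Sl.2 ⟨hk, by rw [← le_div_iff₀ hs, abs_le]; exact ⟨h1, h2⟩⟩
  have h2 := mul_le_mul_of_nonneg_right h1 hs.le
  have h3 : ((1 - S.d.e) * (r / s - -(r / s)) - 2 * S.d.M0) * s =
      (1 - S.d.e) * (2 * r) - 2 * (S.d.M0 * s) := by field_simp; ring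
  rw [h3, hr] at h2
  have h4 := C.small_M hl
  have h5 := C.hS.wd_pos hl
  nlinarith [mul_pos C.e_pos h5, mul_pos (mul_pos C.e_pos C.e_pos) h5]

lemma card_Sl_ub (hC : CountStmt) {l : Z3} (hl : l ∈ S.X) :
    S.d.M (idot l S.B) * s * (Sl S s l).card ≤ S.wd l := by
  set r := (1 - S.d.e) * S.wd l / 2 with hr
  have hs := C.s_pos
  have h5 := C.hS.wd_pos hl
  have hr0 : 0 ≤ r / s := by
    have := C.e_le
    exact div_nonneg (by rw [hr]; nlinarith) hs.le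
  have h1 := (C.count hC hl (-(r / s)) (r / s) (Sl S s l)).2 (fun k hk => by
    have h := C.mem_Sl.1 hk
    refine ⟨h.1, ?_⟩
    rw [← abs_le, le_div_iff₀ hs]
    exact h.2) (by linarith)
  have h2 := mul_le_mul_of_nonneg_right h1 hs.le
  have h3 : (r / s - -(r / s) + S.d.M (idot l S.B)) * s = 2 * r + S.d.M (idot l S.B) * s := by
    field_simp; ring
  rw [h3, hr] at h2
  have h4 := C.small_M hl
  have h6 : (S.d.M (idot l S.B) : ℝ) ≤ S.d.M0 := by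
    exact_mod_cast C.hS.spec.M_le _ (C.hS.val l hl).1 (C.hS.val l hl).2
  nlinarith [mul_pos C.e_pos h5]

lemma sum_wd_le (hSum : SepSumStmt) : ∑ l ∈ S.O, S.wd l ≤ 1 / 2 :=
  hSum _ _ _ (fun _ hl => C.hS.wd_pos (C.hS.sub hl)) C.hS.sep

lemma sum_wd_nonneg : 0 ≤ ∑ l ∈ S.O, S.wd l :=
  Finset.sum_nonneg fun _ hl => (C.hS.wd_pos (C.hS.sub hl)).le

lemma desc_lb (hC : CountStmt) :
    (1 - 2 * S.d.e) * ((1 - 3 * S.d.e) * ∑ l ∈ S.O, S.wd l) ≤ ∑ ν ∈ desc S s S.O, wd' ν := by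
  rw [C.sum_desc C.hS.sub, Finset.mul_sum, Finset.mul_sum]
  refine Finset.sum_le_sum fun l hl => ?_
  have hX := C.hS.sub hl
  have h1 := C.card_Sl_lb hC hX
  rw [C.M_old hl] at h1
  have h2 : ∑ k ∈ Sl S s l, (1 - 2 * S.d.e) * ((idot l S.B : ℤ) * s) ≤
      ∑ k ∈ Sl S s l, wd' (l + k • S.ℓ) := Finset.sum_le_sum fun k _ => C.wd_lb hX k
  rw [Finset.sum_const, nsmul_eq_mul] at h2
  refine le_trans ?_ h2
  have h3 : 0 ≤ 1 - 2 * S.d.e := by linarith [C.e_le]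
  nlinarith [mul_le_mul_of_nonneg_left h1 h3]

lemma fill_card (hC : CountStmt) :
    (1 - S.d.e) / 2 - ∑ l ∈ S.O, S.wd l - S.d.e / 2 ≤
      (idot π S.B : ℤ) * s * (FI S s π).card := by
  classical
  have hs := C.s_pos
  set Δ := S.d.Amax * s with hΔ
  have hA := C.one_le_Amax
  have hΔ0 : 0 < Δ := mul_pos (by linarith) hs
  set u := (Δ - pos S s π 0) / s with hu
  set v := (1 / 2 - Δ - pos S s π 0) / s with hv
  set T0 := (Finset.Icc ⌈u⌉ ⌊v⌋).filter (· ∈ S.d.Good (idot π S.B)) with hT0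
  set T : Z3 → Finset ℤ := fun l =>
    T0.filter fun k => |pos S s π k - ‖S.θ l‖| < S.wd l / 2 + Δ with hT
  have ha := C.M_old C.πO
  have ha1 := C.one_le_val C.πX
  have ha2 := C.val_le C.πX
  have h1 := (C.count hC C.πX u v T0).1 fun k hk h1 h2 =>
    Finset.mem_filter.2 ⟨Finset.mem_Icc.2 ⟨Int.ceil_le.2 h1, Int.le_floor.2 h2⟩, hk⟩
  rw [ha] at h1
  have h2 : ∀ l ∈ S.O, (idot π S.B : ℤ) * s * (T l).card ≤ S.wd l + 3 * Δ := by
    intro l hl
    have hw := C.hS.wd_pos (C.hS.sub hl)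
    have h3 := (C.count hC C.πX ((‖S.θ l‖ - (S.wd l / 2 + Δ) - pos S s π 0) / s)
      ((‖S.θ l‖ + (S.wd l / 2 + Δ) - pos S s π 0) / s) (T l)).2 (fun k hk => by
        have hk' := Finset.mem_filter.1 hk
        have h4 := abs_lt.1 hk'.2
        rw [pos_eq S s π k] at h4
        refine ⟨(Finset.mem_filter.1 hk'.1).2, ?_, ?_⟩
        · rw [div_le_iff₀ hs]; linarith [h4.1]
        · rw [le_div_iff₀ hs]; linarith [h4.2])
      (div_le_div_of_nonneg_right (by linarith) hs.le)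
    rw [ha] at h3
    have h4 := mul_le_mul_of_nonneg_right h3 hs.le
    have h5 : ((‖S.θ l‖ + (S.wd l / 2 + Δ) - pos S s π 0) / s -
        (‖S.θ l‖ - (S.wd l / 2 + Δ) - pos S s π 0) / s + (idot π S.B : ℤ)) * s =
        S.wd l + 2 * Δ + (idot π S.B : ℤ) * s := by field_simp; ring
    rw [h5] at h4
    nlinarith
  have h3 : T0 ⊆ FI S s π ∪ S.O.biUnion T := by
    intro k hk
    by_cases hb : ∀ l ∈ S.O, S.wd l / 2 + Δ ≤ |pos S s π k - ‖S.θ l‖|
    · have hk' := Finset.mem_filter.1 hk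
      exact Finset.mem_union_left _ (Finset.mem_filter.2 ⟨hk'.1, hk'.2, hb⟩)
    · push Not at hb
      obtain ⟨l, hl, hb⟩ := hb
      exact Finset.mem_union_right _ (Finset.mem_biUnion.2 ⟨l, hl, Finset.mem_filter.2 ⟨hk, hb⟩⟩)
  have h4 : (T0.card : ℝ) ≤ (FI S s π).card + ∑ l ∈ S.O, ((T l).card : ℝ) := by
    have := (Finset.card_le_card h3).trans ((Finset.card_union_le _ _).trans
      (Nat.add_le_add_left Finset.card_biUnion_le _))
    exact_mod_cast this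
  have h5 : (idot π S.B : ℤ) * s * ∑ l ∈ S.O, ((T l).card : ℝ) ≤
      ∑ l ∈ S.O, S.wd l + S.O.card * (3 * Δ) := by
    rw [Finset.mul_sum, ← nsmul_eq_mul, ← Finset.sum_const, ← Finset.sum_add_distrib]
    exact Finset.sum_le_sum h2
  have h6 := mul_le_mul_of_nonneg_right h1 hs.le
  have h7 : ((1 - S.d.e) * (v - u) - 2 * S.d.M0) * s =
      (1 - S.d.e) * (1 / 2 - 2 * Δ) - 2 * (S.d.M0 * s) := by
    rw [hu, hv]; field_simp; ring
  rw [h7] at h6
  have h8 := mul_le_mul_of_nonneg_left h4 (show 0 ≤ (idot π S.B : ℤ) * s by positivity)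
  have h9 := C.small3
  have h10 : s * (2 * S.d.Amax + 2 * S.d.M0 + S.O.card * (3 * S.d.Amax)) =
      2 * Δ + 2 * (S.d.M0 * s) + S.O.card * (3 * Δ) := by rw [hΔ]; ring
  rw [h10] at h9
  nlinarith [mul_pos C.e_pos hΔ0]

lemma fill_lb (hC : CountStmt) :
    (1 - 2 * S.d.e) * ((1 - S.d.e) / 2 - ∑ l ∈ S.O, S.wd l - S.d.e / 2) ≤
      ∑ ν ∈ fill S s π, wd' ν := by
  rw [C.sum_fill]
  have h2 : ∑ k ∈ FI S s π, (1 - 2 * S.d.e) * ((idot π S.B : ℤ) * s) ≤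
      ∑ k ∈ FI S s π, wd' (π + k • S.ℓ) := Finset.sum_le_sum fun k _ => C.wd_lb C.πX k
  rw [Finset.sum_const, nsmul_eq_mul] at h2
  refine le_trans ?_ h2
  have h3 : 0 ≤ 1 - 2 * S.d.e := by linarith [C.e_le]
  nlinarith [mul_le_mul_of_nonneg_left (C.fill_card hC) h3]

lemma sum_New_O : ∑ ν ∈ (New S n s h c π).O, (New S n s h c π).wd ν =
    ∑ ν ∈ desc S s S.O, wd' ν + ∑ ν ∈ fill S s π, wd' ν :=
  Finset.sum_union (C.disjoint_fill C.hS.sub)

lemma gap_le (hC : CountStmt) (hSum : SepSumStmt) : (New S n s h c π).gap ≤ 7 * S.d.e := by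
  rw [State.gap, C.sum_New_O]
  have h1 := C.desc_lb hC
  have h2 := C.fill_lb hC
  have h3 := C.sum_wd_le hSum
  have h4 := C.e_pos
  have h5 := C.e_le
  have h6 : 0 ≤ (1 - 2 * S.d.e) * (S.d.e * (1 / 2 - ∑ l ∈ S.O, S.wd l)) :=
    mul_nonneg (by linarith) (mul_nonneg h4.le (by linarith))
  nlinarith

lemma New_wd_pos {ν : Z3} (hν : ν ∈ (New S n s h c π).X) : 0 < wd' ν := by
  obtain ⟨l, hl, k, -, rfl⟩ := C.parent C.πX hν
  exact C.wd_pos hl k

omit C in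
lemma New_sub (hS : S.O ⊆ S.X) : (New S n s h c π).O ⊆ (New S n s h c π).X := by
  refine Finset.union_subset_union_left fun ν hν => ?_
  obtain ⟨l, hl, k, hk, rfl⟩ := mem_desc.1 hν
  exact mem_desc.2 ⟨l, hS hl, k, hk, rfl⟩

lemma fill_ub (hC : CountStmt) (hSum : SepSumStmt) :
    ∑ ν ∈ fill S s π, wd' ν ≤ S.gap + 5 * S.d.e := by
  have h1 := hSum _ _ (New S n s h c π).wd (fun ν hν => C.New_wd_pos (New_sub C.hS.sub hν)) C.sepO
  rw [C.sum_New_O] at h1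
  have h2 := C.desc_lb hC
  have h3 := C.sum_wd_le hSum
  have h4 := C.sum_wd_nonneg
  have h5 := C.e_pos
  rw [State.gap]
  nlinarith [mul_nonneg (mul_pos h5 h5).le h4]

end Ctx

end Crest.Agent.R81.Core
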