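import Crest.Agent.R81.Core3

/-! Row 81: the step, part 4.  Stability and transport in `L²`. -/

set_option autoImplicit false

namespace Crest.Agent.R81.Core

open Crest.AnalysisR.Torus3 MeasureTheory Filter Topology
open Crest.Agent.R75 (ee)

variable {S : State} {n : NextData} {s : ℝ} {h : T3 ≃ₜ T3} {c : Z3 → ℤ → ℂ} {π : Z3}

lemma chi_smoothPer {b s : ℝ} {M0 : ℕ} {φ ψ : ℝ → ℝ} (hφ : SmoothPer φ) (hψ : SmoothPer ψ) :
    SmoothPer (chi b M0 φ ψ s) := by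
  refine ⟨(contDiff_const.mul (hφ.smooth.comp (contDiff_const.mul contDiff_id))).add hψ.smooth,
    fun x => ?_⟩
  have := hφ.per.nat_mul M0 (M0 * x)
  simp only [chi, mul_add, hψ.per x, this]

lemma le_of_sq_le {x y : ℝ} (hy : 0 ≤ y) (h : x ^ 2 ≤ y ^ 2) : x ≤ y :=
  (abs_le_of_sq_le_sq' h hy).2

lemma norm_phase_sub (z : ℂ) (r : ℝ) : ‖phase z * r - z‖ = |r - ‖z‖| := by
  have : phase z * r - z = phase z * ((r - ‖z‖ : ℝ) : ℂ) := by
    rw [Complex.ofReal_sub, mul_sub, phase_mul]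
  rw [this, norm_mul, norm_phase, one_mul, Complex.norm_real, Real.norm_eq_abs]

namespace Ctx

variable (C : Ctx S n s h c π)
include C

local notation "θ'" => State.θ (New S n s h c π)
local notation "γ'" => State.γ (New S n s h c π)
local notation "wd'" => wdN S n s

lemma chi_sp : SmoothPer (S.chi s) := chi_smoothPer C.hS.prof.hφ C.hS.prof.hψ

lemma mpNew : MeasurePreserving (h.trans S.H) (volume : Measure T3) volume :=
  C.hS.mp.comp C.shear.mp

lemma comb_push {Y : Finset Z3} (hY : Y ⊆ S.X) (f : Z3 → ℂ) :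
    ∑ l ∈ Y, ∑ k ∈ Sl S s l, (f l * c l k) • mode (h.trans S.H) (l + k • S.ℓ) =
      comb (h.trans S.H) (desc S s Y ∪ fill S s π) (push S s c Y f) := by
  rw [comb, Finset.sum_union (C.disjoint_fill hY), C.sum_desc hY]
  have : ∑ ν ∈ fill S s π, push S s c Y f ν • mode (h.trans S.H) ν = 0 := by
    refine Finset.sum_eq_zero fun ν hν => ?_
    rw [push_notMem f (Finset.disjoint_right.1 (C.disjoint_fill hY) hν)]
    ext x
    simp
  rw [this, add_zero]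
  exact Finset.sum_congr rfl fun l hl => Finset.sum_congr rfl fun k hk => by
    rw [C.push_desc hY f hl hk]

lemma trans_gen (hT : TransStmt) {Y : Finset Z3} (hY : Y ⊆ S.X) (f : Z3 → ℂ) :
    nrm (comb S.H Y f - comb (h.trans S.H) (desc S s Y ∪ fill S s π) (push S s c Y f)) ^ 2 ≤
      100 * S.d.e * ∑ l ∈ Y, ‖f l‖ ^ 2 := by
  rw [← C.comb_push hY]
  exact hT S.H h (S.chi s) S.ℓ S.β C.hS.mp C.chi_sp.smooth.continuous C.chi_sp.per C.hS.ℓβ
    C.hS.ℓ_ne C.shear Y (Sl S s) c _ (fun l hl l' hl' => C.inj_val (hY hl) (hY hl'))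
    (fun l hl => C.ka l (hY hl)) f

lemma trans (hT : TransStmt) (f : Z3 → ℂ) (R : ℝ) (hR : 0 ≤ R)
    (hf : ∀ l ∈ S.X, ‖f l‖ ^ 2 ≤ R * S.wd l) :
    ∃ f' : Z3 → ℂ, nrm (comb S.H S.X f - comb (New S n s h c π).H (New S n s h c π).X f') ^ 2 ≤
        100 * S.d.e * ∑ l ∈ S.X, ‖f l‖ ^ 2 ∧
      ∀ ν ∈ (New S n s h c π).X, ‖f' ν‖ ^ 2 ≤ 2 * S.d.M0 * R * (New S n s h c π).wd ν := by
  refine ⟨push S s c S.X f, C.trans_gen hT subset_rfl f, fun ν hν => ?_⟩
  rw [New_wd]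
  have hM0 : (0 : ℝ) ≤ S.d.M0 := Nat.cast_nonneg _
  by_cases hd : ν ∈ desc S s S.X
  · obtain ⟨l, hl, k, hk, rfl⟩ := mem_desc.1 hd
    rw [C.push_desc subset_rfl f hl hk, norm_mul, mul_pow, C.cn l hl]
    have hw := C.hS.wd_pos hl
    have h6 : (S.d.M (idot l S.B) : ℝ) ≤ S.d.M0 := by
      exact_mod_cast C.hS.spec.M_le _ (C.hS.val l hl).1 (C.hS.val l hl).2
    have h7 : (0 : ℝ) < S.d.M (idot l S.B) := by exact_mod_cast C.M_pos hl
    have hs := C.s_pos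
    have h1 : ‖f l‖ ^ 2 * (S.d.M (idot l S.B) * s / S.wd l) ≤
        R * S.wd l * (S.d.M (idot l S.B) * s / S.wd l) :=
      mul_le_mul_of_nonneg_right (hf l hl) (by positivity)
    have h2 : R * S.wd l * (S.d.M (idot l S.B) * s / S.wd l) = R * (S.d.M (idot l S.B) * s) := by
      field_simp
    have h3 : s ≤ 2 * wd' (l + k • S.ℓ) := by
      have h4 := C.wd_lb hl k
      have h5 := C.one_le_val hl
      have h8 := C.e_le
      have h9 : s ≤ (idot l S.B : ℤ) * s := by nlinarith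
      nlinarith
    have h4 : S.d.M (idot l S.B) * s ≤ S.d.M0 * (2 * wd' (l + k • S.ℓ)) :=
      mul_le_mul h6 h3 hs.le hM0
    nlinarith [mul_le_mul_of_nonneg_left h4 hR]
  · rw [push_notMem f hd, norm_zero]
    have := C.New_wd_pos hν
    simp only [ne_eq, OfNat.ofNat_ne_zero, not_false_eq_true, zero_pow]
    positivity

lemma γ_norm {ν : Z3} (hν : ν ∈ (New S n s h c π).X) : ‖γ' ν‖ ^ 2 = wd' ν := by
  rw [New_γ, norm_mul, norm_phase, one_mul, Complex.norm_real, Real.norm_eq_abs, sq_abs,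
    Real.sq_sqrt (C.New_wd_pos hν).le]

lemma z_norm {l : Z3} (hl : l ∈ S.O) (k : ℤ) :
    ‖S.γ l * c l k‖ ^ 2 = (idot l S.B : ℤ) * s := by
  have hX := C.hS.sub hl
  have hw := C.hS.wd_pos hX
  rw [norm_mul, mul_pow, C.hS.γn l hX, C.cn l hX, C.M_old hl]
  field_simp

lemma γ_close {l : Z3} (hl : l ∈ S.O) {k : ℤ} (hk : k ∈ Sl S s l) :
    ‖γ' (l + k • S.ℓ) - S.γ l * c l k‖ ^ 2 ≤ 4 * S.d.e ^ 2 * ((idot l S.B : ℤ) * s) := by
  have hX := C.hS.sub hl
  rw [New_γ, C.push_desc C.hS.sub S.γ hl hk, norm_phase_sub, sq_abs, ← C.z_norm hl k]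
  have h1 := C.wd_lb hX k
  have h2 := C.wd_ub hX k
  rw [← C.z_norm hl k] at h1 h2
  set x := ‖S.γ l * c l k‖
  set y := √(wd' (l + k • S.ℓ))
  have hx : 0 ≤ x := norm_nonneg _
  have hy : 0 ≤ y := Real.sqrt_nonneg _
  have hy2 : y ^ 2 = wd' (l + k • S.ℓ) := Real.sq_sqrt (C.wd_pos hX k).le
  rw [← hy2] at h1 h2
  have he := C.e_pos
  have he' := C.e_le
  have h3 : y ≤ x := le_of_sq_le hx h2
  have h4 : (1 - 2 * S.d.e) * x ≤ y := by
    refine le_of_sq_le hy (le_trans ?_ h1)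
    rw [mul_pow]
    exact mul_le_mul_of_nonneg_right (by nlinarith) (sq_nonneg _)
  have h5 : 0 ≤ x - y := by linarith
  have h6 : x - y ≤ 2 * S.d.e * x := by linarith
  nlinarith [mul_le_mul h6 h6 h5 (by positivity : 0 ≤ 2 * S.d.e * x)]

lemma sum_pairs_le (hC : CountStmt) (hSum : SepSumStmt) {K : ℝ} (hK : 0 ≤ K) (g : Z3 → ℝ)
    (hg : ∀ l ∈ S.O, ∀ k ∈ Sl S s l, g (l + k • S.ℓ) ≤ K * ((idot l S.B : ℤ) * s)) :
    ∑ ν ∈ desc S s S.O, g ν ≤ K / 2 := by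
  rw [C.sum_desc C.hS.sub]
  have h1 : ∑ l ∈ S.O, ∑ k ∈ Sl S s l, g (l + k • S.ℓ) ≤ ∑ l ∈ S.O, K * S.wd l := by
    refine Finset.sum_le_sum fun l hl => ?_
    have h2 := Finset.sum_le_sum (hg l hl)
    rw [Finset.sum_const, nsmul_eq_mul] at h2
    have h3 := C.card_Sl_ub hC (C.hS.sub hl)
    rw [C.M_old hl] at h3
    nlinarith [mul_le_mul_of_nonneg_left h3 hK]
  rw [← Finset.mul_sum] at h1
  nlinarith [mul_le_mul_of_nonneg_left (C.sum_wd_le hSum) hK]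

lemma stab (hC : CountStmt) (hSum : SepSumStmt) (hO : OrthStmt) (hT : TransStmt)
    (φ : UnitAddCircle → ℂ) (R om R' : ℝ) (hom : 0 ≤ om) (hR' : 0 ≤ R') (hφ : ∀ x, ‖φ x‖ ≤ R)
    (h1 : ∀ l ∈ S.O, ∀ x, ‖x - S.θ l‖ ≤ (1 - S.d.e / 2) * S.wd l / 2 → ‖φ x - φ (S.θ l)‖ ≤ om)
    (h2 : ∀ x, (∀ l ∈ S.O, S.wd l / 2 ≤ ‖x - S.θ l‖ ∧ S.wd l / 2 ≤ ‖x + S.θ l‖) → ‖φ x‖ ≤ R') :
    nrm ((New S n s h c π).Ψ φ - S.Ψ φ) ≤
      10 * R * √S.d.e + om + R' * √(S.gap + 5 * S.d.e) := by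
  classical
  have hR : 0 ≤ R := (norm_nonneg _).trans (hφ 0)
  have he := C.e_pos
  have he' := C.e_le
  have hse : √S.d.e ^ 2 = S.d.e := Real.sq_sqrt he.le
  have hse0 : 0 ≤ √S.d.e := Real.sqrt_nonneg _
  set f : Z3 → ℂ := fun l => S.γ l * φ (S.θ l) with hf
  set z := push S s c S.O S.γ with hz
  set O' := desc S s S.O ∪ fill S s π with hO'
  set H' := h.trans S.H
  set g1 : Z3 → ℂ := fun ν => if ν ∈ desc S s S.O then (γ' ν - z ν) * φ (θ' ν) else 0 with hg1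
  set g2 : Z3 → ℂ := fun ν =>
    if ν ∈ desc S s S.O then z ν * φ (θ' ν) - push S s c S.O f ν else 0 with hg2
  set g3 : Z3 → ℂ := fun ν => if ν ∈ desc S s S.O then 0 else γ' ν * φ (θ' ν) with hg3
  have hdisj := C.disjoint_fill C.hS.sub
  -- transport of the old function
  have hA : nrm (S.Ψ φ - comb H' O' (push S s c S.O f)) ≤ 8 * R * √S.d.e := by
    refine le_of_sq_le (by positivity) ((C.trans_gen hT C.hS.sub f).trans ?_)
    have h3 : ∑ l ∈ S.O, ‖f l‖ ^ 2 ≤ ∑ l ∈ S.O, R ^ 2 * S.wd l := by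
      refine Finset.sum_le_sum fun l hl => ?_
      rw [hf, norm_mul, mul_pow, C.hS.γn l (C.hS.sub hl), mul_comm]
      exact mul_le_mul_of_nonneg_right (pow_le_pow_left₀ (norm_nonneg _) (hφ _) 2)
        (C.hS.wd_pos (C.hS.sub hl)).le
    rw [← Finset.mul_sum] at h3
    have h4 := mul_le_mul_of_nonneg_left (C.sum_wd_le hSum) (sq_nonneg R)
    rw [mul_pow, mul_pow, hse]
    nlinarith [mul_le_mul_of_nonneg_left (h3.trans h4) he.le, mul_nonneg he.le (sq_nonneg R)]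
  have hsum : ∀ g : Z3 → ℂ, nrm (comb H' O' g) ^ 2 =
      ∑ ν ∈ desc S s S.O, ‖g ν‖ ^ 2 + ∑ ν ∈ fill S s π, ‖g ν‖ ^ 2 := fun g => by
    rw [hO H' C.mpNew, hO', Finset.sum_union hdisj]
  have hB1 : nrm (comb H' O' g1) ≤ 2 * R * √S.d.e := by
    refine le_of_sq_le (by positivity) ?_
    have h3 : ∑ ν ∈ fill S s π, ‖g1 ν‖ ^ 2 = 0 := Finset.sum_eq_zero fun ν hν => by
      simp [hg1, Finset.disjoint_right.1 hdisj hν]
    have h4 := C.sum_pairs_le hC hSum (K := 4 * S.d.e ^ 2 * R ^ 2) (by positivity)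
      (fun ν => ‖g1 ν‖ ^ 2) fun l hl k hk => by
        have hm : l + k • S.ℓ ∈ desc S s S.O := mem_desc.2 ⟨l, hl, k, hk, rfl⟩
        simp only [hg1, if_pos hm, hz, C.push_desc C.hS.sub S.γ hl hk, norm_mul, mul_pow]
        have h5 := C.γ_close hl hk
        have h6 := pow_le_pow_left₀ (norm_nonneg _) (hφ (θ' (l + k • S.ℓ))) 2
        calc _ ≤ 4 * S.d.e ^ 2 * ((idot l S.B : ℤ) * s) * R ^ 2 :=
              mul_le_mul h5 h6 (sq_nonneg _) ((sq_nonneg _).trans h5)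
          _ = _ := by ring
    rw [hsum, h3, mul_pow, mul_pow, hse]
    nlinarith [mul_nonneg (mul_nonneg he.le (sq_nonneg R)) (show 0 ≤ 2 - S.d.e by linarith)]
  have hB2 : nrm (comb H' O' g2) ≤ om := by
    refine le_of_sq_le hom ?_
    have h3 : ∑ ν ∈ fill S s π, ‖g2 ν‖ ^ 2 = 0 := Finset.sum_eq_zero fun ν hν => by
      simp [hg2, Finset.disjoint_right.1 hdisj hν]
    have h4 := C.sum_pairs_le hC hSum (K := om ^ 2) (by positivity)
      (fun ν => ‖g2 ν‖ ^ 2) fun l hl k hk => by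
        have hm : l + k • S.ℓ ∈ desc S s S.O := mem_desc.2 ⟨l, hl, k, hk, rfl⟩
        simp only [hg2, if_pos hm, hz, C.push_desc C.hS.sub _ hl hk]
        have e : S.γ l * c l k * φ (θ' (l + k • S.ℓ)) - f l * c l k =
            (φ (θ' (l + k • S.ℓ)) - φ (S.θ l)) * (S.γ l * c l k) := by rw [hf]; ring
        rw [e, norm_mul, mul_pow, C.z_norm hl k]
        have h5 := h1 l hl _ (C.near (C.hS.sub hl) hk)
        have h6 := C.one_le_val (C.hS.sub hl)
        have h7 := C.s_pos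
        exact mul_le_mul_of_nonneg_right (pow_le_pow_left₀ (norm_nonneg _) h5 2) (by positivity)
    rw [hsum, h3]
    nlinarith [sq_nonneg om]
  have hB3 : nrm (comb H' O' g3) ≤ R' * √(S.gap + 5 * S.d.e) := by
    refine le_of_sq_le (by positivity) ?_
    have h3 : ∑ ν ∈ desc S s S.O, ‖g3 ν‖ ^ 2 = 0 := Finset.sum_eq_zero fun ν hν => by
      simp [hg3, hν]
    have h4 : ∑ ν ∈ fill S s π, ‖g3 ν‖ ^ 2 ≤ ∑ ν ∈ fill S s π, R' ^ 2 * wd' ν := by
      refine Finset.sum_le_sum fun ν hν => ?_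
      have hX : ν ∈ (New S n s h c π).X := Finset.mem_union_right _ hν
      simp only [hg3, if_neg (Finset.disjoint_right.1 hdisj hν)]
      rw [norm_mul, mul_pow, C.γ_norm hX, mul_comm]
      refine mul_le_mul_of_nonneg_right (pow_le_pow_left₀ (norm_nonneg _) ?_ 2)
        (C.New_wd_pos hX).le
      obtain ⟨k, hk, rfl⟩ := mem_fill.1 hν
      refine h2 _ fun l hl => ?_
      have h5 := C.far hk hl
      have h6 : 0 < S.d.Amax * s := mul_pos (by linarith [C.one_le_Amax]) C.s_pos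
      constructor <;> linarith [h5.1, h5.2]
    have h5 := C.fill_ub hC hSum
    have h6 : 0 ≤ S.gap + 5 * S.d.e := le_trans (Finset.sum_nonneg fun ν hν =>
      (C.New_wd_pos (Finset.mem_union_right _ hν)).le) h5
    rw [← Finset.mul_sum] at h4
    rw [hsum, h3, zero_add, mul_pow, Real.sq_sqrt h6]
    exact h4.trans (mul_le_mul_of_nonneg_left h5 (sq_nonneg _))
  have hE : (New S n s h c π).Ψ φ - comb H' O' (push S s c S.O f) =
      comb H' O' g1 + comb H' O' g2 + comb H' O' g3 := by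
    rw [comb_add, comb_add]
    refine (comb_sub H' O' _ _).trans (comb_congr H' fun ν _ => ?_)
    simp only [hg1, hg2, hg3]
    split_ifs with hd
    · ring
    · rw [push_notMem f hd]; ring
  have hF := nrm_triangle ((New S n s h c π).Ψ φ) (comb H' O' (push S s c S.O f)) (S.Ψ φ)
  rw [hE, nrm_sub_comm (comb H' O' _)] at hF
  have hG := nrm_add_le (comb H' O' g1 + comb H' O' g2) (comb H' O' g3)
  have hH := nrm_add_le (comb H' O' g1) (comb H' O' g2)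
  linarith

end Ctx

end Crest.Agent.R81.Core
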