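import Crest.Prelude.Def_Torus3
import Crest.Agent.R75.Defs

/-!
Row 81 (S0108): a smooth volume preserving diffeomorphism of the three-torus with simple Lebesgue
spectrum.  Definitions and interface statements (all `…Stmt` are `Prop`s proved in other files).

Scheme: approximation by conjugation.  A stage consists of a smooth volume preserving `H`, a
rational rotation vector `w` (so `T = H ∘ R_w ∘ H⁻¹`), and a finite set `O` of frequencies `l`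
with weights `γ l`; the mode `mode H l = e_l ∘ H⁻¹` is an eigenfunction of `T` with eigenvalue
`θ l = l · w`.  The arcs of centre `± θ l` and length `wd l = ‖γ l‖ ^ 2` are disjoint and almost
tile the circle.  A step replaces `H` by `H ∘ h` for a shear `h x = x + χ (ℓ · x) β`.
-/

set_option autoImplicit false

namespace Crest.Agent.R81

open Crest.AnalysisR.Torus3 MeasureTheory Filter Topology
open Crest.Agent.R75 (ee)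
open scoped ContDiff

abbrev V : Type := Fin 3 → ℝ
abbrev Z3 : Type := Fin 3 → ℤ

/-- integer covector times real vector -/
def rdot (l : Z3) (x : V) : ℝ := ∑ i, (l i : ℝ) * x i

/-- integer covector times integer vector -/
def idot (l B : Z3) : ℤ := ∑ i, l i * B i

/-- a real vector with rational entries -/
def RatVec (x : V) : Prop := ∃ D : ℕ, 0 < D ∧ ∀ i, ∃ z : ℤ, (D : ℝ) * x i = z

/-- a set of frequencies closed under taking divisors -/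
def DivClosed (Y : Finset Z3) : Prop := ∀ l ∈ Y, ∀ (d : ℤ) (μ : Z3), 0 < d → l = d • μ → μ ∈ Y

/-! ### Torus and `L²` -/

/-- the `L²` norm of a continuous function on the torus -/
noncomputable def nrm (f : C(T3, ℂ)) : ℝ :=
  ‖ContinuousMap.toLp (E := ℂ) 2 (volume : Measure T3) ℂ f‖

/-- the character `e_l` transported by `H` -/
noncomputable def mode (H : T3 ≃ₜ T3) (l : Z3) : C(T3, ℂ) :=
  (UnitAddTorus.mFourier l).comp (H.symm : C(T3, T3))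

/-- a finite combination of modes -/
noncomputable def comb (H : T3 ≃ₜ T3) (Y : Finset Z3) (f : Z3 → ℂ) : C(T3, ℂ) :=
  ∑ l ∈ Y, f l • mode H l

/-- `F` is within `δ` of twice the real part of a combination of the modes in `W` -/
def Approx (H : T3 ≃ₜ T3) (F : C(T3, ℂ)) (W : Finset Z3) (δ : ℝ) : Prop :=
  ∃ f : Z3 → ℂ, nrm (F - (comb H W f + star (comb H W f))) < δ

/-- the shear of `ℝ³` -/
def sh (χ : ℝ → ℝ) (ℓ : Z3) (β : V) : V → V := fun x => x + χ (rdot ℓ x) • β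

/-- `h` is the shear of the torus covered by `sh χ ℓ β` -/
structure IsShear (h : T3 ≃ₜ T3) (χ : ℝ → ℝ) (ℓ : Z3) (β : V) : Prop where
  mp : MeasurePreserving h (volume : Measure T3) volume
  lift : ∀ x, h (proj x) = proj (sh χ ℓ β x)
  lift_symm : ∀ x, h.symm (proj x) = proj (sh (-χ) ℓ β x)

/-- `H ∘ R_w ∘ H⁻¹` -/
noncomputable def conjRot (H : T3 ≃ₜ T3) (w : V) : T3 ≃ₜ T3 :=
  H.symm.trans ((Homeomorph.addRight (proj w)).trans H)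

/-- the arcs of centres `± θ l` and lengths `wd l` are pairwise disjoint -/
def SepFam (Y : Finset Z3) (θ : Z3 → UnitAddCircle) (wd : Z3 → ℝ) : Prop :=
  ∀ l ∈ Y, ∀ l' ∈ Y, (wd l + wd l') / 2 ≤ ‖θ l + θ l'‖ ∧ (l ≠ l' → (wd l + wd l') / 2 ≤ ‖θ l - θ l'‖)

def ShearStmt : Prop :=
  ∀ (χ : ℝ → ℝ) (ℓ : Z3) (β : V), Continuous χ → Function.Periodic χ 1 → rdot ℓ β = 0 →
    ∃ h : T3 ≃ₜ T3, IsShear h χ ℓ β

def OrthStmt : Prop :=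
  ∀ (H : T3 ≃ₜ T3), MeasurePreserving H (volume : Measure T3) volume →
    ∀ (Y : Finset Z3) (f : Z3 → ℂ), nrm (comb H Y f) ^ 2 = ∑ l ∈ Y, ‖f l‖ ^ 2

def OrthStarStmt : Prop :=
  ∀ (H : T3 ≃ₜ T3), MeasurePreserving H (volume : Measure T3) volume →
    ∀ (Y : Finset Z3) (f : Z3 → ℂ), (∀ l ∈ Y, -l ∉ Y) →
      nrm (comb H Y f + star (comb H Y f)) ^ 2 = 2 * ∑ l ∈ Y, ‖f l‖ ^ 2

def TransStmt : Prop :=
  ∀ (H h : T3 ≃ₜ T3) (χ : ℝ → ℝ) (ℓ : Z3) (β : V),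
    MeasurePreserving H (volume : Measure T3) volume → Continuous χ → Function.Periodic χ 1 →
    rdot ℓ β = 0 → ℓ ≠ 0 → IsShear h χ ℓ β →
    ∀ (X : Finset Z3) (S : Z3 → Finset ℤ) (c : Z3 → ℤ → ℂ) (δ : ℝ),
      (∀ l ∈ X, ∀ l' ∈ X, rdot l β = rdot l' β → l = l') →
      (∀ l ∈ X, ∫ x in (0 : ℝ)..1,
        ‖ee (rdot l β * χ x) - ∑ n ∈ S l, c l n * ee (n * x)‖ ^ 2 ≤ δ) →
      ∀ f : Z3 → ℂ,
        nrm (comb H X f - ∑ l ∈ X, ∑ n ∈ S l, (f l * c l n) • mode (h.trans H) (l + n • ℓ)) ^ 2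
          ≤ δ * ∑ l ∈ X, ‖f l‖ ^ 2

def DensStmt : Prop :=
  ∀ (H : T3 ≃ₜ T3), MeasurePreserving H (volume : Measure T3) volume →
    ∀ F : C(T3, ℂ), star F = F → ∫ x, F x = 0 → ∀ δ : ℝ, 0 < δ →
      ∃ W : Finset Z3, 0 ∉ W ∧ Approx H F W δ

def FreeStmt : Prop :=
  ∀ (H h : T3 ≃ₜ T3) (χ : ℝ → ℝ) (ℓ : Z3) (β : V),
    MeasurePreserving H (volume : Measure T3) volume → Continuous χ → Function.Periodic χ 1 →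
    rdot ℓ β = 0 → ℓ ≠ 0 → IsShear h χ ℓ β →
    ∀ (F : C(T3, ℂ)) (W : Finset Z3) (δ : ℝ), 0 ∉ W → Approx H F W δ →
      ∃ W' : Finset Z3, 0 ∉ W' ∧ (∀ ν ∈ W', ∃ l ∈ W, ∃ n : ℤ, ν = l + n • ℓ) ∧
        Approx (h.trans H) F W' δ

def SepSumStmt : Prop :=
  ∀ (Y : Finset Z3) (θ : Z3 → UnitAddCircle) (wd : Z3 → ℝ), (∀ l ∈ Y, 0 < wd l) → SepFam Y θ wd →
    ∑ l ∈ Y, wd l ≤ 1 / 2

def RieStmt : Prop :=
  ∀ (Y : Finset Z3) (θ : Z3 → UnitAddCircle) (wd : Z3 → ℝ), (∀ l ∈ Y, 0 < wd l) → SepFam Y θ wd →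
    ∀ (m : ℤ) (ζ : ℝ), m ≠ 0 → 0 ≤ ζ → (∀ l ∈ Y, wd l ≤ ζ) →
      ‖∑ l ∈ Y, (wd l : ℂ) * (fourier m (θ l) + fourier (-m) (θ l))‖
        ≤ (1 - 2 * ∑ l ∈ Y, wd l) + 7 * |(m : ℝ)| * ζ

def BumpStmt : Prop :=
  ∀ (Y : Finset Z3) (θ : Z3 → UnitAddCircle) (wd : Z3 → ℝ), (∀ l ∈ Y, 0 < wd l) → SepFam Y θ wd →
    ∀ (e R : ℝ) (v : Z3 → ℂ), 0 < e → e ≤ 1 → 0 ≤ R → (∀ l ∈ Y, ‖v l‖ ≤ R) →
      ∃ φ : C(UnitAddCircle, ℂ), (∀ x, φ (-x) = (starRingEnd ℂ) (φ x)) ∧ (∀ x, ‖φ x‖ ≤ R) ∧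
        (∀ l ∈ Y, ∀ x, ‖x - θ l‖ ≤ (1 - e / 2) * wd l / 2 → φ x = v l) ∧
        ∀ x, (∀ l ∈ Y, wd l / 2 ≤ ‖x - θ l‖ ∧ wd l / 2 ≤ ‖x + θ l‖) → φ x = 0

/-! ### Designs: flat sequences and good index sets -/

/-- normalised discrete Fourier transform on `ℤ / M0` -/
noncomputable def dft (M0 : ℕ) (f : ℕ → ℂ) (n : ℤ) : ℂ :=
  (M0 : ℂ)⁻¹ * ∑ i ∈ Finset.range M0, f i * ee (-((n : ℝ) * i / M0))

/-- `f` has mean square one and its spectrum has constant modulus on `ρ + M ℤ` -/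
structure Flat (M0 : ℕ) (M ρ : ℤ) (f : ℕ → ℂ) : Prop where
  norm_sq : ∑ i ∈ Finset.range M0, ‖f i‖ ^ 2 = M0
  spec : ∀ n : ℤ, M ∣ n - ρ → ‖dft M0 f n‖ ^ 2 = (M : ℝ) / M0

open Classical in
/-- an `M0`-periodic subset of `ρ + M ℤ` of relative density at least `1 - e` -/
structure GoodSet (M0 : ℕ) (M ρ : ℤ) (e : ℝ) (G : Set ℤ) : Prop where
  sub : ∀ n ∈ G, M ∣ n - ρ
  per : ∀ n ∈ G, ∀ k : ℤ, n + k * M0 ∈ G
  dens : (1 - e) * M0 ≤ M * (((Finset.range M0).filter fun i : ℕ => (i : ℤ) ∈ G).card : ℝ)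

structure Design where
  e : ℝ
  Amax : ℤ
  Vnew : Finset ℤ
  M0 : ℕ
  τ : ℕ → ℝ
  M : ℤ → ℤ
  ρ : ℤ → ℤ
  Good : ℤ → Set ℤ
  f : ℤ → ℕ → ℂ

structure DesignSpec (d : Design) : Prop where
  e_pos : 0 < d.e
  e_le : d.e ≤ 1 / 10
  M0_pos : 0 < d.M0
  M_pos : ∀ a, 1 ≤ a → a ≤ d.Amax → 0 < d.M a
  M_le : ∀ a, 1 ≤ a → a ≤ d.Amax → d.M a ≤ d.M0
  dvd_M : ∀ a, 1 ≤ a → a ≤ d.Amax → a ∣ d.M a
  dvd_ρ : ∀ a, 1 ≤ a → a ≤ d.Amax → a ∣ d.ρ a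
  old : ∀ a, 1 ≤ a → a ≤ d.Amax → (∀ a' ∈ d.Vnew, ¬ a' ∣ a) → d.M a = a
  flat : ∀ a, 1 ≤ a → a ≤ d.Amax → Flat d.M0 (d.M a) (d.ρ a) (d.f a)
  approx : ∀ a, 1 ≤ a → a ≤ d.Amax →
    ∑ i ∈ Finset.range d.M0, ‖ee ((a : ℝ) * d.τ i) - d.f a i‖ ^ 2 ≤ d.e ^ 2 * d.M0
  good : ∀ a, 1 ≤ a → a ≤ d.Amax → GoodSet d.M0 (d.M a) (d.ρ a) d.e (d.Good a)
  div : ∀ a' k n' : ℤ, 1 ≤ a' → 0 < k → k * a' ≤ d.Amax → k * n' ∈ d.Good (k * a') →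
    n' ∈ d.Good a'

/-- index separation between different clusters (and mirror images), one of them new -/
def SepSpec (d : Design) (Wd : ℤ) : Prop :=
  ∀ a, 1 ≤ a → a ≤ d.Amax → ∀ a' ∈ d.Vnew, ∀ n ∈ d.Good a, ∀ n' ∈ d.Good a',
    Wd ≤ |n + n'| ∧ (a ≠ a' → Wd ≤ |n - n'|)

def DesignStmt : Prop :=
  ∀ (e : ℝ) (Amax Wd : ℤ) (Vnew : Finset ℤ), 0 < e → e ≤ 1 / 10 → 1 ≤ Amax →
    (∀ a ∈ Vnew, 1 ≤ a ∧ a ≤ Amax) →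
    ∃ d : Design, d.e = e ∧ d.Amax = Amax ∧ d.Vnew = Vnew ∧ DesignSpec d ∧ SepSpec d Wd

/-- the period of the design -/
def desM0 (Amax : ℤ) (Vnew : Finset ℤ) (p : ℤ → ℕ) : ℕ :=
  2 * (Amax.toNat.factorial) ^ 2 * ∏ a ∈ Vnew, p a

/-- the spacing of the spectrum for the value `a` -/
def desM (Vnew : Finset ℤ) (p : ℤ → ℕ) (a : ℤ) : ℤ :=
  a * ∏ a' ∈ Vnew.filter (· ∣ a), (p a' : ℤ)

/-- first half of the design lemma: the flat sequences -/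
def DesFlatStmt : Prop :=
  ∀ (e : ℝ) (Amax : ℤ) (Vnew : Finset ℤ) (Pmin : ℕ), 0 < e → 1 ≤ Amax →
    (∀ a ∈ Vnew, 1 ≤ a ∧ a ≤ Amax) →
    ∃ (p : ℤ → ℕ) (τ : ℕ → ℝ), (∀ a ∈ Vnew, (p a).Prime ∧ Pmin < p a) ∧
      ∀ y a : ℤ, 1 ≤ a → a ≤ Amax → ∃ f : ℕ → ℂ,
        Flat (desM0 Amax Vnew p) (desM Vnew p a) (a * y) f ∧
        ∑ i ∈ Finset.range (desM0 Amax Vnew p),
          ‖ee ((a : ℝ) * (τ i + (y : ℝ) * i / (desM0 Amax Vnew p))) - f i‖ ^ 2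
            ≤ e ^ 2 * (desM0 Amax Vnew p)

/-- second half of the design lemma: the good index sets -/
def DesGoodStmt : Prop :=
  ∀ (e : ℝ) (Amax Wd : ℤ) (Vnew : Finset ℤ), 0 < e → 1 ≤ Amax → (∀ a ∈ Vnew, 1 ≤ a ∧ a ≤ Amax) →
    ∃ Pmin : ℕ, ∀ p : ℤ → ℕ, (∀ a ∈ Vnew, (p a).Prime ∧ Pmin < p a) →
      ∃ (y : ℤ) (Good : ℤ → Set ℤ),
        (∀ a, 1 ≤ a → a ≤ Amax → GoodSet (desM0 Amax Vnew p) (desM Vnew p a) (a * y) e (Good a)) ∧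
        (∀ a' k n' : ℤ, 1 ≤ a' → 0 < k → k * a' ≤ Amax → k * n' ∈ Good (k * a') → n' ∈ Good a') ∧
        ∀ a, 1 ≤ a → a ≤ Amax → ∀ a' ∈ Vnew, ∀ n ∈ Good a, ∀ n' ∈ Good a',
          Wd ≤ |n + n'| ∧ (a ≠ a' → Wd ≤ |n - n'|)

def CountStmt : Prop :=
  ∀ (M0 : ℕ) (M ρ : ℤ) (e : ℝ) (G : Set ℤ), 0 < M0 → 0 < M → 0 ≤ e → e ≤ 1 → GoodSet M0 M ρ e G →
    ∀ (u v : ℝ) (T : Finset ℤ),
      ((∀ n ∈ G, u ≤ (n : ℝ) → (n : ℝ) ≤ v → n ∈ T) →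
        (1 - e) * (v - u) - 2 * M0 ≤ M * (T.card : ℝ)) ∧
      ((∀ n ∈ T, n ∈ G ∧ u ≤ (n : ℝ) ∧ (n : ℝ) ≤ v) → u ≤ v → M * (T.card : ℝ) ≤ v - u + M)

/-! ### One-dimensional analysis -/

/-- smooth and one-periodic -/
structure SmoothPer (φ : ℝ → ℝ) : Prop where
  smooth : ContDiff ℝ ∞ φ
  per : Function.Periodic φ 1

structure Profile (e : ℝ) (M0 : ℕ) (t : ℕ → ℝ) (φ ψ : ℝ → ℝ) : Prop where
  hφ : SmoothPer φ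
  hψ : SmoothPer ψ
  quad : ∀ y : ℝ, e ≤ y → y ≤ 1 - e → φ y = (y - 1 / 2) ^ 2 / 2
  plateau : ∀ i : ℕ, i < M0 → ∀ y : ℝ, e ≤ y → y ≤ 1 - e → ψ ((i + y) / M0) = t i

def ProfileStmt : Prop :=
  ∀ (e : ℝ) (M0 : ℕ) (t : ℕ → ℝ), 0 < e → e ≤ 1 / 10 → 0 < M0 → ∃ φ ψ, Profile e M0 t φ ψ

/-- the profile of the shear -/
noncomputable def chi (b : ℝ) (M0 : ℕ) (φ ψ : ℝ → ℝ) (s : ℝ) : ℝ → ℝ :=
  fun x => b / (M0 * s) * φ (M0 * x) + ψ x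

open Classical in
/-- the elements `n` of `G` with `|n| s ≤ r` -/
noncomputable def Sset (G : Set ℤ) (s r : ℝ) : Finset ℤ :=
  (Finset.Icc (-⌊r / s⌋) ⌊r / s⌋).filter (· ∈ G)

def KAStmt : Prop :=
  ∀ (e : ℝ) (M0 : ℕ) (M ρ : ℤ) (G : Set ℤ) (f : ℕ → ℂ) (t : ℕ → ℝ) (φ ψ : ℝ → ℝ) (lam b wd : ℝ),
    0 < e → e ≤ 1 / 10 → 0 < M0 → 0 < M → Flat M0 M ρ f → GoodSet M0 M ρ e G →
    Profile e M0 t φ ψ → ∑ i ∈ Finset.range M0, ‖ee (lam * t i) - f i‖ ^ 2 ≤ 4 * e ^ 2 * M0 →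
    0 < wd → |lam * b - wd| ≤ e / 4 * wd →
    ∀ᶠ s in 𝓝[>] (0 : ℝ), ∃ c : ℤ → ℂ, (∀ n, ‖c n‖ ^ 2 = M * s / wd) ∧
      ∫ x in (0 : ℝ)..1, ‖ee (lam * chi b M0 φ ψ s x) -
        ∑ n ∈ Sset G s ((1 - e) * wd / 2), c n * ee (n * x)‖ ^ 2 ≤ 100 * e

/-! ### The smooth layer -/

/-- smooth and commuting with integer translations -/
structure Equivar (F : V → V) : Prop where
  smooth : ContDiff ℝ ∞ F
  equi : ∀ (x : V) (k : Z3), F (x + fun i => (k i : ℝ)) = F x + fun i => (k i : ℝ)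

/-- `C^r` closeness -/
def Close (r : ℕ) (ε : ℝ) (F G : V → V) : Prop :=
  ∀ i ≤ r, ∀ x, ‖iteratedFDeriv ℝ i (fun y => F y - G y) x‖ ≤ ε

/-- the next step moves the map (`κ = 1`) and its inverse (`κ = -1`) by at most `ε` in `C^r` -/
def PromiseRaw (Hl Hi : V → V) (w β v : V) (ℓ : Z3) (b : ℝ) (M0 : ℕ) (φ ψ : ℝ → ℝ) (r : ℕ)
    (ε : ℝ) : Prop :=
  ∀ᶠ s in 𝓝[>] (0 : ℝ), ∀ κ : ℝ, κ = 1 ∨ κ = -1 →
    Close r ε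
      (fun x => Hl (sh (chi b M0 φ ψ s) ℓ β (sh (-chi b M0 φ ψ s) ℓ β (Hi x) + κ • (w + s • v))))
      (fun x => Hl (Hi x + κ • w))

def SLStmt : Prop :=
  ∀ (Hl Hi : V → V) (w β v v' u : V) (ℓ ℓ' : Z3) (b κ₀ : ℝ) (M0 M0' : ℕ) (φ ψ φ' ψ' : ℝ → ℝ)
    (r : ℕ) (ε : ℝ), Equivar Hl → Equivar Hi → SmoothPer φ → SmoothPer ψ → SmoothPer φ' →
    SmoothPer ψ' → 0 < M0 → 0 < M0' → rdot ℓ β = 0 → (∃ z : ℤ, rdot ℓ w = z) → rdot ℓ v = 1 →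
    rdot ℓ v' = 0 → rdot ℓ' β = 0 → (∃ z : ℤ, rdot ℓ' w = z) → rdot ℓ' v = 0 → rdot ℓ' u = 0 →
    rdot ℓ' v' = 1 → 0 < ε →
    ∀ᶠ s in 𝓝[>] (0 : ℝ), ∀ᶠ η in 𝓝 (0 : ℝ),
      PromiseRaw (Hl ∘ sh (chi b M0 φ ψ s) ℓ β) (sh (-chi b M0 φ ψ s) ℓ β ∘ Hi) (w + s • v)
        (β + η • u) v' ℓ' (κ₀ * s) M0' φ' ψ' r ε

def LimStmt : Prop :=
  ∀ (T : ℕ → T3 ≃ₜ T3) (F G : ℕ → V → V) (C : ℝ),
    (∀ n, MeasurePreserving (T n) (volume : Measure T3) volume) →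
    (∀ n, IsSmoothLift (T n) (F n)) → (∀ n, IsSmoothLift (T n).symm (G n)) →
    (∀ n, Close n (C / 2 ^ n) (F (n + 1)) (F n)) → (∀ n, Close n (C / 2 ^ n) (G (n + 1)) (G n)) →
    ∃ T' : T3 ≃ₜ T3, IsSmoothDiffeo T'.toEquiv ∧
      MeasurePreserving T' (volume : Measure T3) volume ∧
      ∀ m : ℤ, TendstoUniformly (fun n x => (T n ^ m) x) (fun x => (T' ^ m) x) atTop

/-! ### States -/

structure State where
  H : T3 ≃ₜ T3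
  Hl : V → V
  Hi : V → V
  w : V
  β : V
  a : Fin 3
  a' : Fin 3
  L : ℕ
  ℓ : Z3
  b : ℝ
  D : ℕ
  B : Z3
  d : Design
  φ : ℝ → ℝ
  ψ : ℝ → ℝ
  O : Finset Z3
  X : Finset Z3
  γ : Z3 → ℂ

namespace State

variable (S : State)

/-- width of the arc of the frequency `l` -/
noncomputable def wd (l : Z3) : ℝ := S.b * (idot l S.B : ℝ) / S.D

/-- eigenvalue of the frequency `l` -/
noncomputable def θ (l : Z3) : UnitAddCircle := ((rdot l S.w : ℝ) : UnitAddCircle)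

noncomputable def gap : ℝ := 1 - 2 * ∑ l ∈ S.O, S.wd l

noncomputable def Ψ (φ : UnitAddCircle → ℂ) : C(T3, ℂ) :=
  comb S.H S.O fun l => S.γ l * φ (S.θ l)

/-- direction of the next change of the rotation vector -/
noncomputable def v : V := (S.L : ℝ)⁻¹ • Pi.single S.a (1 : ℝ)

noncomputable def chi (s : ℝ) : ℝ → ℝ := R81.chi S.b S.d.M0 S.φ S.ψ s

/-- lift of the map (`κ = 1`) and of its inverse (`κ = -1`) -/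
noncomputable def Tl (κ : ℝ) : V → V := fun x => S.Hl (S.Hi x + κ • S.w)

def Promise (r : ℕ) (ε : ℝ) : Prop :=
  PromiseRaw S.Hl S.Hi S.w S.β S.v S.ℓ S.b S.d.M0 S.φ S.ψ r ε

/-- the update of the shear direction at the end of a step -/
noncomputable def upd (η : ℝ) : State := { S with β := S.β + η • Pi.single S.a' (1 : ℝ) }

def ClusterSep : Prop :=
  ∀ l ∈ S.X, ∀ l' ∈ S.X, l ≠ l' → idot l S.B = idot l' S.B →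
    (S.wd l + S.wd l') / 2 ≤ ‖S.θ l - S.θ l'‖

end State

def CloseT (r : ℕ) (ε : ℝ) (S' S : State) : Prop :=
  Close r ε (S'.Tl 1) (S.Tl 1) ∧ Close r ε (S'.Tl (-1)) (S.Tl (-1))

/-- index separation of the design `d`, for the frequencies in `X` -/
def SepX (d : Design) (X : Finset Z3) (B : Z3) (a : Fin 3) : Prop :=
  ∀ l ∈ X, ∀ l' ∈ X, idot l' B ∈ d.Vnew → ∀ n ∈ d.Good (idot l B), ∀ n' ∈ d.Good (idot l' B),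
    |l a| + |l' a| + idot l B + idot l' B ≤ |n + n'| ∧
      (idot l B ≠ idot l' B → |l a| + |l' a| + idot l B + idot l' B ≤ |n - n'|)

/-- the part of the invariant which does not depend on the last update -/
structure Valid0 (S : State) : Prop where
  mp : MeasurePreserving S.H (volume : Measure T3) volume
  eHl : Equivar S.Hl
  eHi : Equivar S.Hi
  lHl : ∀ x, S.H (proj x) = proj (S.Hl x)
  lHi : ∀ x, S.H.symm (proj x) = proj (S.Hi x)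
  aa : (S.a = 0 ∧ S.a' = 1) ∨ (S.a = 1 ∧ S.a' = 0)
  β2 : S.β 2 = 1
  ratw : RatVec S.w
  L_pos : 0 < S.L
  ℓa : S.ℓ S.a = S.L
  ℓa' : S.ℓ S.a' = 0
  ℓβ : rdot S.ℓ S.β = 0
  ℓB : idot S.ℓ S.B = 0
  ℓw : ∃ z : ℤ, rdot S.ℓ S.w = z
  b_pos : 0 < S.b
  D_pos : 0 < S.D
  bA : S.b * S.d.Amax ≤ S.D / 2
  spec : DesignSpec S.d
  prof : Profile S.d.e S.d.M0 (fun i => S.D * S.d.τ i) S.φ S.ψ
  sub : S.O ⊆ S.X
  ne : S.O.Nonempty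
  dO : DivClosed S.O
  dX : DivClosed S.X
  val : ∀ l ∈ S.X, 1 ≤ idot l S.B ∧ idot l S.B ≤ S.d.Amax
  γn : ∀ l ∈ S.X, ‖S.γ l‖ ^ 2 = S.wd l
  sep : SepFam S.O S.θ S.wd
  old : ∀ l ∈ S.O, ∀ a' ∈ S.d.Vnew, ¬ a' ∣ idot l S.B
  sepX : SepX S.d S.X S.B S.a

/-- the invariant before the update -/
structure PreValid (S : State) : Prop extends Valid0 S where
  B_eq : ∀ i, (S.B i : ℝ) = S.D * S.β i
  genPre : ∀ l ∈ S.X, ∀ l' ∈ S.X, ∀ m : ℤ, rdot (l - m • l') S.β = 0 → (l - m • l') S.a' = 0 →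
    l = m • l'

/-- the invariant after the update -/
structure Valid (S : State) : Prop extends Valid0 S where
  ratβ : RatVec S.β
  near1 : ∀ l ∈ S.X, |S.D * rdot l S.β - idot l S.B| ≤ S.d.e / 4
  near2 : ∀ l ∈ S.X, ∀ i < S.d.M0,
    ‖ee (rdot l S.β * (S.D * S.d.τ i)) - ee ((idot l S.B : ℝ) * S.d.τ i)‖ ≤ S.d.e
  gen : ∀ l ∈ S.X, ∀ l' ∈ S.X, ∀ m : ℤ, rdot (l - m • l') S.β = 0 → l = m • l'

def GenStmt : Prop :=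
  ∀ (β : V) (a : Fin 3) (Y : Finset Z3), ∀ᶠ η in 𝓝[≠] (0 : ℝ),
    (∀ ν ∈ Y, rdot ν (β + η • Pi.single a (1 : ℝ)) = 0 → ν a = 0) ∧
    (∀ ν ∈ Y, rdot ν β ≠ 0 → rdot ν (β + η • Pi.single a (1 : ℝ)) ≠ 0) ∧
    ∀ ν ∈ Y, ∀ ν' ∈ Y, rdot ν' β ≠ 0 → ∀ m : ℤ,
      rdot (ν - m • ν') (β + η • Pi.single a (1 : ℝ)) = 0 → (ν - m • ν') a = 0

def UpdStmt : Prop :=
  ∀ P : State, PreValid P → ∀ᶠ η : ℝ in 𝓝[≠] (0 : ℝ), (∃ q : ℚ, η = (q : ℝ)) → Valid (P.upd η)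

/-- the data of the step after the next one -/
structure NextData where
  L : ℕ
  ℓ : Z3
  D : ℕ
  B : Z3
  d : Design
  φ : ℝ → ℝ
  ψ : ℝ → ℝ

structure NextSpec (S : State) (n : NextData) : Prop where
  L_pos : 0 < n.L
  ℓa : n.ℓ S.a' = n.L
  ℓa' : n.ℓ S.a = 0
  ℓβ : rdot n.ℓ S.β = 0
  ℓw : ∃ z : ℤ, rdot n.ℓ S.w = z
  D_pos : 0 < n.D
  B_eq : ∀ i, (n.B i : ℝ) = n.D * S.β i
  spec : DesignSpec n.d
  prof : Profile n.d.e n.d.M0 (fun i => n.D * n.d.τ i) n.φ n.ψ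
  val_le : ∀ l ∈ S.X, idot l n.B ≤ n.d.Amax
  old : ∀ l ∈ S.O, ∀ a' ∈ n.d.Vnew, ¬ a' ∣ idot l n.B
  sepX : SepX n.d S.X n.B S.a'

/-- the state after a step with parameter `s` (before the update) -/
noncomputable def State.next (S : State) (n : NextData) (s : ℝ) (h : T3 ≃ₜ T3) (O X : Finset Z3)
    (γ : Z3 → ℂ) : State where
  H := h.trans S.H
  Hl := S.Hl ∘ sh (S.chi s) S.ℓ S.β
  Hi := sh (-S.chi s) S.ℓ S.β ∘ S.Hi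
  w := S.w + s • S.v
  β := S.β
  a := S.a'
  a' := S.a
  L := n.L
  ℓ := n.ℓ
  b := (1 - S.d.e) * S.D * s
  D := n.D
  B := n.B
  d := n.d
  φ := n.φ
  ψ := n.ψ
  O := O
  X := X
  γ := γ

/-- admissible step parameters -/
def Anchor (S : State) (s : ℝ) : Prop :=
  (∀ i, ∃ z : ℤ, S.w i = s * S.d.M0 * z) ∧ ∃ z : ℤ, 1 = s * S.d.M0 * z

/-- what a step achieves -/
structure StepOut (S P : State) : Prop where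
  parO : ∀ ν ∈ P.O, ∃ l ∈ S.O, ∃ n : ℤ, ν = l + n • S.ℓ
  parN : ∀ ν ∈ P.X, ν ∉ P.O → ∃ l ∈ S.X, l ∉ S.O ∧ ∃ n : ℤ, ν = l + n • S.ℓ
  gap : P.gap ≤ 7 * S.d.e
  stab : ∀ (φ : UnitAddCircle → ℂ) (R om R' : ℝ), 0 ≤ om → 0 ≤ R' → (∀ x, ‖φ x‖ ≤ R) →
    (∀ l ∈ S.O, ∀ x, ‖x - S.θ l‖ ≤ (1 - S.d.e / 2) * S.wd l / 2 → ‖φ x - φ (S.θ l)‖ ≤ om) →
    (∀ x, (∀ l ∈ S.O, S.wd l / 2 ≤ ‖x - S.θ l‖ ∧ S.wd l / 2 ≤ ‖x + S.θ l‖) → ‖φ x‖ ≤ R') →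
    nrm (P.Ψ φ - S.Ψ φ) ≤ 10 * R * √S.d.e + om + R' * √(S.gap + 5 * S.d.e)
  trans : ∀ (f : Z3 → ℂ) (R : ℝ), 0 ≤ R → (∀ l ∈ S.X, ‖f l‖ ^ 2 ≤ R * S.wd l) →
    ∃ f' : Z3 → ℂ,
      nrm (comb S.H S.X f - comb P.H P.X f') ^ 2 ≤ 100 * S.d.e * ∑ l ∈ S.X, ‖f l‖ ^ 2 ∧
      ∀ ν ∈ P.X, ‖f' ν‖ ^ 2 ≤ 2 * S.d.M0 * R * P.wd ν
  clus : P.ClusterSep
  ins : (∀ l ∈ S.X, l ∉ S.O → idot l S.B ∈ S.d.Vnew) → S.ClusterSep → SepFam P.X P.θ P.wd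

def CoreStmt : Prop :=
  ∀ (S : State) (n : NextData), Valid S → NextSpec S n →
    ∀ᶠ s in 𝓝[>] (0 : ℝ), Anchor S s → ∀ h : T3 ≃ₜ T3, IsShear h (S.chi s) S.ℓ S.β →
      ∃ (O X : Finset Z3) (γ : Z3 → ℂ),
        PreValid (S.next n s h O X γ) ∧ StepOut S (S.next n s h O X γ)

def StepStmt : Prop :=
  ∀ (S : State), Valid S → ∀ (e' ζ ε ε' : ℝ) (r r' : ℕ) (W Nn : Finset Z3),
    0 < e' → e' ≤ 1 / 10 → 0 < ζ → 0 < ε' → (∀ l ∈ Nn, l ∈ S.X ∧ l ∉ S.O) →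
    ∃ P : State, PreValid P ∧ StepOut S P ∧ P.a = S.a' ∧ P.a' = S.a ∧ P.β = S.β ∧ P.d.e = e' ∧
      P.b * P.d.Amax ≤ ζ * P.D ∧ (∀ l ∈ W, |idot l P.B| ≤ P.d.Amax) ∧
      P.d.Vnew = Nn.image (fun l => idot l P.B) ∧
      (∀ (F : C(T3, ℂ)) (W : Finset Z3) (δ : ℝ), 0 ∉ W → Approx S.H F W δ →
        ∃ W' : Finset Z3, 0 ∉ W' ∧ (∀ ν ∈ W', ∃ l ∈ W, ∃ n : ℤ, ν = l + n • S.ℓ) ∧
          Approx P.H F W' δ) ∧
      (S.Promise r ε → CloseT r ε P S) ∧ ∀ᶠ η in 𝓝 (0 : ℝ), (P.upd η).Promise r' ε'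

/-! ### Cycles -/

/-- the parameters `R, e₀, ζ` are adapted to the family `Fam` at level `n` -/
structure Par (n : ℕ) (Fam : Finset C(UnitAddCircle, ℂ)) (R e₀ ζ : ℝ) : Prop where
  e_pos : 0 < e₀
  e_le : e₀ ≤ 1 / 10
  ζ_pos : 0 < ζ
  ζ_le : ζ ≤ 1 / 2 ^ n
  one_le : 1 ≤ R
  Re : R * √e₀ ≤ 1 / 2 ^ n
  bdd : ∀ φ ∈ Fam, ∀ x, ‖φ x‖ ≤ R
  modc : ∀ φ ∈ Fam, ∀ x y, ‖x - y‖ ≤ ζ → ‖φ x - φ y‖ ≤ 1 / 2 ^ n

/-- the state is fine enough for the parameters -/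
structure Mid (n : ℕ) (S : State) (e₀ ζ : ℝ) : Prop where
  valid : Valid S
  prom : S.Promise n (1 / 2 ^ n)
  e_le : S.d.e ≤ e₀
  gap_le : S.gap ≤ 7 * e₀
  wd_le : S.b * S.d.Amax ≤ ζ * S.D

def Ready (n : ℕ) (S : State) (Fam : Finset C(UnitAddCircle, ℂ)) : Prop :=
  S.X = S.O ∧ ∃ R e₀ ζ : ℝ, Par n Fam R e₀ ζ ∧ Mid n S e₀ ζ

/-- `S'` is reached from `S` at a cost of `k` units at level `n` -/
def Move (n : ℕ) (Fam : Finset C(UnitAddCircle, ℂ)) (k : ℝ) (S S' : State) : Prop :=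
  CloseT n (k / 2 ^ n) S' S ∧ ∀ φ ∈ Fam, nrm (S'.Ψ φ - S.Ψ φ) ≤ 15 * k / 2 ^ n

/-- four steps: registration of the test function -/
def PrepStmt : Prop :=
  ∀ (n : ℕ) (Fam : Finset C(UnitAddCircle, ℂ)) (R e₀ ζ : ℝ) (S : State) (F : C(T3, ℂ)),
    Par n Fam R e₀ ζ → Mid n S e₀ ζ → S.X = S.O → star F = F → ∫ x, F x = 0 →
    ∃ S' : State, Mid n S' e₀ ζ ∧ Move n Fam 4 S S' ∧ Approx S'.H F S'.X (1 / 2 ^ n)

open Classical in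
/-- three steps: capture of the test function -/
def CapStmt : Prop :=
  ∀ (n : ℕ) (Fam : Finset C(UnitAddCircle, ℂ)) (R e₀ ζ : ℝ) (S : State) (F : C(T3, ℂ)),
    Par n Fam R e₀ ζ → Mid n S e₀ ζ → nrm F ≤ 2 → Approx S.H F S.X (1 / 2 ^ n) →
    ∃ (S' : State) (φ : C(UnitAddCircle, ℂ)), Ready (n + 1) S' (insert φ Fam) ∧
      Move n Fam 4 S S' ∧ (∀ x, φ (-x) = (starRingEnd ℂ) (φ x)) ∧
      nrm (F - (S'.Ψ φ + star (S'.Ψ φ))) ≤ 1000 / 2 ^ n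

def InitStmt : Prop := ∃ S : State, Ready 0 S {1}

/-- the real test functions -/
noncomputable def test (k : Z3) (c : ℂ) : C(T3, ℂ) :=
  c • UnitAddTorus.mFourier k + star (c • UnitAddTorus.mFourier k)

/-- a sequence of stages with all the properties needed in the limit -/
structure GoodSeq (S : ℕ → State) (C : ℝ) : Prop where
  valid : ∀ n, Valid0 (S n)
  close : ∀ n, CloseT n (C / 2 ^ n) (S (n + 1)) (S n)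
  cauchy : ∀ n, nrm ((S (n + 1)).Ψ (fun _ => 1) - (S n).Ψ (fun _ => 1)) ≤ C / 2 ^ n
  gap : ∀ n, (S n).gap ≤ C / 2 ^ n
  wd : ∀ n, ∀ l ∈ (S n).O, (S n).wd l ≤ C / 2 ^ n
  capt : ∀ k : Z3, k ≠ 0 → ∀ c : ℂ, c = 1 ∨ c = Complex.I → ∀ δ : ℝ, 0 < δ →
    ∃ φ : C(UnitAddCircle, ℂ), (∀ x, φ (-x) = (starRingEnd ℂ) (φ x)) ∧
      ∀ᶠ n in atTop, nrm (test k c - ((S n).Ψ φ + star ((S n).Ψ φ))) ≤ δ

def SeqStmt : Prop := ∃ (S : ℕ → State) (C : ℝ), GoodSeq S C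

/-- the statement of S0108 -/
def Goal : Prop :=
  ∃ (T : Equiv.Perm T3) (g : T3 → ℝ), IsSmoothDiffeo T ∧
    MeasureTheory.MeasurePreserving T MeasureTheory.volume MeasureTheory.volume ∧
    MeasureTheory.MemLp g 2 MeasureTheory.volume ∧ ∫ x, g x = 0 ∧
    (∀ m n : ℤ, ∫ x, g ((T ^ m) x) * g ((T ^ n) x) = if m = n then 1 else 0) ∧
    (∀ h : T3 → ℂ, MeasureTheory.MemLp h 2 MeasureTheory.volume → ∫ x, h x = 0 →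
      (∀ n : ℤ, ∫ x, h x * (g ((T ^ n) x) : ℂ) = 0) → h =ᵐ[MeasureTheory.volume] 0)

def FinStmt : Prop := ∀ (S : ℕ → State) (C : ℝ), GoodSeq S C → Goal

end Crest.Agent.R81
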