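import Crest.Agent.R81.Defs

/-! Row 81: flat sequences (perfect sequences from chirps and multiplicative characters). -/

set_option autoImplicit false

namespace Crest.Agent.R81

open Crest.Agent.R75

namespace DesFlat

open Finset Function
open scoped ComplexConjugate

section Sums

variable {M : Type*} [AddCommMonoid M]

theorem sum_range_mul (H : ℕ → M) (P Q : ℕ) :
    ∑ i ∈ range (P * Q), H i = ∑ v ∈ range Q, ∑ u ∈ range P, H (P * v + u) := by
  induction Q with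
  | zero => simp
  | succ Q ih => rw [Nat.mul_succ, sum_range_add, ih, sum_range_succ]

theorem sum_range_zmod (P : ℕ) [NeZero P] (F : ZMod P → M) :
    ∑ i ∈ range P, F i = ∑ z, F z :=
  sum_nbij' (fun i => (i : ZMod P)) ZMod.val (by simp) (fun z _ => by simpa using z.val_lt)
    (fun i hi => ZMod.val_cast_of_lt (by simpa using hi)) (by simp) (by simp)

theorem per_val {α : Type*} {F : ℤ → α} {P : ℕ} [NeZero P] (h : Periodic F P) (i : ℤ) :
    F ((i : ZMod P).val : ℕ) = F i := by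
  rw [ZMod.val_intCast, Int.emod_def, mul_comm]
  exact h.sub_int_mul_eq _

theorem sum_affine {F : ℤ → M} {Q : ℕ} (hQ : 0 < Q) (h : Periodic F Q) {P : ℕ}
    (hc : P.Coprime Q) (u : ℤ) : ∑ v ∈ range Q, F (P * v + u) = ∑ j ∈ range Q, F j := by
  have : NeZero Q := ⟨hQ.ne'⟩
  let F' : ZMod Q → M := fun z => F (z.val : ℕ)
  have h1 : ∀ v : ℕ, F (P * v + u) = F' (P * (v : ZMod Q) + u) := fun v => by
    rw [← per_val h]; simp [F']
  have h2 : ∀ v : ℕ, F v = F' v := fun v => by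
    rw [← per_val h, Int.cast_natCast]
  simp only [h1, h2]
  rw [sum_range_zmod Q fun z => F' (P * z + u), sum_range_zmod Q F']
  exact ((ZMod.unitOfCoprime P hc).mulLeft.trans (Equiv.addRight (u : ZMod Q))).sum_comp F'

theorem sum_shift {F : ℤ → M} {Q : ℕ} (hQ : 0 < Q) (h : Periodic F Q) (u : ℤ) :
    ∑ v ∈ range Q, F (v + u) = ∑ j ∈ range Q, F j := by
  simpa using sum_affine hQ h (Nat.coprime_one_left Q) u

theorem per_add {α : Type*} {F : ℤ → α} {P : ℕ} (h : Periodic F P) (v u : ℕ) :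
    F ((P * v + u : ℕ) : ℤ) = F u := by
  push_cast
  rw [add_comm, mul_comm]
  exact h.nat_mul v u

theorem sum_per {F : ℤ → M} {P : ℕ} (h : Periodic F P) (Q : ℕ) :
    ∑ i ∈ range (P * Q), F i = Q • ∑ i ∈ range P, F i := by
  rw [sum_range_mul (fun i : ℕ => F i)]
  simp only [per_add h, sum_const, card_range]

theorem sum_mul_per {F G : ℤ → ℂ} {P Q : ℕ} (hQ : 0 < Q) (hF : Periodic F P) (hG : Periodic G Q)
    (hc : P.Coprime Q) :
    ∑ i ∈ range (P * Q), F i * G i = (∑ i ∈ range P, F i) * ∑ j ∈ range Q, G j := by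
  rw [sum_range_mul (fun i : ℕ => F i * G i), sum_comm, sum_mul]
  refine sum_congr rfl fun u _ => ?_
  simp only [per_add hF]
  rw [← mul_sum, ← sum_affine hQ hG hc u]
  push_cast
  rfl

end Sums

/-- periodic with perfect autocorrelation -/
structure Perfect (P : ℕ) (g : ℤ → ℂ) : Prop where
  pos : 0 < P
  per : Periodic g P
  corr : ∀ h : ℤ, ∑ i ∈ range P, g (i + h) * conj (g i) = if (P : ℤ) ∣ h then (P : ℂ) else 0

theorem per_corr {g : ℤ → ℂ} {P : ℕ} (hg : Periodic g P) (h : ℤ) :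
    Periodic (fun i => g (i + h) * conj (g i)) P := fun i => by
  simp only [add_right_comm i, hg _]

theorem Perfect.mul {P Q : ℕ} {f g : ℤ → ℂ} (hf : Perfect P f) (hg : Perfect Q g)
    (hc : P.Coprime Q) : Perfect (P * Q) fun i => f i * g i := by
  refine ⟨Nat.mul_pos hf.pos hg.pos, fun i => ?_, fun h => ?_⟩
  · have h1 := hf.per.nat_mul Q i
    have h2 := hg.per.nat_mul P i
    rw [mul_comm] at h1
    push_cast
    rw [h1, h2]
  · have := sum_mul_per hg.pos (per_corr hf.per h) (per_corr hg.per h) hc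
    rw [hf.corr, hg.corr] at this
    have e : ((P * Q : ℕ) : ℤ) ∣ h ↔ (P : ℤ) ∣ h ∧ (Q : ℤ) ∣ h := by
      push_cast
      exact ⟨fun h => ⟨dvd_of_mul_right_dvd h, dvd_of_mul_left_dvd h⟩,
        fun h => (Nat.isCoprime_iff_coprime.2 hc).mul_dvd h.1 h.2⟩
    rw [← sum_congr rfl fun i _ => mul_mul_mul_comm _ _ _ _] at this
    simp only [map_mul, this, e]
    by_cases h1 : (P : ℤ) ∣ h <;> by_cases h2 : (Q : ℤ) ∣ h <;> simp [h1, h2]

theorem Perfect.prod {N : ℕ} {g : ℤ → ℂ} (hg : Perfect N g) {ι : Type*} (s : Finset ι)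
    (p : ι → ℕ) (v : ι → ℤ → ℂ) (hv : ∀ a ∈ s, Perfect (p a) (v a))
    (hN : ∀ a ∈ s, N.Coprime (p a)) (hp : ∀ a ∈ s, ∀ b ∈ s, a ≠ b → (p a).Coprime (p b)) :
    Perfect (N * ∏ a ∈ s, p a) fun i => g i * ∏ a ∈ s, v a i := by
  classical
  induction s using Finset.induction_on with
  | empty => simpa using hg
  | insert a s ha ih =>
    have h1 := (ih (fun b hb => hv b (mem_insert_of_mem hb)) (fun b hb => hN b (mem_insert_of_mem hb))
      (fun b hb c hc => hp b (mem_insert_of_mem hb) c (mem_insert_of_mem hc))).mul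
      (hv a (mem_insert_self _ _))
      (Nat.Coprime.mul_left (hN a (mem_insert_self _ _)) (Nat.Coprime.prod_left fun b hb =>
        hp b (mem_insert_of_mem hb) a (mem_insert_self _ _) fun e => ha (e ▸ hb)))
    simp only [prod_insert ha]
    rw [mul_comm (p a), ← mul_assoc]
    convert h1 using 2
    ring

theorem Perfect.modul {P : ℕ} {g : ℤ → ℂ} (hg : Perfect P g) (k : ℤ) :
    Perfect P fun i => g i * ee (k * i / P) := by
  have hP : (P : ℝ) ≠ 0 := by exact_mod_cast hg.pos.ne'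
  refine ⟨hg.pos, fun i => ?_, fun h => ?_⟩
  · simp only [hg.per i]
    rw [← ee_add_int (k * i / P) k]
    congr 2
    push_cast
    field_simp
  · have e : ∀ i : ℕ, g (i + h) * ee (k * ((i : ℤ) + h : ℤ) / P) *
        conj (g i * ee (k * ((i : ℤ) : ℝ) / P)) = ee (k * h / P) * (g (i + h) * conj (g i)) := by
      intro i
      have : ee (k * ((i : ℤ) + h : ℤ) / P) * ee (-(k * ((i : ℤ) : ℝ) / P)) = ee (k * h / P) := by
        rw [← ee_add]; congr 1; push_cast; ring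
      rw [map_mul, conj_ee, ← this]; ring
    simp only [e]
    rw [← mul_sum, hg.corr]
    split_ifs with hd
    · obtain ⟨c, rfl⟩ := hd
      have : (k : ℝ) * ((P : ℤ) * c : ℤ) / P = (k * c : ℤ) := by push_cast; field_simp
      rw [this, ee_intCast, one_mul]
    · rw [mul_zero]

theorem Perfect.norm_sum {P : ℕ} {g : ℤ → ℂ} (hg : Perfect P g) :
    ‖∑ i ∈ range P, g i‖ ^ 2 = P := by
  have h1 : (∑ i ∈ range P, g i) * conj (∑ i ∈ range P, g i) = P := by
    rw [map_sum, mul_sum]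
    have : ∀ j ∈ range P, (∑ i ∈ range P, g i) * conj (g j) =
        ∑ h ∈ range P, g (j + h) * conj (g j) := fun j _ => by
      rw [← sum_shift hg.pos hg.per j, sum_mul]
      simp only [add_comm]
    rw [sum_congr rfl this, sum_comm]
    simp only [hg.corr]
    rw [sum_eq_single 0]
    · simp
    · intro h hh h0
      rw [if_neg]
      intro hd
      exact absurd (Nat.le_of_dvd (Nat.pos_of_ne_zero h0) (Int.natCast_dvd_natCast.1 hd))
        (not_le.2 (mem_range.1 hh))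
    · intro h; exact absurd (mem_range.2 hg.pos) h
  rw [Complex.mul_conj, Complex.normSq_eq_norm_sq] at h1
  exact_mod_cast h1

theorem Perfect.sum_norm {P : ℕ} {g : ℤ → ℂ} (hg : Perfect P g) :
    ∑ i ∈ range P, ‖g i‖ ^ 2 = P := by
  have h1 := hg.corr 0
  simp only [add_zero, dvd_zero, if_true, Complex.mul_conj, Complex.normSq_eq_norm_sq] at h1
  exact_mod_cast h1

theorem Perfect.flat {P M M0 : ℕ} {g : ℤ → ℂ} (hg : Perfect P g) (hM : 0 < M) (h0 : P * M = M0)
    (ρ : ℤ) : Flat M0 M ρ fun i => g i * ee (ρ * i / M0) := by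
  subst h0
  have hP : (P : ℝ) ≠ 0 := by exact_mod_cast hg.pos.ne'
  have hM' : (M : ℝ) ≠ 0 := by exact_mod_cast hM.ne'
  constructor
  · simp only [norm_mul, norm_ee, mul_one]
    rw [sum_per (F := fun i => ‖g i‖ ^ 2) (fun i => by simp only [hg.per i]), hg.sum_norm]
    simp [mul_comm]
  · rintro n ⟨k, hk⟩
    have hn : (n : ℝ) = ρ + M * k := by
      have : n = ρ + M * k := by omega
      rw [this]; push_cast; ring
    have h1 := hg.modul (-k)
    have e : ∀ i : ℕ, g i * ee (ρ * i / (P * M : ℕ)) * ee (-((n : ℝ) * i / (P * M : ℕ))) =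
        g i * ee ((-k : ℤ) * ((i : ℤ) : ℝ) / P) := by
      intro i
      rw [mul_assoc, ← ee_add, hn]
      congr 2
      push_cast
      field_simp
      ring
    simp only [dft, e]
    rw [sum_per h1.per, norm_mul, mul_pow, nsmul_eq_mul, norm_mul, mul_pow, h1.norm_sum, norm_inv,
      Complex.norm_natCast, Complex.norm_natCast]
    push_cast
    field_simp

theorem ee_eq_one {x : ℝ} (h : ee x = 1) : ∃ n : ℤ, x = n := by
  obtain ⟨n, hn⟩ := Complex.exp_eq_one_iff.1 h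
  refine ⟨n, ?_⟩
  have h1 : ((2 * Real.pi * x : ℝ) : ℂ) = ((2 * Real.pi * n : ℝ) : ℂ) := by
    refine mul_right_cancel₀ Complex.I_ne_zero ?_
    rw [hn]; push_cast; ring
  exact mul_left_cancel₀ (by positivity) (Complex.ofReal_injective h1)

theorem chirp {n : ℕ} (hn : 0 < n) : Perfect (2 * n) fun i => ee ((i : ℝ) ^ 2 / (2 * (2 * n))) := by
  have hn' : (n : ℝ) ≠ 0 := by exact_mod_cast hn.ne'
  refine ⟨by omega, fun i => ?_, fun h => ?_⟩
  · rw [← ee_add_int ((i : ℝ) ^ 2 / _) (i + n)]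
    congr 1
    push_cast
    field_simp
    ring
  · have e : ∀ i : ℕ, ee ((((i : ℤ) + h : ℤ) : ℝ) ^ 2 / (2 * (2 * n))) *
        conj (ee ((((i : ℤ) : ℝ)) ^ 2 / (2 * (2 * n)))) =
        ee ((h : ℝ) ^ 2 / (2 * (2 * n))) * ee (h / (2 * n)) ^ i := by
      intro i
      rw [conj_ee, ← ee_nat_mul, ← ee_add, ← ee_add]
      congr 1
      push_cast
      field_simp
      ring
    simp only [e]
    rw [← mul_sum]
    split_ifs with hd
    · obtain ⟨c, rfl⟩ := hd
      have h1 : ((((2 * n : ℕ) : ℤ) * c : ℤ) : ℝ) ^ 2 / (2 * (2 * n)) = (n * c ^ 2 : ℤ) := by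
        push_cast; field_simp
      have h2 : ((((2 * n : ℕ) : ℤ) * c : ℤ) : ℝ) / (2 * n) = c := by
        push_cast; field_simp
      rw [h1, h2, ee_intCast, ee_intCast]
      simp
    · have h1 : ee (h / (2 * n)) ≠ 1 := fun h1 => by
        obtain ⟨c, hc⟩ := ee_eq_one h1
        refine hd ⟨c, ?_⟩
        rw [div_eq_iff (by positivity)] at hc
        have : (h : ℝ) = (((2 * n : ℕ) : ℤ) * c : ℤ) := by rw [hc]; push_cast; ring
        exact_mod_cast this
      have h2 : ee (h / (2 * n)) ^ (2 * n) = 1 := by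
        rw [← ee_nat_mul, ← ee_intCast h]
        congr 1
        push_cast
        field_simp
      rw [geom_sum_eq h1, h2]
      simp

theorem char_corr {p : ℕ} [Fact p.Prime] {ψ : MulChar (ZMod p) ℂ} (hψ : ψ ≠ 1) (h : ZMod p) :
    ∑ z, ψ (z + h) * conj (ψ z) = (if h = 0 then (p : ℂ) else 0) - 1 := by
  have e : ∀ z, ψ (z + h) * conj (ψ z) = ψ (1 + h * z⁻¹) - if z = 0 then 1 else 0 := fun z => by
    split_ifs with hz
    · subst hz; simp [MulChar.map_zero]
    · have : conj (ψ z) = ψ z⁻¹ := (MulChar.star_apply' ψ z).trans (MulChar.inv_apply' ψ z)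
      rw [this, ← map_mul, add_mul, mul_inv_cancel₀ hz, sub_zero]
  simp only [e, sum_sub_distrib, sum_ite_eq', mem_univ, if_true]
  congr 1
  split_ifs with hh
  · subst hh; simp
  · rw [← MulChar.sum_eq_zero_of_ne_one hψ]
    exact Equiv.sum_comp ((Equiv.inv (ZMod p)).trans ((Equiv.mulLeft₀ h hh).trans (Equiv.addLeft 1))) ψ

theorem char_perfect {p : ℕ} [hp : Fact p.Prime] {ψ : MulChar (ZMod p) ℂ} (hψ : ψ ≠ 1) {c : ℝ}
    (hc : p * c ^ 2 = 1) : Perfect p fun i => ψ i + c := by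
  refine ⟨hp.out.pos, fun i => by simp, fun h => ?_⟩
  have h0 := MulChar.sum_eq_zero_of_ne_one hψ
  have h1 : ∑ z, ψ (z + h) = 0 := by rw [← h0]; exact Equiv.sum_comp (Equiv.addRight (h : ZMod p)) ψ
  have h2 : ∑ z, conj (ψ z) = 0 := by rw [← map_sum, h0, map_zero]
  have h3 : (p : ℂ) * (c : ℂ) ^ 2 = 1 := by exact_mod_cast hc
  have e : ∀ z : ZMod p, (ψ (z + h) + c) * conj (ψ z + c) =
      ψ (z + h) * conj (ψ z) + ψ (z + h) * c + c * conj (ψ z) + c ^ 2 := fun z => by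
    rw [map_add (starRingEnd ℂ), Complex.conj_ofReal]; ring
  push_cast
  rw [sum_range_zmod p fun z => (ψ (z + h) + c) * conj (ψ z + c)]
  simp only [e, sum_add_distrib, ← sum_mul, ← mul_sum, h1, h2, char_corr hψ, sum_const, card_univ,
    ZMod.card, nsmul_eq_mul, h3, ZMod.intCast_zmod_eq_zero_iff_dvd]
  ring

/-- the phases attached to a character of order `m` modulo `p` -/
structure Phase (m p : ℕ) (t : ℤ → ℝ) : Prop where
  per : Periodic t p
  triv : ∀ a : ℕ, m ∣ a → ∀ i, ee (a * t i) = 1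
  flat : ∀ a : ℕ, ¬ m ∣ a → ∃ v : ℤ → ℂ, Perfect p v ∧ (∀ i, ‖v i‖ ≤ 2) ∧
    ∑ i ∈ range p, ‖ee (a * t i) - v i‖ ^ 2 ≤ 2

theorem exists_phase (m B : ℕ) : ∃ p : ℕ, p.Prime ∧ B < p ∧ ∃ t, Phase (m + 1) p t := by
  obtain ⟨p, hp, hB, hmod⟩ := Nat.exists_prime_gt_modEq_one B (Nat.succ_ne_zero m)
  refine ⟨p, hp, hB, ?_⟩
  have : Fact p.Prime := ⟨hp⟩
  obtain ⟨χ, hχ⟩ := MulChar.exists_mulChar_orderOf (ZMod p) (n := m + 1)
    (by rw [ZMod.card]; exact (Nat.modEq_iff_dvd' hp.one_le).1 hmod.symm)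
    (Complex.isPrimitiveRoot_exp (m + 1) (Nat.succ_ne_zero m))
  let u : ZMod p → ℂ := fun z => if z = 0 then 1 else χ z
  have hu : ∀ z, ‖u z‖ = 1 := fun z => by
    simp only [u]
    split_ifs with hz
    · exact norm_one
    · exact DirichletCharacter.unit_norm_eq_one χ (Units.mk0 z hz)
  choose θ _ _ hθ using fun z => exists_ee_of_norm_one (hu z)
  refine ⟨fun i => θ i, fun i => by simp, fun a ha i => ?_, fun a ha => ?_⟩
  · rw [ee_nat_mul, ← hθ]
    simp only [u]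
    split_ifs with hz
    · exact one_pow _
    · have h1 := MulChar.pow_apply_coe χ a (Units.mk0 _ hz)
      rw [orderOf_dvd_iff_pow_eq_one.1 (hχ ▸ ha), MulChar.one_apply_coe] at h1
      exact h1.symm
  · have ha0 : a ≠ 0 := fun h => ha (h ▸ dvd_zero _)
    have hψ : χ ^ a ≠ 1 := fun h => ha (hχ ▸ orderOf_dvd_iff_pow_eq_one.2 h)
    have hp0 : (0 : ℝ) < p := by exact_mod_cast hp.pos
    have hp1 : (1 : ℝ) ≤ p := by exact_mod_cast hp.one_le
    set c : ℝ := (√p)⁻¹ with hc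
    have hc2 : p * c ^ 2 = 1 := by
      rw [hc, inv_pow, Real.sq_sqrt hp0.le, mul_inv_cancel₀ hp0.ne']
    have hc0 : 0 ≤ c := by positivity
    have hc1 : c ≤ 1 := inv_le_one_of_one_le₀ (Real.one_le_sqrt.2 hp1)
    refine ⟨_, char_perfect hψ hc2, fun i => ?_, ?_⟩
    · refine (norm_add_le _ _).trans ?_
      have := DirichletCharacter.norm_le_one (χ ^ a) i
      rw [Complex.norm_real, Real.norm_of_nonneg hc0]
      linarith
    · have e : ∀ z : ZMod p, ‖ee (a * θ z) - ((χ ^ a) z + c)‖ ^ 2 ≤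
          c ^ 2 + if z = 0 then 1 else 0 := fun z => by
        rw [ee_nat_mul, ← hθ]
        simp only [u]
        split_ifs with hz
        · subst hz
          have : (1 : ℂ) ^ a - ((χ ^ a) 0 + c) = ((1 - c : ℝ) : ℂ) := by simp [MulChar.map_zero]
          rw [this, Complex.norm_real, Real.norm_eq_abs, sq_abs]
          nlinarith
        · rw [MulChar.pow_apply' χ ha0]
          simp
      push_cast
      rw [sum_range_zmod p fun z => ‖ee (a * θ z) - ((χ ^ a) z + c)‖ ^ 2]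
      refine (sum_le_sum fun z _ => e z).trans ?_
      simp only [sum_add_distrib, sum_const, card_univ, ZMod.card, nsmul_eq_mul, hc2, sum_ite_eq',
        mem_univ, if_true]
      norm_num

theorem exists_phases (B : ℕ) : ∃ (p : ℤ → ℕ) (t : ℤ → ℤ → ℝ),
    (∀ a b : ℤ, 1 ≤ a → 1 ≤ b → p a = p b → a = b) ∧
    ∀ a : ℤ, 1 ≤ a → (p a).Prime ∧ B < p a ∧ Phase a.toNat (p a) (t a) := by
  choose Q hQp hQB T hT using exists_phase
  let P : ℕ → ℕ := fun n => Nat.rec B (fun n b => Q n b) n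
  have hP : StrictMono P := strictMono_nat_of_lt_succ fun n => hQB n (P n)
  refine ⟨fun a => P a.toNat, fun a => T (a.toNat - 1) (P (a.toNat - 1)), fun a b ha hb h => ?_,
    fun a ha => ?_⟩
  · have := hP.injective h
    omega
  · obtain ⟨n, hn⟩ : ∃ n, a.toNat = n + 1 := ⟨a.toNat - 1, by omega⟩
    simp only [hn, Nat.add_sub_cancel]
    exact ⟨hQp n _, hP (Nat.succ_pos n), hT n _⟩

theorem ee_sum {ι : Type*} (s : Finset ι) (x : ι → ℝ) : ee (∑ a ∈ s, x a) = ∏ a ∈ s, ee (x a) := by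
  classical
  induction s using Finset.induction_on with
  | empty => simp
  | insert a s ha ih => rw [sum_insert ha, prod_insert ha, ee_add, ih]

theorem norm_prod_sub_prod {ι : Type*} (s : Finset ι) (u v : ι → ℂ) (hu : ∀ a ∈ s, ‖u a‖ ≤ 1)
    (hv : ∀ a ∈ s, ‖v a‖ ≤ 2) :
    ‖∏ a ∈ s, u a - ∏ a ∈ s, v a‖ ≤ 2 ^ s.card * ∑ a ∈ s, ‖u a - v a‖ := by
  classical
  induction s using Finset.induction_on with
  | empty => simp
  | insert a s ha ih =>
    have h1 := ih (fun b hb => hu b (mem_insert_of_mem hb)) (fun b hb => hv b (mem_insert_of_mem hb))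
    have h2 : ‖∏ b ∈ s, u b‖ ≤ 1 := by
      rw [norm_prod]
      exact prod_le_one (fun _ _ => norm_nonneg _) fun b hb => hu b (mem_insert_of_mem hb)
    have h3 := hv a (mem_insert_self _ _)
    have h4 : (1 : ℝ) ≤ 2 ^ s.card := one_le_pow₀ one_le_two
    rw [prod_insert ha, prod_insert ha, sum_insert ha, card_insert_of_notMem ha, pow_succ]
    have e : u a * ∏ b ∈ s, u b - v a * ∏ b ∈ s, v b =
        (u a - v a) * ∏ b ∈ s, u b + v a * (∏ b ∈ s, u b - ∏ b ∈ s, v b) := by ring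
    rw [e]
    refine (norm_add_le _ _).trans ?_
    rw [norm_mul, norm_mul]
    have h5 := mul_le_mul_of_nonneg_left h2 (norm_nonneg (u a - v a))
    have h6 := mul_le_mul h3 h1 (norm_nonneg _) zero_le_two
    have h7 := mul_le_mul_of_nonneg_left h4 (norm_nonneg (u a - v a))
    nlinarith [norm_nonneg (u a - v a)]

end DesFlat

open DesFlat Finset in
theorem desFlat : DesFlatStmt := by
  classical
  intro e Amax Vnew Pmin he hA hV
  set A := Amax.toNat with hAdef
  set G := 2 * A.factorial ^ 2 with hG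
  set k := Vnew.card with hk
  obtain ⟨B₀, hB₀⟩ := exists_nat_ge (2 * (k : ℝ) ^ 2 * 4 ^ k / e ^ 2)
  set B := Pmin + G + B₀ with hB
  obtain ⟨p, t, hinj, hmain⟩ := exists_phases B
  refine ⟨p, fun i => (i : ℝ) ^ 2 / (2 * G) + ∑ a' ∈ Vnew, t a' i,
    fun a ha => ⟨(hmain a (hV a ha).1).1, by have := (hmain a (hV a ha).1).2.1; omega⟩,
    fun y a ha haA => ?_⟩
  obtain ⟨α, rfl⟩ : ∃ α : ℕ, a = α := ⟨a.toNat, by omega⟩
  have hα : 0 < α := by omega
  have hαR : (α : ℝ) ≠ 0 := by exact_mod_cast hα.ne'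
  obtain ⟨c, hc⟩ : α ∣ A.factorial := Nat.dvd_factorial hα (by omega)
  have hfac := A.factorial_pos
  have hc0 : 0 < c := Nat.pos_of_ne_zero fun h => by rw [h] at hc; omega
  set n := c * A.factorial with hn
  have hn0 : 0 < n := Nat.mul_pos hc0 hfac
  have hGn : G = α * (2 * n) := by rw [hG, hn, sq]; conv_lhs => rw [hc]
                                   rw [← hc]; nth_rewrite 1 [hc]; ring
  have hdvd : ∀ a' ∈ Vnew, a'.toNat ∣ α ↔ a' ∣ (α : ℤ) := fun a' ha' => by
    rw [← Int.natCast_dvd_natCast, Int.toNat_of_nonneg (by have := (hV a' ha').1; omega)]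
  set s := Vnew.filter fun a' => ¬ a' ∣ (α : ℤ) with hs
  have hsV : ∀ a' ∈ s, a' ∈ Vnew := fun a' h => (mem_filter.1 h).1
  have hex : ∀ a', ∃ v : ℤ → ℂ, a' ∈ s → Perfect (p a') v ∧ (∀ i, ‖v i‖ ≤ 2) ∧
      ∑ i ∈ range (p a'), ‖ee (α * t a' i) - v i‖ ^ 2 ≤ 2 := fun a' => by
    by_cases h : a' ∈ s
    · obtain ⟨v, hv⟩ := (hmain a' (hV a' (hsV a' h)).1).2.2.flat α
        fun hd => (mem_filter.1 h).2 ((hdvd a' (hsV a' h)).1 hd)
      exact ⟨v, fun _ => hv⟩
    · exact ⟨0, fun h' => absurd h' h⟩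
  choose v hv using hex
  have hperf := (chirp hn0).prod s p v (fun a' h => (hv a' h).1)
    (fun a' h => by
      obtain ⟨h1, h2, -⟩ := hmain a' (hV a' (hsV a' h)).1
      refine ((Nat.Prime.coprime_iff_not_dvd h1).2 fun hd => ?_).symm
      have h3 := Nat.le_of_dvd (by omega) hd
      have h4 : 2 * n ≤ G := by rw [hGn]; exact Nat.le_mul_of_pos_left _ hα
      omega)
    (fun a₁ h₁ a₂ h₂ hne => by
      have e₁ := (hV a₁ (hsV a₁ h₁)).1
      have e₂ := (hV a₂ (hsV a₂ h₂)).1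
      exact (Nat.coprime_primes (hmain a₁ e₁).1 (hmain a₂ e₂).1).2 fun h =>
        hne (hinj a₁ a₂ e₁ e₂ h))
  set M0 := desM0 Amax Vnew p with hM0
  set M : ℕ := α * ∏ a' ∈ Vnew.filter (· ∣ (α : ℤ)), p a' with hM
  have hMpos : 0 < M := Nat.mul_pos hα (prod_pos fun a' h =>
    (hmain a' (hV a' (mem_filter.1 h).1).1).1.pos)
  have hPM : (2 * n * ∏ a' ∈ s, p a') * M = M0 := by
    rw [hM0, desM0, ← hAdef, ← hG, hGn, hM, hs,
      ← prod_filter_mul_prod_filter_not Vnew (· ∣ (α : ℤ))]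
    ring
  have hflat := hperf.flat hMpos hPM (α * y)
  have hdesM : desM Vnew p α = M := by rw [desM, hM]; push_cast; rfl
  refine ⟨_, hdesM ▸ hflat, ?_⟩
  have hM0pos : (0 : ℝ) ≤ M0 := Nat.cast_nonneg _
  have e1 : ∀ i : ℕ, ‖ee (((α : ℤ) : ℝ) * ((i : ℝ) ^ 2 / (2 * G) + ∑ a' ∈ Vnew, t a' i +
        (y : ℝ) * i / M0)) - (ee (((i : ℤ) : ℝ) ^ 2 / (2 * (2 * n))) * ∏ a' ∈ s, v a' i) *
        ee (((α : ℤ) * y : ℤ) * i / M0)‖ ^ 2 ≤
      4 ^ k * k * ∑ a' ∈ s, ‖ee (α * t a' i) - v a' i‖ ^ 2 := by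
    intro i
    have h1 : ee (((α : ℤ) : ℝ) * ((i : ℝ) ^ 2 / (2 * G) + ∑ a' ∈ Vnew, t a' i +
        (y : ℝ) * i / M0)) = (ee (((i : ℤ) : ℝ) ^ 2 / (2 * (2 * n))) *
          ∏ a' ∈ s, ee (α * t a' i)) * ee (((α : ℤ) * y : ℤ) * i / M0) := by
      have h2 : ∏ a' ∈ s, ee (α * t a' i) = ∏ a' ∈ Vnew, ee (α * t a' i) := by
        refine prod_subset (filter_subset _ _) fun a' h h' => ?_
        refine (hmain a' (hV a' h).1).2.2.triv α ((hdvd a' h).2 ?_) i
        by_contra hd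
        exact h' (mem_filter.2 ⟨h, hd⟩)
      rw [h2, ← ee_sum, ← ee_add, ← ee_add, ← mul_sum, hGn]
      congr 1
      push_cast
      field_simp
    rw [h1, ← sub_mul, ← mul_sub, norm_mul, norm_mul, norm_ee, norm_ee, one_mul, mul_one]
    have h3 := norm_prod_sub_prod s (fun a' => ee (α * t a' i)) (fun a' => v a' i)
      (fun a' _ => (norm_ee _).le) (fun a' h => (hv a' h).2.1 i)
    have h4 := sq_sum_le_card_mul_sum_sq (s := s) (f := fun a' => ‖ee (α * t a' i) - v a' i‖)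
    have h5 : s.card ≤ k := card_filter_le _ _
    have h6 : ((2 : ℝ) ^ s.card) ^ 2 ≤ 4 ^ k := by
      rw [← pow_mul, mul_comm, pow_mul]
      norm_num
      exact pow_le_pow_right₀ (by norm_num) h5
    have h7 : (s.card : ℝ) ≤ k := by exact_mod_cast h5
    calc _ ≤ (2 ^ s.card * ∑ a' ∈ s, ‖ee (α * t a' i) - v a' i‖) ^ 2 :=
          pow_le_pow_left₀ (norm_nonneg _) h3 2
      _ ≤ 4 ^ k * (k * ∑ a' ∈ s, ‖ee (α * t a' i) - v a' i‖ ^ 2) := by
          rw [mul_pow]
          refine mul_le_mul h6 (h4.trans ?_) (by positivity) (by positivity)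
          exact mul_le_mul_of_nonneg_right h7 (by positivity)
      _ = _ := by ring
  have e2 : ∀ a' ∈ s, (2 * (k : ℝ) ^ 2 * 4 ^ k) *
      ∑ i ∈ range M0, ‖ee (α * t a' i) - v a' i‖ ^ 2 ≤ 2 * (e ^ 2 * M0) := by
    intro a' h
    obtain ⟨-, h2, h3⟩ := hmain a' (hV a' (hsV a' h)).1
    obtain ⟨q, hq⟩ : p a' ∣ M0 := (dvd_prod_of_mem p (hsV a' h)).mul_left _
    have h4 := sum_per (F := fun i => ‖ee (α * t a' i) - v a' i‖ ^ 2) (P := p a')
      (fun i => by simp only [h3.per i, (hv a' h).1.per i]) q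
    rw [hq, h4, nsmul_eq_mul]
    have h5 : 2 * (k : ℝ) ^ 2 * 4 ^ k ≤ e ^ 2 * ((p a' : ℕ) : ℝ) := by
      rw [div_le_iff₀ (by positivity)] at hB₀
      have hle : B₀ ≤ p a' := by omega
      have : (B₀ : ℝ) ≤ (p a' : ℕ) := Nat.cast_le.2 hle
      nlinarith [sq_nonneg e]
    have h6 := mul_le_mul h5 (mul_le_mul_of_nonneg_left (hv a' h).2.2 (Nat.cast_nonneg (α := ℝ) q))
      (by positivity) (by positivity)
    push_cast
    linarith
  refine (sum_le_sum fun i _ => e1 i).trans ?_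
  rw [← mul_sum, sum_comm]
  rcases Nat.eq_zero_or_pos k with h0 | h0
  · rw [h0]; simp only [Nat.cast_zero, mul_zero, zero_mul]; positivity
  have hkR : (0 : ℝ) < k := by exact_mod_cast h0
  have e3 := sum_le_sum e2
  rw [← mul_sum, sum_const, nsmul_eq_mul] at e3
  have h7 : (s.card : ℝ) ≤ k := by exact_mod_cast (card_filter_le _ _ : s.card ≤ k)
  have e4 := mul_le_mul_of_nonneg_right h7 (by positivity : (0 : ℝ) ≤ 2 * (e ^ 2 * M0))
  refine le_of_mul_le_mul_left ?_ (by positivity : (0 : ℝ) < 2 * k)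
  nlinarith

end Crest.Agent.R81
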