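import Crest.Agent.R81.Defs

/-!
Row 81: the good index sets of a design, and the design lemma from the flat sequences.
-/

set_option autoImplicit false

namespace Crest.Agent.R81

open Finset

namespace DesGood

lemma dvd_eq {a b c : ℤ} (h : a ∣ b) (e : b = c) : a ∣ c := e ▸ h

lemma count_lin {p M0 : ℕ} (hp : p.Prime) (hM : p ∣ M0) {c d : ℤ} (hc : ¬ (p : ℤ) ∣ c) :
    p * ((range M0).filter fun y : ℕ => (p : ℤ) ∣ c * y + d).card ≤ M0 := by
  obtain ⟨q, rfl⟩ := hM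
  refine Nat.mul_le_mul_left p ?_
  refine le_trans (card_le_card_of_injOn (t := range q) (fun y => y / p) ?_ ?_) (by simp)
  · intro y hy
    simp only [coe_filter, mem_range, Set.mem_ofPred_eq] at hy
    simp only [coe_range, Set.mem_Iio]
    exact Nat.div_lt_of_lt_mul hy.1
  · intro y hy y' hy' h
    simp only [coe_filter, mem_range, Set.mem_ofPred_eq] at hy hy'
    have h1 : (p : ℤ) ∣ c * ((y : ℤ) - y') := by
      exact dvd_eq (dvd_sub hy.2 hy'.2) (by ring)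
    have h2 : (p : ℤ) ∣ (y : ℤ) - y' :=
      ((Nat.prime_iff_prime_int.1 hp).dvd_or_dvd h1).resolve_left hc
    have h3 : y' % p = y % p := (Nat.modEq_iff_dvd.2 h2)
    simp only at h
    rw [← Nat.div_add_mod y p, ← Nat.div_add_mod y' p, h, h3]

variable {Amax : ℤ} {Vnew : Finset ℤ} {p : ℤ → ℕ}

lemma dvd_M (a : ℤ) : a ∣ desM Vnew p a := Dvd.intro _ rfl

lemma dvd_fact {a : ℤ} (h1 : 1 ≤ a) (h2 : a ≤ Amax) : a ∣ (Amax.toNat.factorial : ℤ) := by
  have : a.toNat ∣ Amax.toNat.factorial := Nat.dvd_factorial (by omega) (by omega)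
  have h := Int.natCast_dvd_natCast.2 this
  rwa [Int.toNat_of_nonneg (by omega)] at h

lemma M0_eq : (desM0 Amax Vnew p : ℤ) =
    2 * (Amax.toNat.factorial : ℤ) ^ 2 * ∏ a ∈ Vnew, (p a : ℤ) := by
  simp [desM0]

lemma M_dvd_M0 {a : ℤ} (h1 : 1 ≤ a) (h2 : a ≤ Amax) : desM Vnew p a ∣ (desM0 Amax Vnew p : ℤ) := by
  rw [M0_eq, desM]
  refine mul_dvd_mul (Dvd.dvd.mul_left (Dvd.dvd.pow (dvd_fact h1 h2) two_ne_zero) 2) ?_
  exact prod_dvd_prod_of_subset _ _ _ (filter_subset _ _)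

lemma mul_M_dvd (k a : ℤ) : k * desM Vnew p a ∣ desM Vnew p (k * a) := by
  rw [desM, desM, ← mul_assoc]
  refine mul_dvd_mul_left _ (prod_dvd_prod_of_subset _ _ _ fun x hx => ?_)
  simp only [mem_filter] at hx ⊢
  exact ⟨hx.1, hx.2.mul_left k⟩

lemma p_dvd_M {a : ℤ} (ha : a ∈ Vnew) : (p a : ℤ) ∣ desM Vnew p a := by
  rw [desM]
  refine Dvd.dvd.mul_left (dvd_prod_of_mem (fun a' => (p a' : ℤ)) ?_) _
  simp [ha]

lemma M_pos (hp : ∀ a ∈ Vnew, (p a).Prime) {a : ℤ} (h1 : 1 ≤ a) : 0 < desM Vnew p a :=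
  mul_pos (by omega) (prod_pos fun x hx => by exact_mod_cast (hp x (mem_filter.1 hx).1).pos)

lemma M0_pos (hp : ∀ a ∈ Vnew, (p a).Prime) : 0 < desM0 Amax Vnew p :=
  mul_pos (by positivity) (prod_pos fun x hx => (hp x hx).pos)

def Bad (Vnew : Finset ℤ) (p : ℤ → ℕ) (Wd y a1 n1 : ℤ) : Prop :=
  ∃ a' ∈ Vnew, ∃ r : ℤ, |r| < Wd ∧
    ((p a' : ℤ) ∣ n1 + a' * y - r ∨ (a1 ≠ a' ∧ (p a' : ℤ) ∣ n1 - a' * y - r))

def Good (Vnew : Finset ℤ) (p : ℤ → ℕ) (Wd y a : ℤ) : Set ℤ :=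
  {n | desM Vnew p a ∣ n - a * y ∧
    ∀ k a'' n'' : ℤ, 0 < k → a = k * a'' → n = k * n'' → ¬ Bad Vnew p Wd y a'' n''}

lemma bad_shift {Wd y a1 n1 t : ℤ} (h : Bad Vnew p Wd y a1 (n1 + t * ∏ a ∈ Vnew, (p a : ℤ))) :
    Bad Vnew p Wd y a1 n1 := by
  obtain ⟨a', ha', r, hr, h⟩ := h
  have hd : (p a' : ℤ) ∣ t * ∏ a ∈ Vnew, (p a : ℤ) :=
    Dvd.dvd.mul_left (dvd_prod_of_mem (fun a' => (p a' : ℤ)) ha') _
  refine ⟨a', ha', r, hr, h.imp (fun h => ?_) fun h => ⟨h.1, ?_⟩⟩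
  · exact dvd_eq (dvd_sub h hd) (by ring)
  · exact dvd_eq (dvd_sub h.2 hd) (by ring)

lemma good_per {Wd y a : ℤ} (h1 : 1 ≤ a) (h2 : a ≤ Amax) {n : ℤ} (hn : n ∈ Good Vnew p Wd y a)
    (t : ℤ) : n + t * desM0 Amax Vnew p ∈ Good Vnew p Wd y a := by
  refine ⟨?_, fun k a'' n'' hk ha hn'' hb => ?_⟩
  · exact dvd_eq (dvd_add hn.1 ((M_dvd_M0 (Amax := Amax) h1 h2).mul_left t)) (by ring)
  · have h3 : a ∣ n := by
      have := dvd_add ((dvd_M a).trans hn.1) (dvd_mul_right a y)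
      simpa using this
    obtain ⟨n3, h4⟩ : k ∣ n := (Dvd.intro _ ha.symm).trans h3
    obtain ⟨c, hc⟩ : k ∣ (Amax.toNat.factorial : ℤ) := (Dvd.intro _ ha.symm).trans (dvd_fact h1 h2)
    refine hn.2 k a'' n3 hk ha h4 (bad_shift (t := t * (2 * c * Amax.toNat.factorial)) ?_)
    convert hb using 1
    apply mul_left_cancel₀ hk.ne'
    rw [← hn'', h4, M0_eq, pow_two]
    nth_rewrite 2 [hc]
    ring

open Classical in
/-- density from the number of bad lattice points -/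
lemma dens_of_bad (hp : ∀ a ∈ Vnew, (p a).Prime) {Wd y a : ℤ} (h1 : 1 ≤ a) (h2 : a ≤ Amax)
    {q : ℕ} (hq : (desM0 Amax Vnew p : ℤ) = desM Vnew p a * q) :
    q ≤ ((range (desM0 Amax Vnew p)).filter fun i : ℕ => (i : ℤ) ∈ Good Vnew p Wd y a).card +
      ((range q).filter fun j : ℕ => a * y + desM Vnew p a * j ∉ Good Vnew p Wd y a).card := by
  have hM0 : (0 : ℤ) < desM0 Amax Vnew p := by exact_mod_cast M0_pos hp
  have hM := M_pos (p := p) hp h1
  have key : ((range q).filter fun j : ℕ => a * y + desM Vnew p a * j ∈ Good Vnew p Wd y a).card ≤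
      ((range (desM0 Amax Vnew p)).filter fun i : ℕ => (i : ℤ) ∈ Good Vnew p Wd y a).card := by
    refine card_le_card_of_injOn
      (fun j => ((a * y + desM Vnew p a * j) % desM0 Amax Vnew p).toNat) ?_ ?_
    · intro j hj
      simp only [coe_filter, mem_range, Set.mem_ofPred_eq] at hj ⊢
      have h3 := Int.emod_nonneg (a * y + desM Vnew p a * j) hM0.ne'
      have h4 := Int.emod_lt_of_pos (a * y + desM Vnew p a * j) hM0
      refine ⟨by omega, ?_⟩
      rw [Int.toNat_of_nonneg h3]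
      convert good_per (Amax := Amax) h1 h2 hj.2
        (-((a * y + desM Vnew p a * j) / desM0 Amax Vnew p)) using 1
      rw [Int.emod_def]; ring
    · intro j hj j' hj' h
      simp only [coe_filter, mem_range, Set.mem_ofPred_eq] at hj hj'
      have h3 := Int.emod_nonneg (a * y + desM Vnew p a * j) hM0.ne'
      have h4 := Int.emod_nonneg (a * y + desM Vnew p a * j') hM0.ne'
      have h5 : (a * y + desM Vnew p a * j) % desM0 Amax Vnew p =
          (a * y + desM Vnew p a * j') % desM0 Amax Vnew p := by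
        simp only at h
        omega
      have h6 : (desM0 Amax Vnew p : ℤ) ∣ desM Vnew p a * ((j' : ℤ) - j) := by
        convert Int.ModEq.dvd h5 using 1; ring
      rw [hq] at h6
      have h7 : (q : ℤ) ∣ (j' : ℤ) - j := (mul_dvd_mul_iff_left hM.ne').1 h6
      exact Nat.ModEq.eq_of_lt_of_lt (Nat.modEq_iff_dvd.2 h7) hj.1 hj'.1
  have := card_filter_add_card_filter_not (s := range q)
    (fun j : ℕ => a * y + desM Vnew p a * j ∈ Good Vnew p Wd y a)
  rw [card_range] at this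
  omega

open Classical in
/-- for a fixed lattice index only few shifts `y` are bad -/
lemma few_bad {Pmin : ℕ} (hV : ∀ a ∈ Vnew, 1 ≤ a ∧ a ≤ Amax)
    (hp : ∀ a ∈ Vnew, (p a).Prime ∧ Pmin < p a) (hP : 2 * Amax ≤ Pmin) {Wd a : ℤ} (h1 : 1 ≤ a)
    (h2 : a ≤ Amax) (j : ℤ) :
    Pmin * ((range (desM0 Amax Vnew p)).filter fun y : ℕ =>
      a * y + desM Vnew p a * j ∉ Good Vnew p Wd y a).card ≤
      ((Icc 1 Amax) ×ˢ Vnew ×ˢ Ioo (-Wd) Wd ×ˢ ({1, -1} : Finset ℤ)).card * desM0 Amax Vnew p := by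
  set I := (Icc 1 Amax) ×ˢ Vnew ×ˢ Ioo (-Wd) Wd ×ˢ ({1, -1} : Finset ℤ) with hI
  set T : ℤ × ℤ × ℤ × ℤ → Finset ℕ := fun z => (range (desM0 Amax Vnew p)).filter fun y : ℕ =>
    z.1 + z.2.2.2 * z.2.1 ≠ 0 ∧ (p z.2.1 : ℤ) ∣ (z.1 + z.2.2.2 * z.2.1) * y +
      (desM Vnew p a / a * z.1 * j - z.2.2.1) with hT
  have hsub : ((range (desM0 Amax Vnew p)).filter fun y : ℕ =>
      a * y + desM Vnew p a * j ∉ Good Vnew p Wd y a) ⊆ I.biUnion T := by
    intro y hy
    rw [mem_filter] at hy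
    have h3 : ∃ k a'' n'' : ℤ, 0 < k ∧ a = k * a'' ∧ a * y + desM Vnew p a * j = k * n'' ∧
        Bad Vnew p Wd y a'' n'' := by
      by_contra hcon
      refine hy.2 ⟨by simp, fun k a'' n'' hk ha hn hb => hcon ⟨k, a'', n'', hk, ha, hn, hb⟩⟩
    obtain ⟨k, a'', n'', hk, ha, hn, a', ha', r, hr, hb⟩ := h3
    have h4 : 0 < a'' := by
      by_contra h
      nlinarith
    have h5 : a'' ≤ Amax := by nlinarith
    obtain ⟨c, hc⟩ := dvd_M (Vnew := Vnew) (p := p) a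
    have h6 : desM Vnew p a / a = c := by rw [hc, Int.mul_ediv_cancel_left _ (by omega)]
    have h7 : n'' = a'' * y + c * a'' * j := by
      apply mul_left_cancel₀ hk.ne'
      rw [← hn, hc]
      nth_rewrite 1 [ha]
      nth_rewrite 1 [ha]
      ring
    have h8 := abs_lt.1 hr
    have h9 := hV a' ha'
    rw [mem_biUnion]
    rcases hb with hb | hb
    · refine ⟨(a'', a', r, 1), by simp [hI, ha', h8, h5]; omega, ?_⟩
      simp only [hT, mem_filter, h6]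
      refine ⟨hy.1, by omega, ?_⟩
      convert hb using 1
      rw [h7]; ring
    · refine ⟨(a'', a', r, -1), by simp [hI, ha', h8, h5]; omega, ?_⟩
      simp only [hT, mem_filter, h6]
      refine ⟨hy.1, by have := hb.1; omega, ?_⟩
      convert hb.2 using 1
      rw [h7]; ring
  refine (Nat.mul_le_mul_left _ ((card_le_card hsub).trans card_biUnion_le)).trans ?_
  rw [mul_sum, ← smul_eq_mul, ← sum_const]
  refine sum_le_sum fun z hz => ?_
  simp only [hI, mem_product, mem_Icc, mem_insert, mem_singleton] at hz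
  obtain ⟨z1, z2, -, z4⟩ := hz
  by_cases h0 : z.1 + z.2.2.2 * z.2.1 = 0
  · simp [hT, h0]
  · have h9 := hV _ z2
    have hpz := hp _ z2
    have hnd : ¬ (p z.2.1 : ℤ) ∣ z.1 + z.2.2.2 * z.2.1 := by
      intro hd
      have := Int.le_of_dvd (abs_pos.2 h0) ((dvd_abs _ _).2 hd)
      have h10 : |z.1 + z.2.2.2 * z.2.1| ≤ 2 * Amax := by
        rw [abs_le]
        rcases z4 with h | h <;> rw [h] <;> constructor <;> omega
      have h11 : (Pmin : ℤ) < p z.2.1 := by exact_mod_cast hpz.2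
      omega
    have hdv : p z.2.1 ∣ desM0 Amax Vnew p :=
      Dvd.dvd.mul_left (dvd_prod_of_mem p z2) _
    refine le_trans (Nat.mul_le_mul hpz.2.le (card_le_card ?_))
      (count_lin hpz.1 hdv (d := desM Vnew p a / a * z.1 * j - z.2.2.1) hnd)
    intro y hy
    simp only [hT, mem_filter] at hy ⊢
    exact ⟨hy.1, hy.2.2⟩

end DesGood

open DesGood

theorem desGood : DesGoodStmt := by
  classical
  intro e Amax Wd Vnew he hA hV
  set N := ((Icc 1 Amax) ×ˢ Vnew ×ˢ Ioo (-Wd) Wd ×ˢ ({1, -1} : Finset ℤ)).card with hN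
  obtain ⟨P0, hP0⟩ := exists_nat_ge (((Icc 1 Amax).card : ℝ) * N / e)
  refine ⟨P0 + (2 * Amax).toNat, fun p hp => ?_⟩
  set Pmin := P0 + (2 * Amax).toNat with hPm
  have hP1 : 2 * Amax ≤ Pmin := by omega
  have hP2 : (0 : ℝ) < Pmin := by exact_mod_cast (by omega : 0 < Pmin)
  have hP3 : ((Icc 1 Amax).card : ℝ) * N ≤ e * Pmin := by
    rw [div_le_iff₀ he] at hP0
    have : (P0 : ℝ) ≤ Pmin := by exact_mod_cast (by omega : P0 ≤ Pmin)
    nlinarith
  have hp' : ∀ a ∈ Vnew, (p a).Prime := fun a ha => (hp a ha).1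
  set M0 := desM0 Amax Vnew p with hM0
  have M0p : 0 < M0 := M0_pos hp'
  set q : ℤ → ℕ := fun a => ((M0 : ℤ) / desM Vnew p a).toNat with hq
  have hq' : ∀ a, 1 ≤ a → a ≤ Amax → (M0 : ℤ) = desM Vnew p a * q a := by
    intro a h1 h2
    simp only [hq]
    rw [Int.toNat_of_nonneg (Int.ediv_nonneg (by omega) (M_pos hp' h1).le),
      Int.mul_ediv_cancel' (M_dvd_M0 h1 h2)]
  set B : ℕ → ℤ → ℕ := fun y a =>
    ((range (q a)).filter fun j : ℕ => a * y + desM Vnew p a * j ∉ Good Vnew p Wd y a).card with hB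
  have hsum : ∀ a ∈ Icc 1 Amax, ∑ y ∈ range M0, (desM Vnew p a : ℝ) * B y a ≤
      (N : ℝ) * M0 * M0 / Pmin := by
    intro a ha
    rw [mem_Icc] at ha
    have h1 : ∑ y ∈ range M0, B y a = ∑ j ∈ range (q a), ((range M0).filter fun y : ℕ =>
        a * y + desM Vnew p a * j ∉ Good Vnew p Wd y a).card := by
      simp only [hB, card_filter]
      exact sum_comm
    have h2 : Pmin * ∑ y ∈ range M0, B y a ≤ q a * (N * M0) := by
      rw [h1, mul_sum]
      refine (sum_le_sum fun (j : ℕ) _ => few_bad (Wd := Wd) hV hp hP1 ha.1 ha.2 (j : ℤ)).trans (le_of_eq ?_)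
      simp [hN, hM0]
    have h3 : (Pmin : ℝ) * ∑ y ∈ range M0, (B y a : ℝ) ≤ q a * (N * M0) := by exact_mod_cast h2
    have h4 : (M0 : ℝ) = desM Vnew p a * q a := by exact_mod_cast hq' a ha.1 ha.2
    have h5 : (0 : ℝ) < desM Vnew p a := by exact_mod_cast M_pos hp' ha.1
    rw [← mul_sum, le_div_iff₀ hP2]
    calc (desM Vnew p a : ℝ) * (∑ y ∈ range M0, (B y a : ℝ)) * Pmin
        = desM Vnew p a * (Pmin * ∑ y ∈ range M0, (B y a : ℝ)) := by ring
      _ ≤ desM Vnew p a * (q a * (N * M0)) := mul_le_mul_of_nonneg_left h3 h5.le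
      _ = N * M0 * (desM Vnew p a * q a) := by ring
      _ = N * M0 * M0 := by rw [← h4]
  obtain ⟨y, -, hy⟩ : ∃ y ∈ range M0,
      ∑ a ∈ Icc 1 Amax, (desM Vnew p a : ℝ) * B y a ≤ e * M0 := by
    refine exists_le_of_sum_le (nonempty_range_iff.2 M0p.ne') ?_
    rw [sum_comm]
    refine (sum_le_sum hsum).trans ?_
    simp only [sum_const, card_range, nsmul_eq_mul]
    rw [← mul_div_assoc, div_le_iff₀ hP2]
    have : (0 : ℝ) ≤ (M0 : ℝ) * M0 := by positivity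
    nlinarith
  refine ⟨y, Good Vnew p Wd y, fun a h1 h2 => ⟨fun n hn => hn.1, fun n hn k => good_per h1 h2 hn k,
    ?_⟩, fun a' k n' h1 hk _ hn => ⟨?_, fun k2 a'' n'' hk2 ha hn' => ?_⟩,
    fun a h1 h2 a' ha' n hn n' hn' => ⟨?_, fun hne => ?_⟩⟩
  · have h3 : (desM Vnew p a : ℝ) * B y a ≤ e * M0 := by
      refine le_trans (single_le_sum (f := fun a => (desM Vnew p a : ℝ) * B y a)
        (fun b hb => ?_) (mem_Icc.2 ⟨h1, h2⟩)) hy
      have : (0 : ℝ) < desM Vnew p b := by exact_mod_cast M_pos hp' (mem_Icc.1 hb).1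
      positivity
    have h4 : (M0 : ℝ) = desM Vnew p a * q a := by exact_mod_cast hq' a h1 h2
    have h5 : (0 : ℝ) < desM Vnew p a := by exact_mod_cast M_pos hp' h1
    have h6 : (q a : ℝ) ≤ (((range M0).filter fun i : ℕ =>
        (i : ℤ) ∈ Good Vnew p Wd y a).card : ℝ) + B y a := by
      exact_mod_cast dens_of_bad (Wd := Wd) (y := y) hp' h1 h2 (hq' a h1 h2)
    have h7 := mul_le_mul_of_nonneg_left h6 h5.le
    linarith
  · have := (mul_M_dvd k a').trans hn.1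
    rw [mul_assoc, ← mul_sub] at this
    exact (mul_dvd_mul_iff_left hk.ne').1 this
  · exact hn.2 (k * k2) a'' n'' (mul_pos hk hk2) (by rw [ha]; ring) (by rw [hn']; ring)
  · by_contra h
    refine hn.2 1 a n one_pos (by ring) (by ring) ⟨a', ha', n + n', not_le.1 h, Or.inl ?_⟩
    exact dvd_eq ((p_dvd_M ha').trans hn'.1).neg_right (by ring)
  · by_contra h
    refine hn.2 1 a n one_pos (by ring) (by ring) ⟨a', ha', n - n', not_le.1 h, Or.inr ⟨hne, ?_⟩⟩
    exact dvd_eq ((p_dvd_M ha').trans hn'.1) (by ring)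

theorem design (h : DesFlatStmt) : DesignStmt := by
  classical
  intro e Amax Wd Vnew he he' hA hV
  obtain ⟨Pmin, hG⟩ := desGood e Amax Wd Vnew he hA hV
  obtain ⟨p, τ, hp, hF⟩ := h e Amax Vnew Pmin he hA hV
  obtain ⟨y, Good, g1, g2, g3⟩ := hG p hp
  have hp' : ∀ a ∈ Vnew, (p a).Prime := fun a ha => (hp a ha).1
  have hF' : ∀ a : ℤ, ∃ f : ℕ → ℂ, 1 ≤ a → a ≤ Amax →
      Flat (desM0 Amax Vnew p) (desM Vnew p a) (a * y) f ∧
        ∑ i ∈ Finset.range (desM0 Amax Vnew p),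
          ‖R75.ee ((a : ℝ) * (τ i + (y : ℝ) * i / (desM0 Amax Vnew p))) - f i‖ ^ 2
            ≤ e ^ 2 * (desM0 Amax Vnew p) := by
    intro a
    by_cases ha : 1 ≤ a ∧ a ≤ Amax
    · obtain ⟨f, hf⟩ := hF y a ha.1 ha.2
      exact ⟨f, fun _ _ => hf⟩
    · exact ⟨0, fun h1 h2 => (ha ⟨h1, h2⟩).elim⟩
  choose f hf using hF'
  refine ⟨⟨e, Amax, Vnew, desM0 Amax Vnew p, fun i => τ i + (y : ℝ) * i / (desM0 Amax Vnew p),
    desM Vnew p, fun a => a * y, Good, f⟩, rfl, rfl, rfl,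
    ⟨he, he', M0_pos hp', fun a h1 _ => M_pos hp' h1, fun a h1 h2 => ?_, fun a _ _ => dvd_M a,
      fun a _ _ => dvd_mul_right a y, fun a _ _ h3 => ?_, fun a h1 h2 => (hf a h1 h2).1,
      fun a h1 h2 => (hf a h1 h2).2, g1, g2⟩, g3⟩
  · exact Int.le_of_dvd (by exact_mod_cast M0_pos hp') (M_dvd_M0 h1 h2)
  · show desM Vnew p a = a
    rw [desM, filter_eq_empty_iff.2 h3, prod_empty, mul_one]

end Crest.Agent.R81
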