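import Crest.Agent.R81.Defs

/-!
Row 81: passage to the limit.
-/

set_option autoImplicit false

namespace Crest.Agent.R81

open Crest.AnalysisR.Torus3 MeasureTheory Filter Topology
open scoped ComplexConjugate InnerProductSpace

namespace Finl

/-- the Hilbert space -/
abbrev L2 : Type := Lp ℂ 2 (volume : Measure T3)

/-- continuous functions as elements of `L²` -/
noncomputable abbrev J : C(T3, ℂ) →L[ℂ] L2 := ContinuousMap.toLp (E := ℂ) 2 (volume : Measure T3) ℂ

lemma mp_zpow {T : T3 ≃ₜ T3} (h : MeasurePreserving T (volume : Measure T3) volume) (m : ℤ) :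
    MeasurePreserving (T ^ m : T3 ≃ₜ T3) (volume : Measure T3) volume := by
  induction m using Int.induction_on with
  | zero => exact MeasurePreserving.id _
  | succ i ih => rw [zpow_add_one]; exact ih.comp h
  | pred i ih => rw [zpow_sub_one]; exact ih.comp (h.symm T.toMeasurableEquiv)

lemma toEquiv_zpow (T : T3 ≃ₜ T3) (m : ℤ) (x : T3) : (T.toEquiv ^ m) x = (T ^ m) x :=
  congrArg (fun e : Equiv.Perm T3 => e x)
    (map_zpow (MonoidHom.mk' (Homeomorph.toEquiv : (T3 ≃ₜ T3) → Equiv.Perm T3) fun _ _ => rfl)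
      T m).symm

lemma conjRot_zpow (H : T3 ≃ₜ T3) (w : V) (m : ℤ) (x : T3) :
    (conjRot H w ^ m) x = H (H.symm x + m • proj w) := by
  induction m using Int.induction_on generalizing x with
  | zero => simp
  | succ i ih =>
    rw [zpow_add_one, Homeomorph.mul_apply, ih]
    simp [conjRot, add_smul, add_comm, add_left_comm, add_assoc]
  | pred i ih =>
    rw [zpow_sub_one, Homeomorph.mul_apply, ih, Homeomorph.inv_apply]
    simp [conjRot, sub_eq_add_neg, add_smul, add_comm, add_left_comm, add_assoc,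
      Homeomorph.addRight_symm]

lemma mp_conjRot {H : T3 ≃ₜ T3} (h : MeasurePreserving H (volume : Measure T3) volume) (w : V) :
    MeasurePreserving (conjRot H w) (volume : Measure T3) volume :=
  h.comp ((measurePreserving_add_right volume (proj w)).comp (h.symm H.toMeasurableEquiv))

lemma mFourier_shift (l : Z3) (w : V) (m : ℤ) (y : T3) :
    UnitAddTorus.mFourier l (y + m • proj w) =
      fourier m ((rdot l w : ℝ) : UnitAddCircle) * UnitAddTorus.mFourier l y := by
  have h : ∀ i, fourier (l i) ((y + m • proj w) i) =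
      Complex.exp (2 * Real.pi * Complex.I * m * (l i * w i)) * fourier (l i) (y i) := fun i => by
    rw [Pi.add_apply, fourier_apply, smul_add, AddCircle.toCircle_add, Circle.coe_mul, mul_comm,
      ← fourier_apply, ← fourier_apply, Pi.smul_apply, proj, ← AddCircle.coe_zsmul,
      fourier_coe_apply]
    congr 2
    simp
    ring
  simp only [UnitAddTorus.mFourier, ContinuousMap.coe_mk, h, Finset.prod_mul_distrib,
    ← Complex.exp_sum, fourier_coe_apply, rdot, ← Finset.mul_sum]
  simp

lemma integral_mFourier {l : Z3} (hl : l ≠ 0) : ∫ x : T3, UnitAddTorus.mFourier l x = 0 := by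
  obtain ⟨i, hi⟩ := Function.ne_iff.1 hl
  rw [UnitAddTorus.mFourier, ContinuousMap.coe_mk, integral_fintype_prod_volume_eq_prod]
  exact Finset.prod_eq_zero (Finset.mem_univ i)
    (integral_eq_zero_of_add_right_eq_neg (fourier_add_half_inv_index hi one_pos))

lemma norm_J_star (F : C(T3, ℂ)) : ‖J (star F)‖ = ‖J F‖ := by
  have : ∀ F : C(T3, ℂ), ‖J (star F)‖ ≤ ‖J F‖ := fun F => Lp.norm_le_norm_of_ae_le <| by
    filter_upwards [ContinuousMap.coeFn_toLp (p := 2) (𝕜 := ℂ) volume F,
      ContinuousMap.coeFn_toLp (p := 2) (𝕜 := ℂ) volume (star F)] with x h1 h2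
    rw [h1, h2, ContinuousMap.star_apply, norm_star]
  exact (this F).antisymm (by simpa using this (star F))

lemma inner_J (η : L2) (F : C(T3, ℂ)) : ⟪η, J F⟫_ℂ = ∫ x, conj (η x) * F x := by
  rw [L2.inner_def]
  exact integral_congr_ae ((ContinuousMap.coeFn_toLp (p := 2) (𝕜 := ℂ) volume F).mono fun x hx => by
    simp only [hx, RCLike.inner_apply, mul_comm])

variable {S : State}

/-- the symmetrised functional calculus -/
noncomputable def A (S : State) (φ : C(UnitAddCircle, ℂ)) : C(T3, ℂ) :=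
  S.Ψ φ + star (S.Ψ fun x => conj (φ (-x)))

lemma A_add (φ ψ : C(UnitAddCircle, ℂ)) : A S (φ + ψ) = A S φ + A S ψ := by
  ext x
  simp [A, State.Ψ, comb, mul_add, add_mul, Finset.sum_add_distrib]
  ring

lemma A_smul (c : ℂ) (φ : C(UnitAddCircle, ℂ)) : A S (c • φ) = c • A S φ := by
  ext x
  simp [A, State.Ψ, comb, Finset.mul_sum, mul_add, mul_assoc, mul_left_comm]

lemma A_of_symm {φ : C(UnitAddCircle, ℂ)} (h : ∀ x, φ (-x) = conj (φ x)) :
    A S φ = S.Ψ φ + star (S.Ψ φ) := by
  simp [A, h]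

lemma fourier_neg_arg (m : ℤ) (x : UnitAddCircle) : fourier m (-x) = conj (fourier m x) := by
  rw [← fourier_neg, fourier_apply, fourier_apply, smul_neg, neg_smul]

lemma A_comp (m : ℤ) : (A S 1).comp (conjRot S.H S.w ^ m : T3 ≃ₜ T3) = A S (fourier m) := by
  rw [A_of_symm (fourier_neg_arg m), A_of_symm (by simp)]
  ext x
  simp [State.Ψ, comb, mode, conjRot_zpow, mFourier_shift, State.θ, mul_assoc]

lemma wd_pos (h : Valid0 S) : ∀ l ∈ S.O, 0 < S.wd l := fun l hl => by
  have h1 : (0 : ℝ) < idot l S.B := by exact_mod_cast (h.val l (h.sub hl)).1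
  have := h.b_pos
  have := h.D_pos
  unfold State.wd
  positivity

lemma neg_notMem (h : Valid0 S) : ∀ l ∈ S.O, -l ∉ S.O := fun l hl hl' => by
  have h1 := (h.val l (h.sub hl)).1
  have h2 := (h.val _ (h.sub hl')).1
  simp only [idot, Pi.neg_apply, neg_mul, Finset.sum_neg_distrib] at h1 h2
  omega

lemma norm_A_le (hS : SepSumStmt) (hO : OrthStmt) (h : Valid0 S) (φ : C(UnitAddCircle, ℂ)) :
    ‖J (A S φ)‖ ≤ 2 * ‖φ‖ := by
  have key : ∀ ψ : UnitAddCircle → ℂ, (∀ x, ‖ψ x‖ ≤ ‖φ‖) → ‖J (S.Ψ ψ)‖ ≤ ‖φ‖ := fun ψ hψ => by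
    refine abs_le_of_sq_le_sq' ((hO S.H h.mp _ _).trans_le ?_) (norm_nonneg _) |>.2
    calc _ ≤ ∑ l ∈ S.O, S.wd l * ‖φ‖ ^ 2 := Finset.sum_le_sum fun l hl => by
          rw [norm_mul, mul_pow, h.γn l (h.sub hl)]
          gcongr
          exacts [(wd_pos h l hl).le, hψ _]
      _ ≤ _ := by
          rw [← Finset.sum_mul]
          nlinarith [hS _ _ _ (wd_pos h) h.sep, sq_nonneg ‖φ‖]
  rw [A, map_add, two_mul]
  refine (norm_add_le _ _).trans (add_le_add (key _ φ.norm_coe_le_norm) ?_)
  rw [norm_J_star]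
  exact key _ fun x => by simpa using φ.norm_coe_le_norm _

lemma norm_A_sq (hO' : OrthStarStmt) (h : Valid0 S) {φ : C(UnitAddCircle, ℂ)}
    (hφ : ∀ x, φ (-x) = conj (φ x)) :
    ‖J (A S φ)‖ ^ 2 = 2 * ∑ l ∈ S.O, S.wd l * ‖φ (S.θ l)‖ ^ 2 := by
  rw [A_of_symm hφ]
  refine (hO' S.H h.mp _ _ (neg_notMem h)).trans ?_
  congr 1
  exact Finset.sum_congr rfl fun l hl => by rw [norm_mul, mul_pow, h.γn l (h.sub hl)]

lemma integral_A (h : Valid0 S) : ∫ x, A S 1 x = 0 := by
  have h1 : ∀ φ, ∫ x, S.Ψ φ x = 0 := fun φ => by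
    simp only [State.Ψ, comb, ContinuousMap.coe_sum, Finset.sum_apply, ContinuousMap.smul_apply]
    rw [integral_finsetSum _ fun l _ =>
      Continuous.integrable_of_hasCompactSupport (by fun_prop) (.of_compactSpace _)]
    refine Finset.sum_eq_zero fun l hl => ?_
    have := (h.mp.symm S.H.toMeasurableEquiv).integral_comp' (UnitAddTorus.mFourier l)
    rw [integral_mFourier fun h0 => neg_notMem h l hl (by simpa [h0] using hl)] at this
    rw [integral_smul]
    exact smul_eq_zero_of_right _ this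
  simp only [A, ContinuousMap.add_apply, ContinuousMap.star_apply]
  rw [integral_add (Continuous.integrable_of_hasCompactSupport (by fun_prop) (.of_compactSpace _))
    (Continuous.integrable_of_hasCompactSupport (by fun_prop) (.of_compactSpace _)), h1, zero_add]
  exact integral_conj.trans (by rw [h1, map_zero])

lemma norm_fourier_sub_sq (m k : ℤ) (x : UnitAddCircle) :
    ‖(fourier m - fourier k : C(UnitAddCircle, ℂ)) x‖ ^ 2 =
      2 - (fourier (m - k) x + fourier (-(m - k)) x).re := by
  have h : ∀ m : ℤ, ‖fourier m x‖ = 1 := fun m => Circle.norm_coe _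
  rw [ContinuousMap.sub_apply, norm_sub_sq (𝕜 := ℂ), h, h, neg_sub, sub_eq_add_neg m,
    sub_eq_add_neg k, fourier_add, fourier_add, fourier_neg, fourier_neg]
  simp
  ring

/-- A vector orthogonal to all characters vanishes. -/
lemma eq_zero_of_inner {η : L2} (h : ∀ k, ⟪η, J (UnitAddTorus.mFourier k)⟫_ℂ = 0) : η = 0 := by
  have h1 := (ContinuousMap.toLp_denseRange ℂ (volume : Measure T3) ℂ (p := 2)
    (by simp)).topologicalClosure_map_submodule UnitAddTorus.span_mFourier_closure_eq_top
  have h2 : (⊤ : Submodule ℂ L2) ≤ (innerSL ℂ η).ker := by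
    rw [← h1]
    refine Submodule.topologicalClosure_minimal _ ?_ (innerSL ℂ η).isClosed_ker
    rw [Submodule.map_span, Submodule.span_le]
    rintro _ ⟨_, ⟨k, rfl⟩, rfl⟩
    exact h k
  exact inner_self_eq_zero.1 (h2 (Submodule.mem_top (x := η)))

end Finl

open Finl

theorem fin (hL : LimStmt) (hS : SepSumStmt) (hR : RieStmt) (hO : OrthStmt)
    (hO' : OrthStarStmt) : FinStmt := by
  intro S C hG
  have hv := hG.valid
  have hpow : Tendsto (fun n : ℕ => C / 2 ^ n) atTop (𝓝 0) :=
    (tendsto_pow_atTop_atTop_of_one_lt one_lt_two).const_div_atTop C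
  have hsm : ∀ n κ, ContDiff ℝ (⊤ : ℕ∞) ((S n).Tl κ) := fun n κ =>
    (hv n).eHl.smooth.comp ((hv n).eHi.smooth.add contDiff_const)
  obtain ⟨T, hT, hm, hlim⟩ := hL (fun n => conjRot (S n).H (S n).w) (fun n => (S n).Tl 1)
    (fun n => (S n).Tl (-1)) C (fun n => mp_conjRot (hv n).mp _)
    (fun n => ⟨hsm n _, fun x => by
      rw [State.Tl, ← (hv n).lHl, one_smul]
      exact congrArg (fun y => (S n).H (y + proj (S n).w)) ((hv n).lHi x)⟩)
    (fun n => ⟨hsm n _, fun x => by
      rw [State.Tl, ← (hv n).lHl, neg_one_smul]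
      exact congrArg (fun y => (S n).H (y + -proj (S n).w)) ((hv n).lHi x)⟩)
    (fun n => (hG.close n).1) fun n => (hG.close n).2
  obtain ⟨G, hGl⟩ := cauchySeq_tendsto_of_complete (u := fun n => J (A (S n) 1))
    (cauchySeq_of_le_geometric_two (C := 4 * C) fun n => by
      have h : A (S (n + 1)) 1 - A (S n) 1 = ((S (n + 1)).Ψ (fun _ => 1) - (S n).Ψ fun _ => 1) +
          star ((S (n + 1)).Ψ (fun _ => 1) - (S n).Ψ fun _ => 1) := by
        rw [A_of_symm (by simp), A_of_symm (by simp), star_sub, add_sub_add_comm]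
        rfl
      rw [dist_comm, dist_eq_norm, ← map_sub, h, map_add]
      refine (norm_add_le _ _).trans ?_
      rw [norm_J_star]
      exact (add_le_add (hG.cauchy n) (hG.cauchy n)).trans_eq (by ring))
  let U : ℤ → L2 := fun m => Lp.compMeasurePreserving (T ^ m : T3 ≃ₜ T3) (mp_zpow hm m) G
  have hU : ∀ m, Tendsto (fun n => J (A (S n) (fourier m))) atTop (𝓝 (U m)) := fun m => by
    refine (hGl.compMeasurePreservingLp
      (g := fun n => ((conjRot (S n).H (S n).w ^ m : T3 ≃ₜ T3) : C(T3, T3)))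
      (g₀ := ((T ^ m : T3 ≃ₜ T3) : C(T3, T3)))
      (ContinuousMap.tendsto_iff_tendstoUniformly.2 (hlim m))
      (fun n => mp_zpow (mp_conjRot (hv n).mp _) m) (mp_zpow hm m) (by simp)).congr fun n => ?_
    rw [← A_comp]
    refine Lp.ext ((Lp.coeFn_compMeasurePreserving _ _).trans (.trans ?_
      (ContinuousMap.coeFn_toLp volume _).symm))
    exact (mp_zpow (mp_conjRot (hv n).mp _) m).quasiMeasurePreserving.ae_eq_comp
      (ContinuousMap.coeFn_toLp volume _)
  have hre : ∀ᵐ x, G x = ((G x).re : ℂ) := by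
    have h1 : Complex.imCLM.compLpL 2 volume G = 0 := by
      refine tendsto_nhds_unique (((Complex.imCLM.compLpL 2 volume).continuous.tendsto G).comp hGl)
        (tendsto_const_nhds.congr fun n => Lp.ext ?_)
      filter_upwards [Lp.coeFn_zero ℝ 2 (volume : Measure T3),
        Complex.imCLM.coeFn_compLpL (J (A (S n) 1)),
        ContinuousMap.coeFn_toLp (p := 2) (𝕜 := ℂ) volume (A (S n) 1)] with x h1 h2 h3
      rw [h1, Function.comp_apply, h2, h3, A_of_symm (by simp)]
      simp
    filter_upwards [Lp.coeFn_zero ℝ 2 (volume : Measure T3), Complex.imCLM.coeFn_compLpL G]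
      with x h2 h3
    rw [h1, h2] at h3
    exact Complex.ext rfl h3.symm
  have hUe : ∀ m, ∀ᵐ x, U m x = ((G ((T.toEquiv ^ m) x)).re : ℂ) := fun m => by
    filter_upwards [Lp.coeFn_compMeasurePreserving G (mp_zpow hm m),
      (mp_zpow hm m).quasiMeasurePreserving.ae hre] with x h1 h2
    rw [toEquiv_zpow, ← h2]
    exact h1
  have hgap : Tendsto (fun n => (S n).gap) atTop (𝓝 0) :=
    squeeze_zero (fun n => by
      have := hS _ _ _ (wd_pos (hv n)) (hv n).sep
      unfold State.gap
      linarith) hG.gap hpow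
  have hwd : Tendsto (fun n => 2 * ∑ l ∈ (S n).O, (S n).wd l) atTop (𝓝 1) := by
    simpa [State.gap] using hgap.const_sub 1
  have hn1 : ∀ m, ‖U m‖ ^ 2 = 1 := fun m =>
    tendsto_nhds_unique ((hU m).norm.pow 2) (hwd.congr fun n => by
      simp [norm_A_sq hO' (hv n) (fourier_neg_arg m), -fourier_apply,
        show ∀ x : UnitAddCircle, ‖fourier m x‖ = 1 from fun x => Circle.norm_coe _])
  refine ⟨T.toEquiv, fun x => (G x).re, hT, hm, (Lp.memLp G).re, ?_, fun m k => ?_,
    fun h hh h0 hk => ?_⟩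
  · have h1 : ⟪J 1, G⟫_ℂ = 0 := tendsto_nhds_unique (tendsto_const_nhds.inner hGl)
      (tendsto_const_nhds.congr fun n => by
        rw [ContinuousMap.inner_toLp]
        simpa using (integral_A (hv n)).symm)
    rw [← Complex.ofReal_eq_zero, ← integral_complex_ofReal, ← h1, ← inner_conj_symm, inner_J,
      ← integral_conj]
    exact integral_congr_ae (hre.mono fun x hx => by simp [← hx])
  · have h1 : ∫ x, (G ((T.toEquiv ^ m) x)).re * (G ((T.toEquiv ^ k) x)).re =
        RCLike.re ⟪U m, U k⟫_ℂ := by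
      have : ⟪U m, U k⟫_ℂ =
          ((∫ x, (G ((T.toEquiv ^ m) x)).re * (G ((T.toEquiv ^ k) x)).re : ℝ) : ℂ) := by
        rw [L2.inner_def, ← integral_complex_ofReal]
        refine integral_congr_ae ?_
        filter_upwards [hUe m, hUe k] with x h1 h2
        simp [h1, h2, mul_comm]
      simp [this]
    rw [h1]
    split_ifs with hmk
    · rw [hmk, inner_self_eq_norm_sq, hn1]
    have h2 : Tendsto (fun n => ∑ l ∈ (S n).O, ((S n).wd l : ℂ) *
        (fourier (m - k) ((S n).θ l) + fourier (-(m - k)) ((S n).θ l))) atTop (𝓝 0) :=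
      squeeze_zero_norm (fun n => hR _ _ _ (wd_pos (hv n)) (hv n).sep _ _ (sub_ne_zero.2 hmk)
        (let ⟨l, hl⟩ := (hv n).ne; (wd_pos (hv n) l hl).le.trans (hG.wd n l hl)) (hG.wd n))
        (by simpa [State.gap] using hgap.add (hpow.const_mul (7 * |((m - k : ℤ) : ℝ)|)))
    have h3 : ‖U m - U k‖ ^ 2 = 2 * 1 - 2 * (0 : ℂ).re :=
      tendsto_nhds_unique (((hU m).sub (hU k)).norm.pow 2) (((hwd.const_mul 2).sub
        (((Complex.continuous_re.tendsto 0).comp h2).const_mul 2)).congr fun n => by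
          have e : A (S n) (fourier m) = A (S n) (fourier m - fourier k) + A (S n) (fourier k) := by
            rw [← A_add, sub_add_cancel]
          rw [e, map_add, add_sub_cancel_right, norm_A_sq hO' (hv n) fun x => by
            simp only [ContinuousMap.sub_apply, fourier_neg_arg, map_sub]]
          simp only [norm_fourier_sub_sq, Function.comp_apply, Complex.re_sum, Complex.re_ofReal_mul,
            mul_sub, Finset.sum_sub_distrib, ← Finset.sum_mul]
          ring)
    rw [norm_sub_sq (𝕜 := ℂ), hn1, hn1, Complex.zero_re] at h3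
    linarith
  · set η : L2 := hh.star.toLp _
    have hη : ∀ᵐ x, conj (η x) = h x := hh.star.coeFn_toLp.mono fun x hx => by simp [η, hx]
    have h1 : ∀ φ, Tendsto (fun n => ⟪η, J (A (S n) φ)⟫_ℂ) atTop (𝓝 0) := by
      intro φ
      have h2 : ∀ p ∈ Submodule.span ℂ (Set.range (fourier (T := 1))),
          Tendsto (fun n => ⟪η, J (A (S n) p)⟫_ℂ) atTop (𝓝 0) := fun p hp => by
        induction hp using Submodule.span_induction with
        | mem _ hp =>
          obtain ⟨m, rfl⟩ := hp
          convert tendsto_const_nhds.inner (hU m)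
          rw [L2.inner_def, ← hk m]
          refine integral_congr_ae ?_
          filter_upwards [hUe m, hη] with x h1 h2
          simp [h1, h2, mul_comm]
        | zero => simp [A, State.Ψ, comb]
        | add p q _ _ hp hq => simpa [A_add, inner_add_right] using hp.add hq
        | smul c p _ hp => simpa [A_smul, inner_smul_right] using hp.const_mul c
      refine Metric.tendsto_nhds.2 fun ε hε => ?_
      obtain ⟨p, hp, hd⟩ := Metric.mem_closure_iff.1 (show φ ∈ closure _ from
        (span_fourier_closure_eq_top (T := 1)).ge Submodule.mem_top) (ε / (4 * ‖η‖ + 4))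
        (by positivity)
      filter_upwards [Metric.tendsto_nhds.1 (h2 p hp) _ (half_pos hε)] with n hn
      have e : A (S n) φ = A (S n) (φ - p) + A (S n) p := by rw [← A_add, sub_add_cancel]
      have h3 := (norm_inner_le_norm (𝕜 := ℂ) η _).trans (mul_le_mul_of_nonneg_left
        (norm_A_le hS hO (hv n) (φ - p)) (norm_nonneg _))
      rw [dist_zero_right] at hn ⊢
      rw [dist_eq_norm, lt_div_iff₀ (by positivity)] at hd
      rw [e, map_add, inner_add_right]
      nlinarith [norm_add_le ⟪η, J (A (S n) (φ - p))⟫_ℂ ⟪η, J (A (S n) p)⟫_ℂ, norm_nonneg (φ - p)]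
    have h2 : ∀ k ≠ 0, ∀ c : ℂ, c = 1 ∨ c = Complex.I → ⟪η, J (test k c)⟫_ℂ = 0 := by
      intro k hk c hc
      refine norm_le_zero_iff.1 (le_of_forall_pos_le_add fun ε hε => ?_)
      obtain ⟨φ, hφ, h3⟩ := hG.capt k hk c hc (ε / (‖η‖ + 1)) (by positivity)
      refine ge_of_tendsto (by simpa using (h1 φ).norm.add_const ε) (h3.mono fun n hn => ?_)
      rw [← A_of_symm hφ, le_div_iff₀ (by positivity)] at hn
      have h4 := norm_inner_le_norm (𝕜 := ℂ) η (J (test k c - A (S n) φ))
      have h5 := norm_le_insert' ⟪η, J (test k c)⟫_ℂ ⟪η, J (A (S n) φ)⟫_ℂ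
      rw [← inner_sub_right, ← map_sub] at h5
      unfold nrm at hn
      nlinarith [norm_nonneg (J (test k c - A (S n) φ))]
    have h3 : η = 0 := eq_zero_of_inner fun k => by
      by_cases hk : k = 0
      · rw [hk, inner_J, ← h0, UnitAddTorus.mFourier_zero]
        exact integral_congr_ae (hη.mono fun x hx => by simp [hx])
      have h4 := h2 k hk _ (.inl rfl)
      have h5 := h2 k hk _ (.inr rfl)
      simp only [test, star_smul, map_add, map_smul, inner_add_right, inner_smul_right, star_one,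
        one_mul, Complex.star_def, Complex.conj_I] at h4 h5
      linear_combination h4 / 2 - Complex.I / 2 * h5 + (⟪η, J (UnitAddTorus.mFourier k)⟫_ℂ -
        ⟪η, J (star (UnitAddTorus.mFourier k))⟫_ℂ) / 2 * Complex.I_sq
    filter_upwards [hη, Lp.coeFn_zero ℂ 2 (volume : Measure T3)] with x h4 h5
    rw [← h4, h3, h5]
    simp

end Crest.Agent.R81
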