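import Crest.Agent.R81.Defs

/-! Row 81: counting in good sets, genericity of the update, validity after the update. -/

set_option autoImplicit false

namespace Crest.Agent.R81

open Filter Topology
open Crest.Agent.R75 (ee)

namespace Gen

theorem rdot_upd (ν : Z3) (β : V) (η : ℝ) (a : Fin 3) :
    rdot ν (β + η • Pi.single a (1 : ℝ)) = rdot ν β + η * (ν a : ℝ) := by
  simp only [rdot, Pi.add_apply, Pi.smul_apply, smul_eq_mul, mul_add, Finset.sum_add_distrib]
  congr 1
  rw [Finset.sum_eq_single a]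
  · simp [mul_comm]
  · intro b _ hb
    simp [hb]
  · simp

theorem rdot_sub_smul (ν ν' : Z3) (m : ℤ) (x : V) :
    rdot (ν - m • ν') x = rdot ν x - m * rdot ν' x := by
  simp only [rdot, Pi.sub_apply, Pi.smul_apply, smul_eq_mul, Finset.mul_sum,
    ← Finset.sum_sub_distrib]
  refine Finset.sum_congr rfl fun i _ => ?_
  push_cast
  ring

theorem tendsto_affine (c m : ℝ) : Tendsto (fun η : ℝ => c + η * m) (𝓝 0) (𝓝 c) := by
  have : Continuous fun η : ℝ => c + η * m := by fun_prop
  simpa using this.tendsto 0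

theorem ev_affine (c m : ℝ) : ∀ᶠ η in 𝓝[≠] (0 : ℝ), c + η * m = 0 → m = 0 := by
  by_cases hc : c = 0
  · filter_upwards [self_mem_nhdsWithin] with η hη h
    rw [hc, zero_add] at h
    exact (mul_eq_zero.1 h).resolve_left hη
  · refine Filter.Eventually.filter_mono nhdsWithin_le_nhds ?_
    filter_upwards [(tendsto_affine c m).eventually_ne hc] with η hη h
    exact absurd h hη

theorem ev_one (β : V) (a : Fin 3) (ν : Z3) :
    ∀ᶠ η in 𝓝[≠] (0 : ℝ), rdot ν (β + η • Pi.single a (1 : ℝ)) = 0 → ν a = 0 := by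
  filter_upwards [ev_affine (rdot ν β) (ν a)] with η hη h
  rw [rdot_upd] at h
  exact_mod_cast hη h

theorem ev_three (β : V) (a : Fin 3) (ν ν' : Z3) (h0 : rdot ν' β ≠ 0) :
    ∀ᶠ η in 𝓝[≠] (0 : ℝ), ∀ m : ℤ,
      rdot (ν - m • ν') (β + η • Pi.single a (1 : ℝ)) = 0 → (ν - m • ν') a = 0 := by
  set c := rdot ν β with hc
  set c' := rdot ν' β with hc'
  have hc0 : 0 < |c'| := abs_pos.2 h0
  set K : ℤ := ⌈2 * (|c| + 1) / |c'|⌉ with hK
  have h1 : ∀ᶠ η in 𝓝[≠] (0 : ℝ), |c + η * (ν a : ℝ)| < |c| + 1 :=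
    ((tendsto_affine c (ν a)).abs.eventually_lt_const (by linarith)).filter_mono
      nhdsWithin_le_nhds
  have h2 : ∀ᶠ η in 𝓝[≠] (0 : ℝ), |c'| / 2 < |c' + η * (ν' a : ℝ)| :=
    ((tendsto_affine c' (ν' a)).abs.eventually_const_lt (by linarith)).filter_mono
      nhdsWithin_le_nhds
  have h3 : ∀ᶠ η in 𝓝[≠] (0 : ℝ), ∀ m ∈ Finset.Icc (-K) K,
      rdot (ν - m • ν') (β + η • Pi.single a (1 : ℝ)) = 0 → (ν - m • ν') a = 0 :=
    (Filter.eventually_all_finset _).2 fun m _ => ev_one β a _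
  filter_upwards [h1, h2, h3] with η h1 h2 h3 m hm
  refine h3 m ?_ hm
  rw [rdot_sub_smul, rdot_upd, rdot_upd, ← hc, ← hc', sub_eq_zero] at hm
  have h4 : |(m : ℝ)| ≤ 2 * (|c| + 1) / |c'| := by
    rw [le_div_iff₀ hc0]
    rw [hm, abs_mul] at h1
    nlinarith [abs_nonneg (m : ℝ)]
  have h5 : |(m : ℝ)| ≤ K := h4.trans (Int.le_ceil _)
  have h6 : |m| ≤ K := by exact_mod_cast h5
  rw [Finset.mem_Icc]
  exact abs_le.1 h6

theorem D_rdot {P : State} (hP : PreValid P) (l : Z3) :
    (P.D : ℝ) * rdot l P.β = (idot l P.B : ℝ) := by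
  simp only [rdot, idot, Finset.mul_sum]
  push_cast
  refine Finset.sum_congr rfl fun i _ => ?_
  rw [hP.B_eq i]
  ring

theorem valid0_upd {P : State} (hP : Valid0 P) (η : ℝ) : Valid0 (P.upd η) where
  mp := hP.mp
  eHl := hP.eHl
  eHi := hP.eHi
  lHl := hP.lHl
  lHi := hP.lHi
  aa := hP.aa
  β2 := by
    show (P.β + η • Pi.single P.a' (1 : ℝ) : V) 2 = 1
    have h2 : (2 : Fin 3) ≠ P.a' := by
      rcases hP.aa with h | h <;> rw [h.2] <;> decide
    simp [h2, hP.β2]
  ratw := hP.ratw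
  L_pos := hP.L_pos
  ℓa := hP.ℓa
  ℓa' := hP.ℓa'
  ℓβ := by
    show rdot P.ℓ (P.β + η • Pi.single P.a' (1 : ℝ)) = 0
    rw [rdot_upd, hP.ℓβ, hP.ℓa']
    simp
  ℓB := hP.ℓB
  ℓw := hP.ℓw
  b_pos := hP.b_pos
  D_pos := hP.D_pos
  bA := hP.bA
  spec := hP.spec
  prof := hP.prof
  sub := hP.sub
  ne := hP.ne
  dO := hP.dO
  dX := hP.dX
  val := hP.val
  γn := hP.γn
  sep := hP.sep
  old := hP.old
  sepX := hP.sepX

end Gen

open Gen

theorem count : CountStmt := by
  classical
  intro M0 M ρ e G hM0 hM he0 he1 hG u v T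
  have hM0r : (0 : ℝ) < M0 := by exact_mod_cast hM0
  have hM0z : (0 : ℤ) < M0 := by exact_mod_cast hM0
  have hMr : (0 : ℝ) < M := by exact_mod_cast hM
  constructor
  · intro hT
    have hd := hG.dens
    set A := (Finset.range M0).filter fun i : ℕ => (i : ℤ) ∈ G with hA
    set k0 : ℤ := ⌈u / M0⌉ with hk0
    set k1 : ℤ := ⌊v / M0⌋ with hk1
    have hu : u ≤ k0 * M0 := by
      rw [← div_le_iff₀ hM0r]; exact Int.le_ceil _
    have hv : (k1 : ℝ) * M0 ≤ v := by
      rw [← le_div_iff₀ hM0r]; exact Int.floor_le _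
    have hcard : (Finset.Ico k0 k1 ×ˢ A).card ≤ T.card := by
      refine Finset.card_le_card_of_injOn (fun p => (p.2 : ℤ) + p.1 * M0) ?_ ?_
      · intro p hp
        rw [Finset.coe_product, Set.mem_prod, Finset.mem_coe, Finset.mem_coe, Finset.mem_Ico, hA,
          Finset.mem_filter, Finset.mem_range] at hp
        obtain ⟨⟨h1, h2⟩, h3, h4⟩ := hp
        have h1' : (k0 : ℝ) ≤ p.1 := by exact_mod_cast h1
        have h2' : (p.1 : ℝ) + 1 ≤ k1 := by exact_mod_cast h2
        have h3' : (p.2 : ℝ) < M0 := by exact_mod_cast h3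
        have h5 : (0 : ℝ) ≤ p.2 := Nat.cast_nonneg _
        refine hT _ (hG.per _ h4 _) ?_ ?_
        · push_cast; nlinarith
        · push_cast; nlinarith
      · intro p hp q hq hpq
        rw [Finset.coe_product, Set.mem_prod, Finset.mem_coe, Finset.mem_coe, hA,
          Finset.mem_filter, Finset.mem_range] at hp hq
        have key : ∀ (i : ℕ) (k : ℤ), i < M0 → ((i : ℤ) + k * M0) / M0 = k := by
          intro i k hi
          rw [Int.add_mul_ediv_right _ _ hM0z.ne',
            Int.ediv_eq_zero_of_lt (by positivity) (by exact_mod_cast hi), zero_add]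
        have hpq' : (p.2 : ℤ) + p.1 * M0 = (q.2 : ℤ) + q.1 * M0 := hpq
        have e1 : p.1 = q.1 := by
          rw [← key p.2 p.1 hp.2.1, hpq', key q.2 q.1 hq.2.1]
        rw [e1] at hpq'
        have e2 : (p.2 : ℤ) = q.2 := by linarith
        exact Prod.ext e1 (by exact_mod_cast e2)
    rw [Finset.card_product, Int.card_Ico] at hcard
    set N : ℕ := (k1 - k0).toNat with hN
    have hN1 : k1 - k0 ≤ (N : ℤ) := Int.self_le_toNat _
    have hN2 : (k1 : ℝ) - k0 ≤ N := by exact_mod_cast hN1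
    have hu' : (k0 : ℝ) * M0 < u + M0 := by
      have := Int.ceil_lt_add_one (u / M0)
      rw [← hk0] at this
      have h2 := mul_lt_mul_of_pos_right this hM0r
      rwa [add_mul, div_mul_cancel₀ _ hM0r.ne', one_mul] at h2
    have hv' : v < (k1 : ℝ) * M0 + M0 := by
      have := Int.lt_floor_add_one (v / M0)
      rw [← hk1, div_lt_iff₀ hM0r] at this
      linarith
    have hc' : (N : ℝ) * A.card ≤ T.card := by exact_mod_cast hcard
    have hN0 : (0 : ℝ) ≤ N := Nat.cast_nonneg _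
    have s1 : v - u - 2 * M0 ≤ N * M0 := by nlinarith
    have s2 : (1 - e) * (v - u - 2 * M0) ≤ (1 - e) * (N * M0) :=
      mul_le_mul_of_nonneg_left s1 (by linarith)
    have s3 : (N : ℝ) * ((1 - e) * M0) ≤ N * (M * A.card) := mul_le_mul_of_nonneg_left hd hN0
    have s4 : (M : ℝ) * (N * A.card) ≤ M * T.card := mul_le_mul_of_nonneg_left hc' hMr.le
    nlinarith
  · intro hT huv
    set k0 : ℤ := ⌈(u - ρ) / M⌉ with hk0
    set k1 : ℤ := ⌊(v - ρ) / M⌋ with hk1
    have hsub : T ⊆ (Finset.Icc k0 k1).image fun k => ρ + M * k := by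
      intro n hn
      obtain ⟨h1, h2, h3⟩ := hT n hn
      obtain ⟨k, hk⟩ := hG.sub n h1
      have hk' : (n : ℝ) - ρ = M * k := by exact_mod_cast hk
      refine Finset.mem_image.2 ⟨k, Finset.mem_Icc.2 ⟨?_, ?_⟩, by linarith⟩
      · rw [hk0, Int.ceil_le, div_le_iff₀ hMr]; linarith
      · rw [hk1, Int.le_floor, le_div_iff₀ hMr]; linarith
    have hcard := (Finset.card_le_card hsub).trans Finset.card_image_le
    rw [Int.card_Icc] at hcard
    have hu : u - ρ ≤ k0 * M := by
      rw [← div_le_iff₀ hMr]; exact Int.le_ceil _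
    have hv : (k1 : ℝ) * M ≤ v - ρ := by
      rw [← le_div_iff₀ hMr]; exact Int.floor_le _
    rcases le_total (k1 + 1 - k0) 0 with h | h
    · rw [Int.toNat_eq_zero.2 h] at hcard
      have : T.card = 0 := by omega
      rw [this]; simp only [Nat.cast_zero, mul_zero]; linarith
    · have h1 : (T.card : ℤ) ≤ k1 + 1 - k0 := by
        rw [← Int.toNat_of_nonneg h]; exact_mod_cast hcard
      have h2 : (T.card : ℝ) ≤ k1 + 1 - k0 := by exact_mod_cast h1
      nlinarith

theorem gen : GenStmt := by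
  intro β a Y
  refine Filter.Eventually.and ((Filter.eventually_all_finset _).2 fun ν _ => ev_one β a ν)
    (Filter.Eventually.and ((Filter.eventually_all_finset _).2 fun ν _ => ?_)
      ((Filter.eventually_all_finset _).2 fun ν _ =>
        (Filter.eventually_all_finset _).2 fun ν' _ => ?_))
  · by_cases h : rdot ν β = 0
    · exact Filter.Eventually.of_forall fun η h' => absurd h h'
    · refine Filter.Eventually.filter_mono nhdsWithin_le_nhds ?_
      filter_upwards [(tendsto_affine (rdot ν β) (ν a)).eventually_ne h] with η hη _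
      rwa [rdot_upd]
  · by_cases h : rdot ν' β = 0
    · exact Filter.Eventually.of_forall fun η h' => absurd h h'
    · filter_upwards [ev_three β a ν ν' h] with η hη _
      exact hη

theorem upd : UpdStmt := by
  intro P hP
  have he := hP.spec.e_pos
  have hD : (0 : ℝ) < P.D := by exact_mod_cast hP.D_pos
  have h1 : ∀ᶠ η in 𝓝[≠] (0 : ℝ), ∀ l ∈ P.X,
      |P.D * (rdot l P.β + η * (l P.a' : ℝ)) - idot l P.B| ≤ P.d.e / 4 := by
    refine (Filter.eventually_all_finset _).2 fun l _ => ?_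
    refine Filter.Eventually.filter_mono nhdsWithin_le_nhds ?_
    have ht := (((tendsto_affine (rdot l P.β) (l P.a')).const_mul (P.D : ℝ)).sub_const
      (idot l P.B : ℝ)).abs
    rw [D_rdot hP, sub_self, abs_zero] at ht
    exact (ht.eventually_lt_const (by positivity)).mono fun η hη => hη.le
  have h2 : ∀ᶠ η in 𝓝[≠] (0 : ℝ), ∀ l ∈ P.X, ∀ i ∈ Finset.range P.d.M0,
      ‖ee ((rdot l P.β + η * (l P.a' : ℝ)) * (P.D * P.d.τ i)) -
        ee ((idot l P.B : ℝ) * P.d.τ i)‖ ≤ P.d.e := by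
    refine (Filter.eventually_all_finset _).2 fun l _ =>
      (Filter.eventually_all_finset _).2 fun i _ => ?_
    refine Filter.Eventually.filter_mono nhdsWithin_le_nhds ?_
    have ht := ((((Crest.Agent.R75.continuous_ee.tendsto _).comp
      ((tendsto_affine (rdot l P.β) (l P.a')).mul_const (P.D * P.d.τ i)))).sub_const
      (ee ((idot l P.B : ℝ) * P.d.τ i))).norm
    have e0 : rdot l P.β * (P.D * P.d.τ i) = (idot l P.B : ℝ) * P.d.τ i := by
      rw [← D_rdot hP]; ring
    rw [e0, sub_self, norm_zero] at ht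
    exact (ht.eventually_lt_const he).mono fun η hη => hη.le
  filter_upwards [h1, h2, gen P.β P.a' P.X] with η h1 h2 h3 hq
  obtain ⟨q, rfl⟩ := hq
  refine { toValid0 := valid0_upd hP.toValid0 _, ratβ := ?_, near1 := ?_, near2 := ?_, gen := ?_ }
  · refine ⟨P.D * q.den, Nat.mul_pos hP.D_pos q.den_pos, fun i => ?_⟩
    refine ⟨q.den * P.B i + P.D * q.num * (if i = P.a' then 1 else 0), ?_⟩
    show ((P.D * q.den : ℕ) : ℝ) * (P.β + (q : ℝ) • Pi.single P.a' (1 : ℝ) : V) i = _
    have hq : (q.den : ℝ) * (q : ℝ) = q.num := by exact_mod_cast Rat.den_mul_eq_num q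
    simp only [Pi.add_apply, Pi.smul_apply, smul_eq_mul, Pi.single_apply]
    push_cast
    rw [hP.B_eq i, ← hq]
    ring
  · intro l hl
    dsimp only [State.upd]
    rw [rdot_upd]
    exact h1 l hl
  · intro l hl i hi
    dsimp only [State.upd]
    rw [rdot_upd]
    exact h2 l hl i (Finset.mem_range.2 hi)
  · intro l hl l' hl' m hm
    have hm' : rdot (l - m • l') (P.β + (q : ℝ) • Pi.single P.a' (1 : ℝ)) = 0 := hm
    have h0 : rdot l' P.β ≠ 0 := by
      intro h
      have := D_rdot hP l'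
      rw [h, mul_zero] at this
      have h4 : idot l' P.B = 0 := by exact_mod_cast this.symm
      have := (hP.val l' hl').1
      omega
    have h4 := h3.2.2 l hl l' hl' h0 m hm'
    rw [rdot_upd, h4] at hm'
    exact hP.genPre l hl l' hl' m (by simpa using hm') h4

end Crest.Agent.R81
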