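import Crest.Agent.R81.Defs
import Crest.Agent.R75.Fresnel
import Crest.Agent.R75.Kernel

/-! Row 81: approximation of the chirped profile by a flat trigonometric polynomial. -/

set_option autoImplicit false

namespace Crest.Agent.R81

open MeasureTheory Filter Topology Finset
open Crest.Agent.R75 (ee ee_add norm_ee conj_ee ee_add_int continuous_ee)

namespace KA

lemma int_ee01 (m : ℤ) : ∫ x in (0 : ℝ)..1, ee ((m : ℝ) * x) = if m = 0 then 1 else 0 := by
  have hp : Function.Periodic (fun x : ℝ => ee ((m : ℝ) * x)) 1 := fun x => by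
    simp only [mul_add, mul_one, ee_add_int]
  have := hp.intervalIntegral_add_eq 0 (-1 / 2)
  rw [zero_add, show (-1 / 2 : ℝ) + 1 = 1 / 2 by norm_num] at this
  rw [this]
  exact R75.Kernel.int_ee m

lemma parseval (S : Finset ℤ) (c : ℤ → ℂ) :
    ∫ x in (0 : ℝ)..1, ‖∑ n ∈ S, c n * ee (n * x)‖ ^ 2 = ∑ n ∈ S, ‖c n‖ ^ 2 := by
  have h1 : ∀ x : ℝ, ((‖∑ n ∈ S, c n * ee (n * x)‖ ^ 2 : ℝ) : ℂ) =
      ∑ n ∈ S, ∑ m ∈ S, c n * (starRingEnd ℂ) (c m) * ee (((n - m : ℤ) : ℝ) * x) := by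
    intro x
    push_cast
    rw [← Complex.mul_conj', map_sum, sum_mul_sum]
    refine sum_congr rfl fun n _ => sum_congr rfl fun m _ => ?_
    rw [map_mul, conj_ee, sub_mul, sub_eq_add_neg, ee_add]; ring
  have h2 : ((∫ x in (0 : ℝ)..1, ‖∑ n ∈ S, c n * ee (n * x)‖ ^ 2 : ℝ) : ℂ) =
      ((∑ n ∈ S, ‖c n‖ ^ 2 : ℝ) : ℂ) := by
    rw [← intervalIntegral.integral_ofReal]
    simp only [h1]
    rw [intervalIntegral.integral_finsetSum fun n _ =>
      (by fun_prop : Continuous _).intervalIntegrable _ _]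
    push_cast
    refine sum_congr rfl fun n hn => ?_
    rw [intervalIntegral.integral_finsetSum fun m _ =>
      (by fun_prop : Continuous _).intervalIntegrable _ _]
    have : ∀ m : ℤ, ∫ x in (0 : ℝ)..1, c n * (starRingEnd ℂ) (c m) * ee (((n : ℝ) - m) * x) =
        if n = m then c n * (starRingEnd ℂ) (c m) else 0 := fun m => by
      rw [intervalIntegral.integral_const_mul]
      have := int_ee01 (n - m)
      push_cast at this
      rw [this]
      simp [sub_eq_zero]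
    simp only [this, sum_ite_eq, hn, if_true, Complex.mul_conj']
  exact_mod_cast h2

lemma teeth (M0 : ℕ) (hM : 0 < M0) (g : ℝ → ℝ) (hg : Continuous g) :
    ∫ x in (0 : ℝ)..1, g x =
      ∑ i ∈ range M0, (M0 : ℝ)⁻¹ * ∫ y in (0 : ℝ)..1, g ((i + y) / M0) := by
  have hM' : (M0 : ℝ) ≠ 0 := by positivity
  have h1 := intervalIntegral.sum_integral_adjacent_intervals (f := g) (μ := volume)
    (a := fun i : ℕ => (i : ℝ) / M0) (n := M0) fun k _ => hg.intervalIntegrable _ _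
  simp only [Nat.cast_zero, zero_div, div_self hM'] at h1
  rw [← h1]
  refine sum_congr rfl fun i _ => ?_
  have h2 := intervalIntegral.integral_comp_add_left (fun x => g (x / M0)) (a := 0) (b := 1) (i : ℝ)
  rw [h2, intervalIntegral.integral_comp_div _ hM', smul_eq_mul, ← mul_assoc,
    inv_mul_cancel₀ hM', one_mul]
  push_cast
  simp

lemma fres_half (R : ℝ) (hR : 0 < R) :
    ‖(∫ u in (0 : ℝ)..R, ee (-u ^ 2 / 2)) - ee (-1 / 8) / 2‖ ≤ 1 / R := by
  have h1 := R75.fresnel R hR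
  have hc : Continuous fun u : ℝ => ee (-u ^ 2 / 2) := by fun_prop
  have h2 : ∫ u in (-R)..0, ee (-u ^ 2 / 2) = ∫ u in (0 : ℝ)..R, ee (-u ^ 2 / 2) := by
    have := intervalIntegral.integral_comp_neg (fun u : ℝ => ee (-u ^ 2 / 2)) (a := 0) (b := R)
    simp only [neg_zero, neg_sq] at this
    exact this.symm
  rw [← intervalIntegral.integral_add_adjacent_intervals (b := 0) (hc.intervalIntegrable _ _)
    (hc.intervalIntegrable _ _), h2] at h1
  have h3 : (∫ u in (0 : ℝ)..R, ee (-u ^ 2 / 2)) - ee (-1 / 8) / 2 =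
      (((∫ u in (0 : ℝ)..R, ee (-u ^ 2 / 2)) + ∫ u in (0 : ℝ)..R, ee (-u ^ 2 / 2)) -
        ee (-1 / 8)) / 2 := by ring
  rw [h3, norm_div, Complex.norm_two]
  have : 2 / R = 2 * (1 / R) := by ring
  linarith

lemma fres2 {R R1 R2 : ℝ} (hR : 0 < R) (h1 : R ≤ R1) (h2 : R ≤ R2) :
    1 - 2 / R ≤ ‖∫ u in (-R1)..R2, ee (-u ^ 2 / 2)‖ := by
  have hc : Continuous fun u : ℝ => ee (-u ^ 2 / 2) := by fun_prop
  have e1 : ∫ u in (-R1)..0, ee (-u ^ 2 / 2) = ∫ u in (0 : ℝ)..R1, ee (-u ^ 2 / 2) := by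
    have := intervalIntegral.integral_comp_neg (fun u : ℝ => ee (-u ^ 2 / 2)) (a := 0) (b := R1)
    simp only [neg_zero, neg_sq] at this
    exact this.symm
  rw [← intervalIntegral.integral_add_adjacent_intervals (b := 0) (hc.intervalIntegrable _ _)
    (hc.intervalIntegrable _ _), e1]
  have a1 := fres_half R1 (hR.trans_le h1)
  have a2 := fres_half R2 (hR.trans_le h2)
  have b1 : 1 / R1 ≤ 1 / R := one_div_le_one_div_of_le hR h1
  have b2 : 1 / R2 ≤ 1 / R := one_div_le_one_div_of_le hR h2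
  set J1 := ∫ u in (0 : ℝ)..R1, ee (-u ^ 2 / 2)
  set J2 := ∫ u in (0 : ℝ)..R2, ee (-u ^ 2 / 2)
  have e2 : ee (-1 / 8) = (J1 + J2) - (J1 - ee (-1 / 8) / 2) - (J2 - ee (-1 / 8) / 2) := by ring
  have e3 : (1 : ℝ) ≤ ‖J1 + J2‖ + ‖J1 - ee (-1 / 8) / 2‖ + ‖J2 - ee (-1 / 8) / 2‖ := by
    have t0 : ‖J1 + J2 - (J1 - ee (-1 / 8) / 2) - (J2 - ee (-1 / 8) / 2)‖ = 1 := by
      rw [← e2, norm_ee]
    have t1 := norm_sub_le (J1 + J2 - (J1 - ee (-1 / 8) / 2)) (J2 - ee (-1 / 8) / 2)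
    have t2 := norm_sub_le (J1 + J2) (J1 - ee (-1 / 8) / 2)
    linarith
  have : 2 / R = 1 / R + 1 / R := by ring
  linarith

lemma chirp_lower {A ν d : ℝ} (hA : 0 < A) (hd : 0 < d) (hν : |ν| ≤ A * (1 / 2 - d)) :
    (1 - 2 / (√A * d)) / √A ≤ ‖∫ y in (0 : ℝ)..1, ee (A * ((y - 1 / 2) ^ 2 / 2) - ν * y)‖ := by
  have hs : 0 < √A := Real.sqrt_pos.mpr hA
  have hss : √A * √A = A := Real.mul_self_sqrt hA.le
  set y0 : ℝ := 1 / 2 + ν / A with hy0
  have e1 : ∀ y : ℝ, ee (A * ((y - 1 / 2) ^ 2 / 2) - ν * y) =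
      (starRingEnd ℂ) (ee (-(√A * y - √A * y0) ^ 2 / 2)) * ee (A / 8 - A * y0 ^ 2 / 2) := by
    intro y
    rw [conj_ee, ← ee_add]
    congr 1
    have : (√A * y - √A * y0) ^ 2 = A * (y - y0) ^ 2 := by rw [← mul_sub, mul_pow, sq, hss]
    rw [this, hy0]; field_simp; ring
  simp only [e1]
  rw [intervalIntegral.integral_mul_const, norm_mul, norm_ee, mul_one]
  have e2 : ∫ y in (0 : ℝ)..1, (starRingEnd ℂ) (ee (-(√A * y - √A * y0) ^ 2 / 2)) =
      (starRingEnd ℂ) (∫ y in (0 : ℝ)..1, ee (-(√A * y - √A * y0) ^ 2 / 2)) := by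
    simp only [intervalIntegral, map_sub, integral_conj]
  rw [e2, Complex.norm_conj,
    intervalIntegral.integral_comp_mul_sub (fun u : ℝ => ee (-u ^ 2 / 2)) hs.ne', norm_smul,
    norm_inv, Real.norm_of_nonneg hs.le, div_eq_inv_mul]
  refine mul_le_mul_of_nonneg_left ?_ (by positivity)
  have hν' : |ν / A| ≤ 1 / 2 - d := by
    rw [abs_div, abs_of_pos hA, div_le_iff₀ hA]; linarith
  have := fres2 (R := √A * d) (R1 := √A * y0) (R2 := √A * 1 - √A * y0) (by positivity)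
    (by gcongr; linarith [(abs_le.mp hν').1])
    (by rw [← mul_sub]; gcongr; linarith [(abs_le.mp hν').2])
  simpa using this

lemma three_pieces {g : ℝ → ℝ} (hg : Continuous g) {e δ K : ℝ} (he : 0 < e) (he' : e ≤ 1 / 10)
    (hδ : 0 ≤ δ) (h1 : ∀ y, g y ≤ K) (h2 : ∀ y, e ≤ y → y ≤ 1 - e → g y ≤ δ) :
    ∫ y in (0 : ℝ)..1, g y ≤ δ + 2 * e * K := by
  have hi : ∀ a b, IntervalIntegrable g volume a b := fun a b => hg.intervalIntegrable a b
  rw [← intervalIntegral.integral_add_adjacent_intervals (b := e) (hi _ _) (hi _ _),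
    ← intervalIntegral.integral_add_adjacent_intervals (a := e) (b := 1 - e) (hi _ _) (hi _ _)]
  have a1 := intervalIntegral.integral_mono_on (a := 0) (b := e) he.le (hi _ _)
    (intervalIntegrable_const (c := K)) fun y _ => h1 y
  have a2 := intervalIntegral.integral_mono_on (a := e) (b := 1 - e) (by linarith) (hi _ _)
    (intervalIntegrable_const (c := δ)) fun y hy => h2 y hy.1 hy.2
  have a3 := intervalIntegral.integral_mono_on (a := 1 - e) (b := 1) (by linarith) (hi _ _)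
    (intervalIntegrable_const (c := K)) fun y _ => h1 y
  simp only [intervalIntegral.integral_const, smul_eq_mul] at a1 a2 a3
  nlinarith

lemma norm_sub_sq_c (z w : ℂ) :
    ‖z - w‖ ^ 2 = ‖z‖ ^ 2 + ‖w‖ ^ 2 - 2 * (z * (starRingEnd ℂ) w).re := by
  simp only [← Complex.normSq_eq_norm_sq, Complex.normSq_sub]

/-- the model computation, tooth by tooth -/
lemma model (M0 : ℕ) (hM : 0 < M0) (f : ℕ → ℂ) (hf : ∑ i ∈ range M0, ‖f i‖ ^ 2 = M0) (A : ℝ)
    (S : Finset ℤ) (c : ℤ → ℂ) :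
    ∑ i ∈ range M0, (M0 : ℝ)⁻¹ * ∫ y in (0 : ℝ)..1,
      ‖ee (A * ((y - 1 / 2) ^ 2 / 2)) * f i - ∑ n ∈ S, c n * ee (n * ((i + y) / M0))‖ ^ 2 =
      1 + ∑ n ∈ S, ‖c n‖ ^ 2 - 2 * ∑ n ∈ S, ((starRingEnd ℂ) (c n) * (dft M0 f n *
        ∫ y in (0 : ℝ)..1, ee (A * ((y - 1 / 2) ^ 2 / 2) - n / M0 * y))).re := by
  have hM' : (M0 : ℝ) ≠ 0 := by positivity
  have h1 : ∀ i : ℕ, ∫ y in (0 : ℝ)..1,
      ‖ee (A * ((y - 1 / 2) ^ 2 / 2)) * f i - ∑ n ∈ S, c n * ee (n * ((i + y) / M0))‖ ^ 2 =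
      ‖f i‖ ^ 2 + (∫ y in (0 : ℝ)..1, ‖∑ n ∈ S, c n * ee (n * ((i + y) / M0))‖ ^ 2) -
        2 * ∑ n ∈ S, ((starRingEnd ℂ) (c n) * (f i * ee (-((n : ℝ) * i / M0)) *
          ∫ y in (0 : ℝ)..1, ee (A * ((y - 1 / 2) ^ 2 / 2) - n / M0 * y))).re := by
    intro i
    have e1 : ∀ y : ℝ, (ee (A * ((y - 1 / 2) ^ 2 / 2)) * f i *
        (starRingEnd ℂ) (∑ n ∈ S, c n * ee (n * ((i + y) / M0)))).re =
        ∑ n ∈ S, ((starRingEnd ℂ) (c n) * (f i * ee (-((n : ℝ) * i / M0)) *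
          ee (A * ((y - 1 / 2) ^ 2 / 2) - n / M0 * y))).re := by
      intro y
      rw [map_sum, mul_sum, Complex.re_sum]
      refine sum_congr rfl fun n _ => ?_
      congr 1
      have : -((n : ℝ) * ((i + y) / M0)) = -((n : ℝ) * i / M0) + -(n / M0 * y) := by ring
      rw [map_mul, conj_ee, this, sub_eq_add_neg (A * _), ee_add, ee_add]; ring
    simp only [norm_sub_sq_c, e1, norm_mul, norm_ee, one_mul]
    rw [intervalIntegral.integral_sub ((by fun_prop : Continuous _).intervalIntegrable _ _)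
        ((by fun_prop : Continuous _).intervalIntegrable _ _),
      intervalIntegral.integral_add ((by fun_prop : Continuous _).intervalIntegrable _ _)
        ((by fun_prop : Continuous _).intervalIntegrable _ _),
      intervalIntegral.integral_const_mul,
      intervalIntegral.integral_finsetSum fun n _ =>
        (by fun_prop : Continuous _).intervalIntegrable _ _]
    simp only [intervalIntegral.integral_const, sub_zero, one_smul]
    congr 2
    refine sum_congr rfl fun n _ => ?_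
    rw [← intervalIntegral.integral_const_mul, ← intervalIntegral.integral_const_mul]
    have hc : Continuous fun y : ℝ => (starRingEnd ℂ) (c n) * (f i * ee (-((n : ℝ) * i / M0)) *
        ee (A * ((y - 1 / 2) ^ 2 / 2) - n / M0 * y)) := by fun_prop
    exact Complex.reCLM.intervalIntegral_comp_comm (hc.intervalIntegrable 0 1)
  simp only [h1, mul_sub, mul_add, sum_sub_distrib, sum_add_distrib]
  rw [← teeth M0 hM (fun x => ‖∑ n ∈ S, c n * ee (n * x)‖ ^ 2) (by fun_prop), parseval,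
    ← mul_sum, hf, inv_mul_cancel₀ hM']
  congr 1
  simp only [mul_sum]
  rw [sum_comm]
  refine sum_congr rfl fun n _ => ?_
  simp only [dft, sum_mul, mul_sum, Complex.re_sum]
  refine sum_congr rfl fun i _ => ?_
  have : ∀ z : ℂ, ((M0 : ℂ)⁻¹ * z).re = (M0 : ℝ)⁻¹ * z.re := fun z => by
    rw [← Complex.re_ofReal_mul]; push_cast; rfl
  rw [mul_left_comm (M0 : ℝ)⁻¹, ← this]
  congr 2; ring

end KA

open KA in
theorem ka (hC : CountStmt) : KAStmt := by
  intro e M0 M ρ G f t φ ψ lam b wd he he' hM0 hM hflat hgood hprof happ hwd hlam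
  have hM0' : (0 : ℝ) < M0 := by exact_mod_cast hM0
  have hM' : (0 : ℝ) < M := by exact_mod_cast hM
  obtain ⟨hl1, hl2⟩ := abs_le.mp hlam
  have hlb : 0 < lam * b := by nlinarith
  have ev1 : ∀ᶠ s in 𝓝[>] (0 : ℝ), s < min (lam * b * e ^ 4 / (256 * M0)) (e * wd / (2 * M0)) :=
    mem_nhdsWithin_of_mem_nhds (gt_mem_nhds (by positivity))
  filter_upwards [ev1, self_mem_nhdsWithin] with s hs hs0
  have hs0 : 0 < s := hs0
  obtain ⟨hs1, hs2⟩ := lt_min_iff.mp hs
  set r : ℝ := (1 - e) * wd / 2 with hr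
  set S := Sset G s r with hS
  set A : ℝ := lam * b / (M0 * s) with hA
  have hA0 : 0 < A := by positivity
  set κ : ℝ := √(M * s / wd) with hκ
  have hκ0 : 0 ≤ κ := Real.sqrt_nonneg _
  have hκ2 : κ ^ 2 = M * s / wd := Real.sq_sqrt (by positivity)
  set a : ℤ → ℂ := fun n => dft M0 f n *
    ∫ y in (0 : ℝ)..1, ee (A * ((y - 1 / 2) ^ 2 / 2) - n / M0 * y) with ha
  set c : ℤ → ℂ := fun n => if a n = 0 then (κ : ℂ) else a n / ‖a n‖ * κ with hc
  have hcn : ∀ n, ‖c n‖ = κ := fun n => by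
    simp only [hc]
    split_ifs with h
    · simp [hκ0]
    · have : ‖a n‖ ≠ 0 := norm_ne_zero_iff.mpr h
      simp [this, hκ0]
  have hca : ∀ n, ((starRingEnd ℂ) (c n) * a n).re = κ * ‖a n‖ := fun n => by
    simp only [hc]
    split_ifs with h
    · simp [h]
    · have h0 : (‖a n‖ : ℂ) ≠ 0 := by exact_mod_cast norm_ne_zero_iff.mpr h
      have : (starRingEnd ℂ) (a n / ‖a n‖ * κ) * a n = ((κ * ‖a n‖ : ℝ) : ℂ) := by
        simp only [map_mul, map_div₀, Complex.conj_ofReal]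
        have := Complex.conj_mul' (a n)
        push_cast
        field_simp
        rw [mul_right_comm, this]
      rw [this, Complex.ofReal_re]
  refine ⟨c, fun n => by rw [hcn, hκ2], ?_⟩
  -- lower bound for the coefficients
  have hsA : 16 / e ^ 2 ≤ √A := by
    refine Real.le_sqrt_of_sq_le ?_
    rw [hA, div_pow, div_le_div_iff₀ (by positivity) (by positivity)]
    rw [lt_div_iff₀ (by positivity)] at hs1
    nlinarith
  have hsA0 : 0 < √A := Real.sqrt_pos.mpr hA0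
  have halow : ∀ n ∈ S, (1 - e) * κ ≤ ‖a n‖ := by
    intro n hn
    simp only [hS, Sset, mem_filter, mem_Icc] at hn
    obtain ⟨⟨hn1, hn2⟩, hnG⟩ := hn
    have hn3 : |(n : ℝ)| ≤ r / s := by
      have h1 : (n : ℝ) ≤ r / s := Int.le_floor.mp hn2
      have h2 : ((-n : ℤ) : ℝ) ≤ r / s := Int.le_floor.mp (by omega)
      push_cast at h2
      exact abs_le.mpr ⟨by linarith, h1⟩
    have hν : |(n : ℝ) / M0| ≤ A * (1 / 2 - e / 4) := by
      rw [abs_div, abs_of_pos hM0', div_le_iff₀ hM0']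
      refine hn3.trans ?_
      have : A * (1 / 2 - e / 4) * M0 = lam * b * (1 / 2 - e / 4) / s := by
        rw [hA]; field_simp
      rw [this, hr]
      gcongr
      nlinarith [mul_pos he hwd, mul_pos (mul_pos he he) hwd]
    have h1 := chirp_lower hA0 (by positivity : 0 < e / 4) hν
    have h2 : 2 / (√A * (e / 4)) ≤ e / 2 := by
      rw [div_le_iff₀ (by positivity)]
      rw [div_le_iff₀ (by positivity)] at hsA
      nlinarith
    have h3 : (1 - e / 2) / √A ≤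
        ‖∫ y in (0 : ℝ)..1, ee (A * ((y - 1 / 2) ^ 2 / 2) - n / M0 * y)‖ :=
      le_trans (by gcongr) h1
    have h4 := hflat.spec n (hgood.sub n hnG)
    have h5 : ((1 - e) * κ) ^ 2 ≤ ‖dft M0 f n‖ ^ 2 * ((1 - e / 2) / √A) ^ 2 := by
      rw [h4, mul_pow, hκ2, div_pow, Real.sq_sqrt hA0.le]
      have : (M : ℝ) / M0 * ((1 - e / 2) ^ 2 / A) = (1 - e / 2) ^ 2 / (lam * b) * (M * s) := by
        rw [hA]; field_simp
      rw [this, ← mul_div_assoc, ← div_mul_eq_mul_div]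
      refine mul_le_mul_of_nonneg_right ?_ (by positivity)
      rw [div_le_div_iff₀ hwd hlb]
      have h6 : (1 - e) ^ 2 * (lam * b) ≤ (1 - e) ^ 2 * ((1 + e / 4) * wd) :=
        mul_le_mul_of_nonneg_left (by linarith) (sq_nonneg _)
      have h7 : (1 - e) ^ 2 * (1 + e / 4) ≤ (1 - e / 2) ^ 2 := by nlinarith
      nlinarith
    have h8 : 0 ≤ (1 - e / 2) / √A := div_nonneg (by linarith) hsA0.le
    refine (pow_le_pow_iff_left₀ (mul_nonneg (by linarith) hκ0) (norm_nonneg _) two_ne_zero).mp ?_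
    simp only [ha, norm_mul, mul_pow] at h5 ⊢
    exact h5.trans (by gcongr)
  -- counting
  have hcount : 1 - 3 * e ≤ S.card * κ ^ 2 := by
    have h1 := (hC M0 M ρ e G hM0 hM he.le (by linarith) hgood (-(r / s)) (r / s) S).1
      fun n hnG h1 h2 => by
        simp only [hS, Sset, mem_filter, mem_Icc]
        refine ⟨⟨?_, Int.le_floor.mpr h2⟩, hnG⟩
        have : -n ≤ ⌊r / s⌋ := Int.le_floor.mpr (by push_cast; linarith)
        omega
    rw [lt_div_iff₀ (by positivity)] at hs2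
    have h2 : (1 - e) * (r / s - -(r / s)) = (1 - e) ^ 2 * wd / s := by rw [hr]; ring
    rw [h2] at h1
    have h3 : ((1 - e) ^ 2 * wd / s - 2 * M0) * s ≤ M * S.card * s := by gcongr
    rw [sub_mul, div_mul_cancel₀ _ hs0.ne'] at h3
    rw [hκ2, ← mul_div_assoc, le_div_iff₀ hwd]
    nlinarith [mul_pos (mul_pos he he) hwd]
  have hcφ := hprof.hφ.smooth.continuous
  have hcψ := hprof.hψ.smooth.continuous
  have hcchi : Continuous (chi b M0 φ ψ s) := by unfold chi; fun_prop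
  rw [teeth M0 hM0 _ (by fun_prop)]
  have hB := model M0 hM0 f hflat.norm_sq A S c
  have hB2 : 1 + ∑ n ∈ S, ‖c n‖ ^ 2 - 2 * ∑ n ∈ S, ((starRingEnd ℂ) (c n) * a n).re ≤ 5 * e := by
    simp only [hcn, hca, sum_const, nsmul_eq_mul]
    have : S.card * ((1 - e) * κ ^ 2) ≤ ∑ n ∈ S, κ * ‖a n‖ := by
      rw [← nsmul_eq_mul]
      exact card_nsmul_le_sum _ _ _ fun n hn => by nlinarith [halow n hn]
    nlinarith
  have hAi : ∀ i ∈ range M0, ∫ y in (0 : ℝ)..1,
      ‖ee (lam * chi b M0 φ ψ s ((i + y) / M0)) - ee (A * ((y - 1 / 2) ^ 2 / 2)) * f i‖ ^ 2 ≤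
      ‖ee (lam * t i) - f i‖ ^ 2 + 2 * e * (2 + 2 * ‖f i‖ ^ 2) := by
    intro i hi
    refine three_pieces (by fun_prop) he he' (sq_nonneg _) (fun y => ?_) fun y h1 h2 => ?_
    · have := norm_sub_le (ee (lam * chi b M0 φ ψ s ((i + y) / M0)))
        (ee (A * ((y - 1 / 2) ^ 2 / 2)) * f i)
      rw [norm_mul, norm_ee, norm_ee, one_mul] at this
      calc _ ≤ (1 + ‖f i‖) ^ 2 := by gcongr
        _ ≤ _ := by nlinarith [sq_nonneg (1 - ‖f i‖)]
    · have e1 : φ (M0 * ((i + y) / M0)) = (y - 1 / 2) ^ 2 / 2 := by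
        rw [mul_div_cancel₀ _ hM0'.ne', ← hprof.quad y h1 h2, add_comm]
        simpa using (hprof.hφ.per.nat_mul i) y
      have e2 : lam * chi b M0 φ ψ s ((i + y) / M0) = A * ((y - 1 / 2) ^ 2 / 2) + lam * t i := by
        simp only [chi, e1, hprof.plateau i (mem_range.mp hi) y h1 h2, hA]; ring
      rw [e2, ee_add, ← mul_sub, norm_mul, norm_ee, one_mul]
  have hsum : ∑ i ∈ range M0, (M0 : ℝ)⁻¹ *
      (‖ee (lam * t i) - f i‖ ^ 2 + 2 * e * (2 + 2 * ‖f i‖ ^ 2)) ≤ 4 * e ^ 2 + 8 * e := by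
    rw [← mul_sum, sum_add_distrib, ← mul_sum, sum_add_distrib, ← mul_sum, hflat.norm_sq,
      sum_const, card_range, nsmul_eq_mul, inv_mul_le_iff₀ hM0']
    nlinarith
  calc _ ≤ ∑ i ∈ range M0, (2 * ((M0 : ℝ)⁻¹ *
          (‖ee (lam * t i) - f i‖ ^ 2 + 2 * e * (2 + 2 * ‖f i‖ ^ 2))) +
        2 * ((M0 : ℝ)⁻¹ * ∫ y in (0 : ℝ)..1, ‖ee (A * ((y - 1 / 2) ^ 2 / 2)) * f i -
          ∑ n ∈ S, c n * ee (n * ((i + y) / M0))‖ ^ 2)) := by
        refine sum_le_sum fun i hi => ?_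
        rw [mul_left_comm, mul_left_comm 2, ← mul_add]
        refine mul_le_mul_of_nonneg_left ?_ (by positivity)
        refine le_trans ?_ (add_le_add_left (mul_le_mul_of_nonneg_left (hAi i hi) zero_le_two) _)
        rw [← intervalIntegral.integral_const_mul, ← intervalIntegral.integral_const_mul,
          ← intervalIntegral.integral_add ((by fun_prop : Continuous _).intervalIntegrable _ _)
            ((by fun_prop : Continuous _).intervalIntegrable _ _)]
        refine intervalIntegral.integral_mono_on zero_le_one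
          ((by fun_prop : Continuous _).intervalIntegrable _ _)
          ((by fun_prop : Continuous _).intervalIntegrable _ _) fun y _ => ?_
        set z1 := ee (lam * chi b M0 φ ψ s ((i + y) / M0))
        set z2 := ee (A * ((y - 1 / 2) ^ 2 / 2)) * f i
        set z3 := ∑ n ∈ S, c n * ee (n * ((i + y) / M0))
        have := norm_sub_le_norm_sub_add_norm_sub z1 z2 z3
        calc _ ≤ (‖z1 - z2‖ + ‖z2 - z3‖) ^ 2 := by gcongr
          _ ≤ _ := by nlinarith [sq_nonneg (‖z1 - z2‖ - ‖z2 - z3‖)]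
    _ ≤ 100 * e := by
        rw [sum_add_distrib, ← mul_sum _ _ (2 : ℝ), ← mul_sum _ _ (2 : ℝ), hB]
        nlinarith

end Crest.Agent.R81
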