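import Crest.Agent.R81.Defs

/-! Row 81: passage to the limit of a rapidly converging sequence of smooth volume preserving
diffeomorphisms of the three-torus. -/

set_option autoImplicit false

namespace Crest.Agent.R81

open Crest.AnalysisR.Torus3 MeasureTheory Filter Topology
open scoped ContDiff

namespace Lim

theorem proj_surj : Function.Surjective proj := by
  intro P
  choose x hx using fun i => QuotientAddGroup.mk_surjective (P i)
  exact ⟨x, funext hx⟩

theorem dist_proj_le (x y : V) : dist (proj x) (proj y) ≤ dist x y := by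
  refine (dist_pi_le_iff dist_nonneg).2 (fun i => ?_)
  refine le_trans ?_ (dist_le_pi_dist x y i)
  rw [dist_eq_norm, dist_eq_norm]
  change ‖((x i : ℝ) : UnitAddCircle) - ((y i : ℝ) : UnitAddCircle)‖ ≤ _
  rw [← AddCircle.coe_sub]
  exact QuotientAddGroup.norm_mk_le_norm

theorem continuous_proj : Continuous proj :=
  (LipschitzWith.mk_one dist_proj_le).continuous

theorem exists_lim_lift (F : ℕ → V → V) (C : ℝ) (hF : ∀ n, ContDiff ℝ ∞ (F n))
    (hC : ∀ n, Close n (C / 2 ^ n) (F (n + 1)) (F n)) :
    ∃ Fl : V → V, ContDiff ℝ ∞ Fl ∧ TendstoUniformly F Fl atTop := by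
  have hs : Summable (fun n : ℕ => C / 2 ^ n) := by
    simp_rw [div_eq_mul_inv, ← inv_pow]
    exact (summable_geometric_of_lt_one (by norm_num) (by norm_num)).mul_left C
  refine ⟨fun x => F 0 x + ∑' n, (F (n + 1) x - F n x), ?_, ?_⟩
  · refine (hF 0).add ?_
    refine contDiff_tsum_of_eventually (N := (⊤ : ℕ∞)) (v := fun _ n => C / 2 ^ n)
      (f := fun n x => F (n + 1) x - F n x) (fun n => (hF (n + 1)).sub (hF n))
      (fun _ _ => hs) (fun k _ => ?_)
    rw [Nat.cofinite_eq_atTop]
    filter_upwards [eventually_ge_atTop k] with n hn x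
    exact hC n k hn x
  · have h1 : TendstoUniformly (fun N x => ∑ n ∈ Finset.range N, (F (n + 1) x - F n x))
        (fun x => ∑' n, (F (n + 1) x - F n x)) atTop := by
      refine tendstoUniformly_tsum_nat hs (fun n x => ?_)
      have := hC n 0 (Nat.zero_le n) x
      rwa [norm_iteratedFDeriv_zero] at this
    rw [Metric.tendstoUniformly_iff] at h1 ⊢
    intro ε hε
    filter_upwards [h1 ε hε] with N hN x
    have h2 := hN x
    rw [Finset.sum_range_sub (fun n => F n x)] at h2
    have h3 : F N x = F 0 x + (F N x - F 0 x) := by abel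
    rw [h3, dist_add_left]
    exact h2

theorem exists_descend (T : ℕ → T3 → T3) (F : ℕ → V → V) (Fl : V → V)
    (hT : ∀ n x, T n (proj x) = proj (F n x)) (hF : TendstoUniformly F Fl atTop) :
    ∃ T' : T3 → T3, (∀ x, T' (proj x) = proj (Fl x)) ∧ TendstoUniformly T T' atTop := by
  have h1 : TendstoUniformly T (fun P => proj (Fl (Function.surjInv proj_surj P))) atTop := by
    rw [Metric.tendstoUniformly_iff] at hF ⊢
    intro ε hε
    filter_upwards [hF ε hε] with n hn P
    have h2 : T n P = proj (F n (Function.surjInv proj_surj P)) := by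
      rw [← hT, Function.surjInv_eq proj_surj]
    rw [h2]
    exact (dist_proj_le _ _).trans_lt (hn _)
  refine ⟨_, fun x => ?_, h1⟩
  refine tendsto_nhds_unique (h1.tendsto_at (proj x)) ?_
  simp_rw [hT]
  exact (continuous_proj.tendsto _).comp (hF.tendsto_at x)

theorem tendsto_comp {A B : ℕ → T3 → T3} {A' B' : T3 → T3} (hA : TendstoUniformly A A' atTop)
    (hB : TendstoUniformly B B' atTop) (hc : Continuous A') :
    TendstoUniformly (fun n x => A n (B n x)) (fun x => A' (B' x)) atTop := by
  have hu : UniformContinuous A' := CompactSpace.uniformContinuous_of_continuous hc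
  have h1 := hu.comp_tendstoUniformly hB
  rw [Metric.tendstoUniformly_iff] at hA h1 ⊢
  intro ε hε
  filter_upwards [hA (ε / 2) (half_pos hε), h1 (ε / 2) (half_pos hε)] with n hn hn' x
  have h2 := hn (B n x)
  have h3 : dist (A' (B' x)) (A' (B n x)) < ε / 2 := hn' x
  linarith [dist_triangle (A' (B' x)) (A' (B n x)) (A n (B n x))]

theorem measurePreserving_lim {T : ℕ → T3 → T3} {T' : T3 → T3}
    (hT : ∀ n, MeasurePreserving (T n) (volume : Measure T3) volume) (hc : ∀ n, Continuous (T n))
    (hc' : Continuous T') (h : TendstoUniformly T T' atTop) :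
    MeasurePreserving T' (volume : Measure T3) volume := by
  refine ⟨hc'.measurable, ?_⟩
  refine ext_of_forall_integral_eq_of_IsFiniteMeasure (fun f => ?_)
  rw [integral_map hc'.measurable.aemeasurable f.continuous.aestronglyMeasurable]
  have h1 : Tendsto (fun n => ∫ x, f (T n x)) atTop (𝓝 (∫ x, f (T' x))) := by
    refine tendsto_integral_of_dominated_convergence (fun _ => ‖f‖)
      (fun n => (f.continuous.comp (hc n)).aestronglyMeasurable) (integrable_const _)
      (fun n => Eventually.of_forall (fun x => f.norm_coe_le_norm _))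
      (Eventually.of_forall (fun x => (f.continuous.tendsto _).comp (h.tendsto_at x)))
  have h2 : ∀ n, ∫ x, f (T n x) = ∫ x, f x := by
    intro n
    rw [← integral_map (hT n).measurable.aemeasurable f.continuous.aestronglyMeasurable,
      (hT n).map_eq]
  simp_rw [h2] at h1
  exact (tendsto_nhds_unique tendsto_const_nhds h1).symm

end Lim

open Lim in
theorem lim : LimStmt := by
  intro T F G C hmp hF hG hCF hCG
  obtain ⟨Fl, hFl, hFt⟩ := exists_lim_lift F C (fun n => (hF n).1) hCF
  obtain ⟨Gl, hGl, hGt⟩ := exists_lim_lift G C (fun n => (hG n).1) hCG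
  obtain ⟨A, hA, hAt⟩ := exists_descend (fun n => T n) F Fl (fun n => (hF n).2) hFt
  obtain ⟨B, hB, hBt⟩ := exists_descend (fun n => (T n).symm) G Gl (fun n => (hG n).2) hGt
  have hAc : Continuous A := hAt.continuous (Frequently.of_forall (fun n => (T n).continuous))
  have hBc : Continuous B :=
    hBt.continuous (Frequently.of_forall (fun n => (T n).symm.continuous))
  have hBA : ∀ x, B (A x) = x := by
    intro x
    have h1 := (tendsto_comp hBt hAt hBc).tendsto_at x
    simp only [Homeomorph.symm_apply_apply] at h1
    exact (tendsto_nhds_unique tendsto_const_nhds h1).symm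
  have hAB : ∀ x, A (B x) = x := by
    intro x
    have h1 := (tendsto_comp hAt hBt hAc).tendsto_at x
    simp only [Homeomorph.apply_symm_apply] at h1
    exact (tendsto_nhds_unique tendsto_const_nhds h1).symm
  let T' : T3 ≃ₜ T3 :=
    { toFun := A, invFun := B, left_inv := hBA, right_inv := hAB, continuous_toFun := hAc,
      continuous_invFun := hBc }
  refine ⟨T', ⟨⟨Fl, hFl, hA⟩, ⟨Gl, hGl, hB⟩⟩,
    measurePreserving_lim hmp (fun n => (T n).continuous) hAc hAt, fun m => ?_⟩
  induction m using Int.induction_on with
  | zero =>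
    simp only [zpow_zero, Homeomorph.one_apply]
    rw [Metric.tendstoUniformly_iff]
    intro ε hε
    exact Eventually.of_forall (fun n x => by simpa using hε)
  | succ i ih =>
    simp only [zpow_add_one, Homeomorph.mul_apply]
    exact tendsto_comp ih hAt (T' ^ (i : ℤ)).continuous
  | pred i ih =>
    simp only [zpow_sub_one, Homeomorph.mul_apply]
    exact tendsto_comp ih hBt (T' ^ (-(i : ℤ))).continuous

end Crest.Agent.R81
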