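import Crest.Agent.R81.Basic

/-! Row 81: the four preparation steps (registration of the test function). -/

set_option autoImplicit false

namespace Crest.Agent.R81

open Crest.AnalysisR.Torus3 MeasureTheory Filter Topology
open Crest.Agent.R75 (ee)
open scoped ContDiff

namespace Prep

/-- everything we use about one step without new clusters -/
structure StepData (n : ℕ) (Fam : Finset C(UnitAddCircle, ℂ)) (e₀ ζ : ℝ) (S P : State)
    (W : Finset Z3) : Prop where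
  pre : PreValid P
  out : StepOut S P
  a : P.a = S.a'
  a' : P.a' = S.a
  β : P.β = S.β
  e : P.d.e = e₀
  wd : P.b * P.d.Amax ≤ ζ * P.D
  hW : ∀ l ∈ W, |idot l P.B| ≤ P.d.Amax
  Vnew : P.d.Vnew = ∅
  free : ∀ (F : C(T3, ℂ)) (W : Finset Z3) (δ : ℝ), 0 ∉ W → Approx S.H F W δ →
    ∃ W' : Finset Z3, 0 ∉ W' ∧ (∀ ν ∈ W', ∃ l ∈ W, ∃ n : ℤ, ν = l + n • S.ℓ) ∧ Approx P.H F W' δ
  move : Move n Fam 1 S P
  prom : ∀ᶠ η in 𝓝 (0 : ℝ), (P.upd η).Promise n (1 / 2 ^ n)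
  XO : P.X = P.O
  gap : P.gap ≤ 7 * e₀

lemma step (hS : StepStmt) {n : ℕ} {Fam : Finset C(UnitAddCircle, ℂ)} {R e₀ ζ : ℝ} {S : State}
    (hp : Par n Fam R e₀ ζ) (hm : Mid n S e₀ ζ) (hX : S.X = S.O) (W : Finset Z3) :
    ∃ P : State, StepData n Fam e₀ ζ S P W := by
  obtain ⟨P, h1, h2, h3, h4, h5, h6, h7, h8, h9, h10, h11, h12⟩ :=
    hS S hm.valid e₀ ζ (1 / 2 ^ n) (1 / 2 ^ n) n n W ∅ hp.e_pos hp.e_le hp.ζ_pos (by positivity)
      (by simp)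
  refine ⟨P, h1, h2, h3, h4, h5, h6, h7, h8, by simpa using h9, h10, move_of_step hp hm h2 h11,
    h12, ?_, ?_⟩
  · refine Finset.Subset.antisymm (fun ν hν => ?_) h1.sub
    by_contra h
    obtain ⟨l, hl, hl', -⟩ := h2.parN ν hν h
    exact hl' (hX ▸ hl)
  · linarith [h2.gap, hm.e_le]

lemma upd_mid (hU : UpdStmt) {n : ℕ} {e₀ ζ : ℝ} {P : State} (hP : PreValid P)
    (he : P.d.e = e₀) (hwd : P.b * P.d.Amax ≤ ζ * P.D) (hgap : P.gap ≤ 7 * e₀)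
    (hprom : ∀ᶠ η in 𝓝 (0 : ℝ), (P.upd η).Promise n (1 / 2 ^ n)) {p : ℝ → Prop}
    (h : ∀ᶠ η in 𝓝[≠] (0 : ℝ), p η) : ∃ η : ℝ, Mid n (P.upd η) e₀ ζ ∧ p η := by
  obtain ⟨η, h1, h2, h3⟩ := exists_upd hU hP ((hprom.filter_mono nhdsWithin_le_nhds).and h)
  exact ⟨η, ⟨h1, h2, he.le, hgap, hwd⟩, h3⟩

lemma StepData.upd (hU : UpdStmt) {n : ℕ} {Fam : Finset C(UnitAddCircle, ℂ)} {e₀ ζ : ℝ}
    {S P : State} {W : Finset Z3} (h : StepData n Fam e₀ ζ S P W) {p : ℝ → Prop}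
    (hp : ∀ᶠ η in 𝓝[≠] (0 : ℝ), p η) : ∃ η : ℝ, Mid n (P.upd η) e₀ ζ ∧ p η :=
  upd_mid hU h.pre h.e h.wd h.gap h.prom hp

lemma comb_image (H : T3 ≃ₜ T3) (W : Finset Z3) (σ : Z3 → Z3) (c : Z3 → ℂ) (x : T3) :
    comb H (W.image σ) (fun μ => ∑ ν ∈ W.filter (fun ν => σ ν = μ), c ν) x =
      ∑ ν ∈ W, c ν * mode H (σ ν) x := by
  rw [comb_apply, ← Finset.sum_fiberwise_of_maps_to (s := W) (t := W.image σ) (g := σ)
    (fun ν hν => Finset.mem_image_of_mem σ hν)]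
  refine Finset.sum_congr rfl fun μ _ => ?_
  rw [Finset.sum_mul]
  refine Finset.sum_congr rfl fun ν hν => ?_
  rw [(Finset.mem_filter.1 hν).2]

lemma approx_sign {H : T3 ≃ₜ T3} {F : C(T3, ℂ)} {W : Finset Z3} {δ : ℝ} (h : Approx H F W δ)
    (p : Z3 → Prop) [DecidablePred p] :
    Approx H F (W.image fun ν => if p ν then ν else -ν) δ := by
  obtain ⟨f, hf⟩ := h
  refine ⟨fun μ => ∑ ν ∈ W.filter (fun ν => (if p ν then ν else -ν) = μ),
    (if p ν then f ν else star (f ν)), ?_⟩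
  convert hf using 3
  ext x
  simp only [ContinuousMap.add_apply, ContinuousMap.star_apply]
  rw [comb_image, comb_apply, star_sum, star_sum, ← Finset.sum_add_distrib,
    ← Finset.sum_add_distrib]
  refine Finset.sum_congr rfl fun ν _ => ?_
  split_ifs with hν
  · rfl
  · rw [← star_mode]
    simp only [ContinuousMap.star_apply, star_mul', star_star]
    ring

lemma exists_divClosure (U : Finset Z3) :
    ∃ X : Finset Z3, ∀ μ, μ ∈ X ↔ ∃ ν ∈ U, ∃ d : ℤ, 0 < d ∧ ν = d • μ := by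
  have hfin : {μ : Z3 | ∃ ν ∈ U, ∃ d : ℤ, 0 < d ∧ ν = d • μ}.Finite := by
    refine Set.Finite.subset (Finset.finite_toSet
      (U.biUnion fun ν => Fintype.piFinset fun i => Finset.Icc (-|ν i|) |ν i|)) ?_
    rintro μ ⟨ν, hν, d, hd, rfl⟩
    simp only [Finset.coe_biUnion, Set.mem_iUnion, Finset.mem_coe, Fintype.mem_piFinset,
      Finset.mem_Icc]
    refine ⟨_, hν, fun i => ?_⟩
    rw [← abs_le, Pi.smul_apply, smul_eq_mul, abs_mul, abs_of_pos hd]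
    nlinarith [abs_nonneg (μ i)]
  exact ⟨hfin.toFinset, fun μ => by simp⟩

/-- enlarge the set `X` of registered frequencies -/
noncomputable def enlarge (P : State) (X : Finset Z3) : State :=
  { P with X := X, γ := fun l => if l ∈ P.O then P.γ l else ((√(P.wd l) : ℝ) : ℂ) }

lemma enlarge_Ψ (P : State) (X : Finset Z3) (η : ℝ) (φ : UnitAddCircle → ℂ) :
    ((enlarge P X).upd η).Ψ φ = P.Ψ φ := by
  refine comb_congr P.H fun l hl => ?_
  have hl' : l ∈ P.O := hl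
  show (if l ∈ P.O then P.γ l else _) * _ = _
  rw [if_pos hl']
  rfl

lemma preValid_enlarge {P : State} (h : PreValid P) (hV : P.d.Vnew = ∅) {X : Finset Z3}
    (hsub : P.O ⊆ X) (hd : DivClosed X)
    (hval : ∀ l ∈ X, 1 ≤ idot l P.B ∧ idot l P.B ≤ P.d.Amax)
    (hgen : ∀ l ∈ X, ∀ l' ∈ X, ∀ m : ℤ, rdot (l - m • l') P.β = 0 → (l - m • l') P.a' = 0 →
      l = m • l') : PreValid (enlarge P X) where
  mp := h.mp
  eHl := h.eHl
  eHi := h.eHi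
  lHl := h.lHl
  lHi := h.lHi
  aa := h.aa
  β2 := h.β2
  ratw := h.ratw
  L_pos := h.L_pos
  ℓa := h.ℓa
  ℓa' := h.ℓa'
  ℓβ := h.ℓβ
  ℓB := h.ℓB
  ℓw := h.ℓw
  b_pos := h.b_pos
  D_pos := h.D_pos
  bA := h.bA
  spec := h.spec
  prof := h.prof
  sub := hsub
  ne := h.ne
  dO := h.dO
  dX := hd
  val := hval
  γn := by
    intro l hl
    show ‖(if l ∈ P.O then P.γ l else ((√(P.wd l) : ℝ) : ℂ))‖ ^ 2 = P.wd l
    split_ifs with hO
    · exact h.γn l (h.sub hO)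
    · have h1 : (1 : ℝ) ≤ (idot l P.B : ℤ) := by exact_mod_cast (hval l hl).1
      have h2 : (0 : ℝ) < P.D := by exact_mod_cast h.D_pos
      have h3 := h.b_pos
      have h4 : 0 ≤ P.wd l := by unfold State.wd; positivity
      rw [Complex.norm_real, Real.norm_eq_abs, sq_abs, Real.sq_sqrt h4]
  sep := h.sep
  old := h.old
  sepX := by
    intro l _ l' _ hl'
    have : idot l' P.B ∈ P.d.Vnew := hl'
    rw [hV] at this
    exact absurd this (Finset.notMem_empty _)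
  B_eq := h.B_eq
  genPre := hgen

/-- the genericity computation -/
lemma gen_aux {β β₂ : V} {a : Fin 3} {ℓ B : Z3} {Z : Finset Z3} {K : ℤ}
    (hℓβ : rdot ℓ β = 0) (hℓa : ℓ a = 0) (hℓB : idot ℓ B = 0)
    (hZ : ∀ l ∈ Z, rdot l β₂ ≠ 0) (hZB : ∀ l ∈ Z, idot l B ≠ 0) (hK : ∀ l ∈ Z, |idot l B| ≤ K)
    (hg : ∀ d : ℤ, 1 ≤ d → d ≤ K → ∀ l ∈ Z, ∀ d' : ℤ, 1 ≤ d' → d' ≤ K → ∀ l' ∈ Z,
      rdot (d' • l') β₂ ≠ 0 → ∀ m : ℤ, rdot (d • l - m • d' • l') β = 0 →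
        (d • l - m • d' • l') a = 0)
    {μ μ' l l' : Z3} {d d' ε ε' k k' m : ℤ} (hd : 0 < d) (hd' : 0 < d') (hε : ε * ε = 1)
    (hε' : ε' * ε' = 1) (hl : l ∈ Z) (hl' : l' ∈ Z) (h : ε • (l + k • ℓ) = d • μ)
    (h' : ε' • (l' + k' • ℓ) = d' • μ') (h0 : rdot (μ - m • μ') β = 0) : (μ - m • μ') a = 0 := by
  have bd : ∀ {μ l : Z3} {d ε k : ℤ}, 0 < d → ε * ε = 1 → l ∈ Z → ε • (l + k • ℓ) = d • μ →
      d ≤ K := by
    intro μ l d ε k hd hε hl h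
    have h1 := congrArg (fun x => idot x B) h
    simp only [idot_smul_left, idot_add_left, hℓB, mul_zero, add_zero] at h1
    have h2 : d ∣ idot l B := ⟨ε * idot μ B, by linear_combination ε * h1 - idot l B * hε⟩
    exact (Int.le_of_dvd (abs_pos.2 (hZB l hl)) ((dvd_abs _ _).2 h2)).trans (hK l hl)
  have key : d' • l - (ε * ε' * m) • d • l' =
      (ε * d * d') • (μ - m • μ') - (d' * k - ε * ε' * m * d * k') • ℓ := by
    funext i
    have h1 := congrFun h i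
    have h2 := congrFun h' i
    simp only [Pi.smul_apply, Pi.add_apply, Pi.sub_apply, smul_eq_mul] at h1 h2 ⊢
    linear_combination (ε * d') * h1 - (ε * m * d) * h2 - (d' * (l i + k * ℓ i)) * hε
  have h3 := hg d' hd' (bd hd' hε' hl' h') l hl d hd (bd hd hε hl h) l' hl'
    (by rw [rdot_smul_left]; exact mul_ne_zero (by exact_mod_cast hd.ne') (hZ l' hl'))
    (ε * ε' * m) (by rw [key, rdot_sub_left, rdot_smul_left, rdot_smul_left, h0, hℓβ]; ring)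
  rw [key] at h3
  simp only [Pi.sub_apply, Pi.smul_apply, smul_eq_mul, hℓa, mul_zero, sub_zero] at h3 ⊢
  have hε0 : ε ≠ 0 := by rintro rfl; simp at hε
  exact (mul_eq_zero.1 h3).resolve_left (mul_ne_zero (mul_ne_zero hε0 hd.ne') hd'.ne')

end Prep

open Prep in
theorem prep (hS : StepStmt) (hU : UpdStmt) (hG : GenStmt) (hD : DensStmt) : PrepStmt := by
  intro n Fam R e₀ ζ S F hp hm hX hF hF0
  -- step A
  obtain ⟨P1, s1⟩ := step hS hp hm hX ∅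
  obtain ⟨W1, hW10, hW1⟩ := hD P1.H s1.pre.mp F hF hF0 (1 / 2 ^ n) (by positivity)
  obtain ⟨η1, m1, g1, -⟩ := s1.upd hU (hG P1.β P1.a' W1)
  set S1 := P1.upd η1 with hS1
  have g1' : ∀ l ∈ W1, rdot l S1.β = 0 → l S1.a' = 0 := g1
  -- step B
  obtain ⟨P2, s2⟩ := step hS hp m1 s1.XO ∅
  obtain ⟨W2, hW20, hW2p, hW2⟩ := s2.free F W1 _ hW10 hW1
  obtain ⟨η2, m2, g2, -⟩ := s2.upd hU (hG P2.β P2.a' W2)
  set S2 := P2.upd η2 with hS2
  have g2' : ∀ ν ∈ W2, rdot ν S2.β ≠ 0 := by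
    intro ν hν h0
    have h1 : ν P2.a' = 0 := g2 ν hν h0
    have h2 : rdot ν S1.β = 0 := by
      have h3 : rdot ν (P2.β + η2 • Pi.single P2.a' (1 : ℝ)) = 0 := h0
      rw [rdot_upd, h1, s2.β] at h3
      simpa using h3
    obtain ⟨l, hl, k, rfl⟩ := hW2p ν hν
    have h4 : rdot l S1.β = 0 := by
      rw [rdot_add_left, rdot_smul_left, m1.valid.ℓβ] at h2
      simpa using h2
    have h5 : (l + k • S1.ℓ) S1.a' = 0 := by
      simp [g1' l hl h4, m1.valid.ℓa']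
    rw [s2.a'] at h1
    exact hW20 (eq_zero_of_comp m1.valid.aa m1.valid.β2 h1 h5 h2 ▸ hν)
  -- step C
  obtain ⟨P3, s3⟩ := step hS hp m2 s2.XO ∅
  obtain ⟨W3, hW30, hW3p, hW3⟩ := s3.free F W2 _ hW20 hW2
  have hD3 : (P3.D : ℝ) ≠ 0 := by exact_mod_cast s3.pre.D_pos.ne'
  have hZB : ∀ ν ∈ W3 ∪ P3.O, idot ν P3.B ≠ 0 := by
    intro ν hν
    rcases Finset.mem_union.1 hν with hν | hν
    · obtain ⟨l, hl, k, rfl⟩ := hW3p ν hν
      intro h0
      have h1 := idot_cast s3.pre.B_eq (l + k • S2.ℓ)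
      rw [h0, s3.β, rdot_add_left, rdot_smul_left, m2.valid.ℓβ] at h1
      have h2 : (P3.D : ℝ) * rdot l S2.β = 0 := by simpa using h1.symm
      exact mul_ne_zero hD3 (g2' l hl) h2
    · have := (s3.pre.val ν (s3.pre.sub hν)).1
      omega
  have hZ : ∀ ν ∈ W3 ∪ P3.O, rdot ν P3.β ≠ 0 := by
    intro ν hν h0
    have h1 := idot_cast s3.pre.B_eq ν
    rw [h0, mul_zero] at h1
    exact hZB ν hν (by exact_mod_cast h1)
  obtain ⟨K, hK⟩ : ∃ K : ℤ, ∀ ν ∈ W3 ∪ P3.O, |idot ν P3.B| ≤ K :=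
    ⟨∑ ν ∈ W3 ∪ P3.O, |idot ν P3.B|, fun ν hν =>
      Finset.single_le_sum (f := fun ν => |idot ν P3.B|) (fun _ _ => abs_nonneg _) hν⟩
  obtain ⟨η3, m3, -, g3, g3'⟩ := s3.upd hU
    (hG P3.β P3.a' ((Finset.Icc 1 K ×ˢ (W3 ∪ P3.O)).image fun q => q.1 • q.2))
  set S3 := P3.upd η3 with hS3
  have hY : ∀ d : ℤ, 1 ≤ d → d ≤ K → ∀ l ∈ W3 ∪ P3.O,
      d • l ∈ (Finset.Icc 1 K ×ˢ (W3 ∪ P3.O)).image fun q : ℤ × Z3 => q.1 • q.2 :=
    fun d h1 h2 l hl => Finset.mem_image.2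
      ⟨(d, l), Finset.mem_product.2 ⟨Finset.mem_Icc.2 ⟨h1, h2⟩, hl⟩, rfl⟩
  have hZ3 : ∀ l ∈ W3 ∪ P3.O, rdot l S3.β ≠ 0 := by
    intro l hl
    have h1 : (1 : ℤ) ≤ K := (Int.one_le_abs (hZB l hl)).trans (hK l hl)
    have h2 := hY 1 le_rfl h1 l hl
    rw [one_smul] at h2
    exact g3 l h2 (hZ l hl)
  -- step C'
  obtain ⟨P4, s4⟩ := step hS hp m3 s3.XO W3
  obtain ⟨W4, -, hW4p, hW4⟩ := s4.free F W3 _ hW30 hW3
  have hW4' := approx_sign hW4 (fun ν => 0 < rdot ν S3.β)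
  set W4' := W4.image fun ν => if 0 < rdot ν S3.β then ν else -ν with hW4def
  have hD4 : (0 : ℝ) < P4.D := by exact_mod_cast s4.pre.D_pos
  have hUU : ∀ ν ∈ W4' ∪ P4.O, (1 ≤ idot ν P4.B ∧ idot ν P4.B ≤ P4.d.Amax) ∧
      ∃ ε : ℤ, ε * ε = 1 ∧ ∃ l ∈ W3 ∪ P3.O, ∃ k : ℤ, ν = ε • (l + k • S3.ℓ) := by
    intro ν hν
    rcases Finset.mem_union.1 hν with hν | hν
    · obtain ⟨ν', hν', rfl⟩ := Finset.mem_image.1 hν
      obtain ⟨l, hl, k, rfl⟩ := hW4p ν' hν'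
      have hl' : l ∈ W3 ∪ P3.O := Finset.mem_union_left _ hl
      have h1 : rdot (l + k • S3.ℓ) S3.β = rdot l S3.β := by
        rw [rdot_add_left, rdot_smul_left, m3.valid.ℓβ]; ring
      have h2 := idot_cast s4.pre.B_eq (l + k • S3.ℓ)
      have h3 := idot_cast s4.pre.B_eq l
      rw [s4.β] at h2 h3
      rw [h1, ← h3] at h2
      have h4 : idot (l + k • S3.ℓ) P4.B = idot l P4.B := by exact_mod_cast h2
      have h5 := abs_le.1 (s4.hW l hl)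
      rw [h1]
      split_ifs with hpos
      · have h6 : (0 : ℝ) < (idot l P4.B : ℤ) := by rw [h3]; positivity
        have h7 : 0 < idot l P4.B := by exact_mod_cast h6
        exact ⟨by rw [h4]; omega, 1, by ring, l, hl', k, by rw [one_smul]⟩
      · have h8 : rdot l S3.β < 0 := lt_of_le_of_ne (not_lt.1 hpos) (hZ3 l hl')
        have h6 : ((idot l P4.B : ℤ) : ℝ) < 0 := by rw [h3]; exact mul_neg_of_pos_of_neg hD4 h8
        have h7 : idot l P4.B < 0 := by exact_mod_cast h6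
        exact ⟨by rw [idot_neg_left, h4]; omega, -1, by ring, l, hl', k, by rw [neg_one_smul]⟩
    · obtain ⟨l, hl, k, hk⟩ := s4.out.parO ν hν
      exact ⟨s4.pre.val ν (s4.pre.sub hν), 1, by ring, l, Finset.mem_union_right _ hl, k,
        by rw [one_smul, hk]⟩
  obtain ⟨X4, hX4⟩ := exists_divClosure (W4' ∪ P4.O)
  have hsub : W4' ∪ P4.O ⊆ X4 := fun ν hν => (hX4 ν).2 ⟨ν, hν, 1, one_pos, by rw [one_smul]⟩
  have pv : PreValid (enlarge P4 X4) := by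
    refine preValid_enlarge s4.pre s4.Vnew (Finset.subset_union_right.trans hsub) ?_ ?_ ?_
    · intro l hl d μ hd hμ
      obtain ⟨ν, hν, d', hd', h⟩ := (hX4 l).1 hl
      exact (hX4 μ).2 ⟨ν, hν, d' * d, mul_pos hd' hd, by rw [h, hμ, mul_smul]⟩
    · intro l hl
      obtain ⟨ν, hν, d, hd, h⟩ := (hX4 l).1 hl
      have h1 := (hUU ν hν).1
      rw [h, idot_smul_left] at h1
      have h2 : 0 < idot l P4.B := by
        by_contra h3
        nlinarith [h1.1]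
      exact ⟨h2, by nlinarith [h1.2]⟩
    · intro μ hμ μ' hμ' m h0 h1
      obtain ⟨ν, hν, d, hd, h⟩ := (hX4 μ).1 hμ
      obtain ⟨ν', hν', d', hd', h'⟩ := (hX4 μ').1 hμ'
      obtain ⟨-, ε, hε, l, hl, k, rfl⟩ := hUU ν hν
      obtain ⟨-, ε', hε', l', hl', k', rfl⟩ := hUU ν' hν'
      rw [s4.β] at h0
      rw [s4.a'] at h1
      have h2 : (μ - m • μ') S3.a' = 0 :=
        gen_aux (β := S3.β) (β₂ := P3.β) (B := P3.B) m3.valid.ℓβ m3.valid.ℓa' m3.valid.ℓB hZ hZB hK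
          (fun d h1 h2 l hl d' h1' h2' l' hl' h3 m h4 =>
            g3' _ (hY d h1 h2 l hl) _ (hY d' h1' h2' l' hl') h3 m h4)
          hd hd' hε hε' hl hl' h h' h0
      exact sub_eq_zero.1 (eq_zero_of_comp m3.valid.aa m3.valid.β2 h1 h2 h0)
  obtain ⟨η4, m4, -⟩ := upd_mid hU (n := n) (e₀ := e₀) (ζ := ζ) pv s4.e s4.wd s4.gap s4.prom
    (p := fun _ => True) (Eventually.of_forall fun _ => trivial)
  refine ⟨(enlarge P4 X4).upd η4, m4, ?_, hW4'.mono (Finset.subset_union_left.trans hsub)⟩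
  have v0 := hm.valid.toValid0
  have v1 := m1.valid.toValid0
  have v2 := m2.valid.toValid0
  have v3 := m3.valid.toValid0
  have v4 := m4.valid.toValid0
  have M1 : Move n Fam 1 S S1 := s1.move
  have M2 : Move n Fam 1 S1 S2 := s2.move
  have M3 : Move n Fam 1 S2 S3 := s3.move
  have M4 : Move n Fam 1 S3 ((enlarge P4 X4).upd η4) :=
    ⟨s4.move.1, fun φ hφ => by rw [enlarge_Ψ]; exact s4.move.2 φ hφ⟩
  have := Move.trans v0 v3 v4 (Move.trans v0 v2 v3 (Move.trans v0 v1 v2 M1 M2) M3) M4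
  rwa [show (1 : ℝ) + 1 + 1 + 1 = 4 by norm_num] at this

end Crest.Agent.R81
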