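import Crest.Agent.R81.Defs

/-!
Row 81: the smooth layer, `SLStmt`.
-/

set_option autoImplicit false

namespace Crest.Agent.R81

open Filter Topology
open scoped ContDiff

namespace SL

section general
variable {E W : Type} [NormedAddCommGroup E] [NormedSpace ℝ E] [NormedAddCommGroup W]
  [NormedSpace ℝ W]

/-- smooth with derivatives up to order `r` bounded by `c` -/
def Bd {G : Type} [NormedAddCommGroup G] [NormedSpace ℝ G] (r : ℕ) (c : ℝ) (F : E → G) : Prop :=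
  ContDiff ℝ ∞ F ∧ ∀ i ≤ r, ∀ x, ‖iteratedFDeriv ℝ i F x‖ ≤ c

section basic
variable {G G' G'' : Type} [NormedAddCommGroup G] [NormedSpace ℝ G] [NormedAddCommGroup G']
  [NormedSpace ℝ G'] [NormedAddCommGroup G''] [NormedSpace ℝ G'']

theorem Bd.nonneg {r : ℕ} {c : ℝ} {F : E → G} (h : Bd r c F) : 0 ≤ c :=
  (norm_nonneg _).trans (h.2 0 (Nat.zero_le _) 0)

theorem Bd.mono {r r' : ℕ} {c c' : ℝ} {F : E → G} (h : Bd r c F) (hr : r' ≤ r) (hc : c ≤ c') :
    Bd r' c' F := ⟨h.1, fun i hi x => (h.2 i (hi.trans hr) x).trans hc⟩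

theorem Bd.norm_le {r : ℕ} {c : ℝ} {F : E → G} (h : Bd r c F) (x : E) : ‖F x‖ ≤ c := by
  simpa using h.2 0 (Nat.zero_le _) x

theorem cd_fderiv {F : E → G} (h : ContDiff ℝ ∞ F) : ContDiff ℝ ∞ (fderiv ℝ F) :=
  h.fderiv_right (by simp)

theorem Bd.fderiv {r : ℕ} {c : ℝ} {F : E → G} (h : Bd (r + 1) c F) : Bd r c (fderiv ℝ F) :=
  ⟨cd_fderiv h.1, fun i hi x => by
    rw [norm_iteratedFDeriv_fderiv]; exact h.2 _ (by omega) x⟩

theorem Bd.succ {r : ℕ} {c : ℝ} {F : E → G} (h0 : ContDiff ℝ ∞ F) (h1 : ∀ x, ‖F x‖ ≤ c)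
    (h : Bd r c (_root_.fderiv ℝ F)) : Bd (r + 1) c F :=
  ⟨h0, fun i hi x => by
    cases i with
    | zero => simpa using h1 x
    | succ i => rw [← norm_iteratedFDeriv_fderiv]; exact h.2 i (by omega) x⟩

theorem Bd.const (r : ℕ) (v : G) : Bd r ‖v‖ (fun _ : E => v) :=
  ⟨contDiff_const, fun i _ x => by
    cases i with
    | zero => simp
    | succ i => rw [iteratedFDeriv_const_of_ne (Nat.succ_ne_zero i)]; simp⟩

theorem Bd.add {r : ℕ} {a b : ℝ} {F F' : E → G} (h : Bd r a F) (h' : Bd r b F') :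
    Bd r (a + b) (fun x => F x + F' x) :=
  ⟨h.1.add h'.1, fun i hi x => by
    rw [fun_iteratedFDeriv_add_apply (h.1.of_le (by exact_mod_cast le_top)).contDiffAt
      (h'.1.of_le (by exact_mod_cast le_top)).contDiffAt]
    exact (norm_add_le _ _).trans (add_le_add (h.2 i hi x) (h'.2 i hi x))⟩

theorem Bd.bil (B : G →L[ℝ] G' →L[ℝ] G'') (hB : ‖B‖ ≤ 1) {r : ℕ} {a b : ℝ} {F : E → G}
    {F' : E → G'} (h : Bd r a F) (h' : Bd r b F') :
    Bd r (2 ^ r * a * b) (fun x => B (F x) (F' x)) :=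
  ⟨(B.contDiff.comp h.1).clm_apply h'.1, fun i hi x => by
    have ha := h.nonneg
    have hb := h'.nonneg
    refine (B.norm_iteratedFDeriv_le_of_bilinear_of_le_one h.1 h'.1 x (n := i)
      (by exact_mod_cast le_top) hB).trans ?_
    calc ∑ j ∈ Finset.range (i + 1), (i.choose j : ℝ) * ‖iteratedFDeriv ℝ j F x‖ *
          ‖iteratedFDeriv ℝ (i - j) F' x‖ ≤ ∑ j ∈ Finset.range (i + 1), (i.choose j : ℝ) * a * b := by
          refine Finset.sum_le_sum fun j hj => ?_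
          have := Finset.mem_range.1 hj
          gcongr
          · exact h.2 j (by omega) x
          · exact h'.2 _ (by omega) x
      _ = 2 ^ i * a * b := by
          rw [← Finset.sum_mul, ← Finset.sum_mul, ← Nat.cast_sum, Nat.sum_range_choose]; simp
      _ ≤ _ := by gcongr; norm_num⟩

theorem Bd.smul {r : ℕ} {a b : ℝ} {f : E → ℝ} {F : E → G} (h : Bd r a f) (h' : Bd r b F) :
    Bd r (2 ^ r * a * b) (fun x => f x • F x) :=
  Bd.bil (ContinuousLinearMap.lsmul ℝ ℝ) ContinuousLinearMap.opNorm_lsmul_le h h'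

theorem Bd.clm_comp {r : ℕ} {a b : ℝ} {F : E → W →L[ℝ] G} {F' : E → G' →L[ℝ] W} (h : Bd r a F)
    (h' : Bd r b F') : Bd r (2 ^ r * a * b) (fun x => (F x).comp (F' x)) :=
  Bd.bil (ContinuousLinearMap.compL ℝ G' W G) (ContinuousLinearMap.norm_compL_le _ _ _ _) h h'

end basic

theorem L1 (r : ℕ) (R : ℝ) : ∃ K : ℝ, 1 ≤ K ∧ ∀ (G : Type) [NormedAddCommGroup G] [NormedSpace ℝ G]
    (F : W → G) (B : E → W) (c : ℝ), Bd r c F → ContDiff ℝ ∞ B → Bd r R (fderiv ℝ B) →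
      Bd r (K * c) (fun x => F (B x)) := by
  induction r with
  | zero =>
    exact ⟨1, le_rfl, fun G _ _ F B c hF hB _ => ⟨hF.1.comp hB, fun i hi x => by
      obtain rfl : i = 0 := by omega
      simpa using hF.norm_le _⟩⟩
  | succ r ih =>
    obtain ⟨K, hK, ih⟩ := ih
    refine ⟨max 1 (2 ^ r * K * R), le_max_left _ _, fun G _ _ F B c hF hB hR => ?_⟩
    have hc := hF.nonneg
    refine Bd.succ (hF.1.comp hB) (fun x => (hF.norm_le _).trans
      (le_mul_of_one_le_left hc (le_max_left _ _))) ?_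
    have h1 := (ih _ _ B c hF.fderiv hB (hR.mono (Nat.le_succ r) le_rfl)).clm_comp
      (hR.mono (Nat.le_succ r) le_rfl)
    have e : fderiv ℝ (fun x => F (B x)) = fun x => (fderiv ℝ F (B x)).comp (fderiv ℝ B x) := by
      funext x
      exact fderiv_fun_comp x (hF.1.differentiable (by simp) _) (hB.differentiable (by simp) _)
    rw [e]
    refine h1.mono le_rfl ?_
    calc 2 ^ r * (K * c) * R = 2 ^ r * K * R * c := by ring
      _ ≤ _ := mul_le_mul_of_nonneg_right (le_max_right _ _) hc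

theorem L2 (r : ℕ) (R : ℝ) : ∃ K : ℝ, 0 ≤ K ∧ ∀ (G : Type) [NormedAddCommGroup G] [NormedSpace ℝ G]
    (A : W → G) (B D : E → W) (δ : ℝ), ContDiff ℝ ∞ A → Bd r R (fderiv ℝ A) → ContDiff ℝ ∞ B →
      Bd r R (fderiv ℝ B) → Bd r δ D → δ ≤ 1 →
      Bd r (K * δ) (fun x => A (B x + D x) - A (B x)) := by
  have base : ∀ (r : ℕ) (G : Type) [NormedAddCommGroup G] [NormedSpace ℝ G]
      (A : W → G) (B D : E → W) (δ : ℝ), ContDiff ℝ ∞ A → Bd r R (fderiv ℝ A) → Bd r δ D →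
      ∀ x, ‖A (B x + D x) - A (B x)‖ ≤ |R| * δ := by
    intro r G _ _ A B D δ hA hA' hD x
    have := convex_univ.norm_image_sub_le_of_norm_fderiv_le (𝕜 := ℝ) (f := A) (C := |R|)
      (fun y _ => hA.differentiable (by simp) y) (fun y _ => (hA'.norm_le y).trans (le_abs_self R))
      (Set.mem_univ (B x)) (Set.mem_univ (B x + D x))
    rw [add_sub_cancel_left] at this
    exact this.trans (mul_le_mul_of_nonneg_left (hD.norm_le x) (abs_nonneg _))
  induction r with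
  | zero =>
    exact ⟨|R|, abs_nonneg _, fun G _ _ A B D δ hA hA' hB _ hD _ =>
      ⟨(hA.comp (hB.add hD.1)).sub (hA.comp hB), fun i hi x => by
        obtain rfl : i = 0 := by omega
        simpa using base 0 G A B D δ hA hA' hD x⟩⟩
  | succ r ih =>
    obtain ⟨K, hK, ih⟩ := ih
    obtain ⟨K1, hK1, h1⟩ := L1 (E := E) (W := W) r (R + 1)
    refine ⟨max |R| (2 ^ r * K * R + 2 ^ r * (K1 * R)), le_max_of_le_left (abs_nonneg _),
      fun G _ _ A B D δ hA hA' hB hB' hD hδ => ?_⟩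
    have hδ0 := hD.nonneg
    refine Bd.succ ((hA.comp (hB.add hD.1)).sub (hA.comp hB)) (fun x =>
      (base _ G A B D δ hA hA' hD x).trans (mul_le_mul_of_nonneg_right (le_max_left _ _) hδ0)) ?_
    have hB'' := hB'.mono (Nat.le_succ r) le_rfl
    have dA := hA.differentiable (by simp)
    have dB := hB.differentiable (by simp)
    have dD := hD.1.differentiable (by simp)
    have eBD : fderiv ℝ (fun x => B x + D x) = fun x => fderiv ℝ B x + fderiv ℝ D x :=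
      funext fun x => fderiv_fun_add (dB x) (dD x)
    have h2 := (ih _ (fderiv ℝ A) B D δ (cd_fderiv hA) hA'.fderiv hB hB''
      (hD.mono (Nat.le_succ r) le_rfl) hδ).clm_comp hB''
    have h3 := (h1 _ (fderiv ℝ A) (fun x => B x + D x) R (hA'.mono (Nat.le_succ r) le_rfl)
      (hB.add hD.1) (by rw [eBD]; exact (hB''.add hD.fderiv).mono le_rfl (by linarith))).clm_comp
      hD.fderiv
    have e : fderiv ℝ (fun x => A (B x + D x) - A (B x)) = fun x =>
        (fderiv ℝ A (B x + D x) - fderiv ℝ A (B x)).comp (fderiv ℝ B x) +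
          (fderiv ℝ A (B x + D x)).comp (fderiv ℝ D x) := by
      funext x
      have a1 : HasFDerivAt (fun x => A (B x + D x)) _ x :=
        (dA (B x + D x)).hasFDerivAt.comp x ((dB x).hasFDerivAt.add (dD x).hasFDerivAt)
      have a2 : HasFDerivAt (fun x => A (B x)) _ x := (dA (B x)).hasFDerivAt.comp x (dB x).hasFDerivAt
      rw [(a1.fun_sub a2).fderiv]
      ext y; simp
      abel
    rw [e]
    refine (h2.add h3).mono le_rfl ?_
    calc 2 ^ r * (K * δ) * R + 2 ^ r * (K1 * R) * δ = (2 ^ r * K * R + 2 ^ r * (K1 * R)) * δ := by ring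
      _ ≤ _ := mul_le_mul_of_nonneg_right (le_max_right _ _) hδ0

/-- functions invariant under a cocompact set of translations are bounded with all derivatives -/
theorem bd_of_per {G : Type} [NormedAddCommGroup G] [NormedSpace ℝ G] [ProperSpace E] {F : E → G}
    (hF : ContDiff ℝ ∞ F) (h : ∀ x, ∃ k : E, ‖x - k‖ ≤ 1 ∧ ∀ y, F (y + k) = F y) (r : ℕ) :
    ∃ R, Bd r R F := by
  have key : ∀ i : ℕ, ∃ R, ∀ x, ‖iteratedFDeriv ℝ i F x‖ ≤ R := fun i => by
    obtain ⟨R, hR⟩ := (isCompact_closedBall (0 : E) 1).exists_bound_of_continuousOn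
      (hF.continuous_iteratedFDeriv (m := i) (by exact_mod_cast le_top)).continuousOn
    refine ⟨R, fun x => ?_⟩
    obtain ⟨k, hk, hk'⟩ := h x
    have : iteratedFDeriv ℝ i F x = iteratedFDeriv ℝ i F (x - k) := by
      conv_rhs => rw [← funext hk', iteratedFDeriv_comp_add_right, sub_add_cancel]
    rw [this]
    exact hR _ (by simpa using hk)
  choose R hR using key
  refine ⟨∑ i ∈ Finset.range (r + 1), R i, hF, fun i hi x => (hR i x).trans ?_⟩
  exact Finset.single_le_sum (fun j _ => (norm_nonneg _).trans (hR j 0))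
    (Finset.mem_range.2 (by omega))

end general

theorem bd_smoothPer {φ : ℝ → ℝ} (h : SmoothPer φ) (r : ℕ) : ∃ R, Bd r R φ :=
  bd_of_per h.smooth (fun x => ⟨(⌊x⌋ : ℝ), by
    rw [Real.norm_eq_abs, abs_of_nonneg (by linarith [Int.floor_le x])]
    linarith [Int.lt_floor_add_one x], fun y => by simpa using h.per.int_mul ⌊x⌋ y⟩) r

theorem bd_equivar {F : V → V} (h : Equivar F) (r : ℕ) : ∃ R, Bd r R (fderiv ℝ F) :=
  bd_of_per (cd_fderiv h.smooth) (fun x => ⟨fun i => (⌊x i⌋ : ℝ), by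
    refine (pi_norm_le_iff_of_nonneg zero_le_one).2 fun i => ?_
    rw [Pi.sub_apply, Real.norm_eq_abs, abs_of_nonneg (by linarith [Int.floor_le (x i)])]
    linarith [Int.lt_floor_add_one (x i)], fun y => by
      rw [← fderiv_comp_add_right, funext fun z => h.equi z fun i => ⌊x i⌋, fderiv_add_const]⟩) r

theorem SmoothPer.scale {φ : ℝ → ℝ} (h : SmoothPer φ) (M0 : ℕ) : SmoothPer fun x => φ (M0 * x) :=
  ⟨h.smooth.comp (contDiff_const.mul contDiff_id), fun x => by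
    have := h.per.nat_mul M0 (M0 * x)
    simpa [mul_add] using this⟩

theorem smoothPer_chi {φ ψ : ℝ → ℝ} (hφ : SmoothPer φ) (hψ : SmoothPer ψ) (b : ℝ) (M0 : ℕ) (s : ℝ) :
    SmoothPer (chi b M0 φ ψ s) :=
  ⟨(contDiff_const.mul (SmoothPer.scale hφ M0).smooth).add hψ.smooth, fun x => by
    have := (SmoothPer.scale hφ M0).per x
    simp only [chi, hψ.per x] at this ⊢
    rw [this]⟩

theorem shift {φ : ℝ → ℝ} (h : SmoothPer φ) (r : ℕ) : ∃ K, 0 ≤ K ∧ ∀ σ : ℝ, |σ| ≤ 1 →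
    Bd r (K * |σ|) (fun x => φ (x + σ) - φ x) := by
  obtain ⟨R, hR⟩ := bd_smoothPer h (r + 1)
  obtain ⟨K, hK, h2⟩ := L2 (E := ℝ) (W := ℝ) r (max R 1)
  refine ⟨K, hK, fun σ hσ => h2 ℝ φ (fun x => x) (fun _ => σ) _ h.smooth
    (hR.fderiv.mono le_rfl (le_max_left _ _)) contDiff_id ?_ (Bd.const r σ) hσ⟩
  rw [show fderiv ℝ (fun x : ℝ => x) = fun _ => ContinuousLinearMap.id ℝ ℝ from
    funext fun _ => fderiv_fun_id]
  exact (Bd.const r _).mono le_rfl (ContinuousLinearMap.norm_id_le.trans (le_max_right _ _))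

theorem tau {φ ψ : ℝ → ℝ} (hφ : SmoothPer φ) (hψ : SmoothPer ψ) {M0 : ℕ} (hM : 0 < M0) (r : ℕ) :
    ∃ K, 0 ≤ K ∧ ∀ b s κ : ℝ, 0 < s → s ≤ 1 → κ = 1 ∨ κ = -1 →
      Bd r (K * (|b| + s)) (fun x => chi b M0 φ ψ s (x + κ * s) - chi b M0 φ ψ s x) := by
  obtain ⟨K1, hK1, h1⟩ := shift (SmoothPer.scale hφ M0) r
  obtain ⟨K2, hK2, h2⟩ := shift hψ r
  refine ⟨2 ^ r * K1 + K2, by positivity, fun b s κ hs hs1 hκ => ?_⟩
  have hσ : |κ * s| = s := by rcases hκ with rfl | rfl <;> simp [abs_of_pos hs]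
  have := ((Bd.const r (b / (M0 * s))).smul (h1 (κ * s) (by linarith))).add (h2 (κ * s) (by linarith))
  rw [hσ] at this
  have hM' : (1 : ℝ) ≤ M0 := by exact_mod_cast hM
  refine ⟨?_, ?_⟩
  · exact ((smoothPer_chi hφ hψ b M0 s).smooth.comp (contDiff_id.add contDiff_const)).sub
      (smoothPer_chi hφ hψ b M0 s).smooth
  · have e : (fun x => chi b M0 φ ψ s (x + κ * s) - chi b M0 φ ψ s x) = fun x =>
        (b / (M0 * s)) • (φ (M0 * (x + κ * s)) - φ (M0 * x)) + (ψ (x + κ * s) - ψ x) := by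
      funext x; simp only [chi, smul_eq_mul]; ring
    rw [e]
    refine (this.mono le_rfl ?_).2
    have h3 : ‖b / (M0 * s)‖ * s ≤ |b| := by
      rw [Real.norm_eq_abs, abs_div, abs_of_pos (by positivity : (0 : ℝ) < M0 * s),
        div_mul_eq_mul_div, div_le_iff₀ (by positivity)]
      have : s ≤ M0 * s := le_mul_of_one_le_left hs.le hM'
      gcongr
    calc 2 ^ r * ‖b / (M0 * s)‖ * (K1 * s) + K2 * s = 2 ^ r * K1 * (‖b / (M0 * s)‖ * s) + K2 * s := by
          ring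
      _ ≤ 2 ^ r * K1 * |b| + K2 * s := by gcongr
      _ ≤ _ := by
          have : 0 ≤ 2 ^ r * K1 * s := by positivity
          have : 0 ≤ K2 * |b| := by positivity
          nlinarith

/-- `rdot` as a continuous linear map -/
noncomputable def rd (l : Z3) : V →L[ℝ] ℝ := ∑ i, (l i : ℝ) • ContinuousLinearMap.proj i

theorem rd_apply (l : Z3) (x : V) : rd l x = rdot l x := by simp [rd, rdot]

theorem comp_rd (l : Z3) (r : ℕ) : ∃ K, 1 ≤ K ∧ ∀ (f : ℝ → ℝ) (c : ℝ), Bd r c f →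
    Bd r (K * c) (fun x : V => f (rd l x)) := by
  obtain ⟨K, hK, h⟩ := L1 (E := V) (W := ℝ) r ‖rd l‖
  refine ⟨K, hK, fun f c hf => h ℝ f _ c hf (rd l).contDiff ?_⟩
  rw [show fderiv ℝ (rd l) = fun _ => rd l from funext fun _ => (rd l).fderiv]
  exact Bd.const r _

end SL

open SL in
theorem sl : SLStmt := by
  intro Hl Hi w β v v' u ℓ ℓ' b κ₀ M0 M0' φ ψ φ' ψ' r ε hHl hHi hφ hψ hφ' hψ' hM hM' h1 ⟨z, h2⟩ h3 h4
    h5 ⟨z', h6⟩ h7 h8 h9 hε
  simp only [← rd_apply] at h1 h2 h3 h4 h5 h6 h7 h8 h9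
  obtain ⟨Rl, hRl⟩ := bd_equivar hHl r
  obtain ⟨Ri, hRi⟩ := bd_equivar hHi r
  obtain ⟨T, hT0, hT⟩ := tau hφ hψ hM (r + 1)
  obtain ⟨T', hT0', hT'⟩ := tau hφ' hψ' hM' r
  obtain ⟨C, hC1, hC⟩ := comp_rd ℓ (r + 1)
  obtain ⟨C', hC1', hC'⟩ := comp_rd ℓ' r
  obtain ⟨Ki, hKi1, hKi⟩ := L1 (E := V) (W := V) r Ri
  set R0 : ℝ := 1 + (‖v‖ + 2 ^ (r + 1) * (C * (T * (|b| + 1))) * ‖β‖) with hR0
  obtain ⟨Kl, hKl0, hKl⟩ := L2 (E := V) (W := V) r (max Rl R0)
  obtain ⟨δ, hδ0, hδ1, hδ⟩ : ∃ δ : ℝ, 0 < δ ∧ δ ≤ 1 ∧ Ki * (Kl * δ) ≤ ε := by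
    have : ∀ᶠ δ in 𝓝[>] (0 : ℝ), δ ≤ 1 ∧ Ki * (Kl * δ) ≤ ε := by
      refine nhdsWithin_le_nhds (Eventually.and (Iic_mem_nhds one_pos) ?_)
      exact (show Continuous fun δ : ℝ => Ki * (Kl * δ) by fun_prop).continuousAt.eventually
        (Iic_mem_nhds (by simpa using hε))
    obtain ⟨δ, h, h'⟩ := (this.and self_mem_nhdsWithin).exists
    exact ⟨δ, h', h.1, h.2⟩
  have ev0 : ∀ (g : ℝ → ℝ) (c : ℝ), Continuous g → g 0 = 0 → 0 < c → ∀ᶠ s in 𝓝 (0 : ℝ), g s ≤ c :=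
    fun g c hg h0 hc => hg.continuousAt.eventually (Iic_mem_nhds (by simpa [h0] using hc))
  set A : ℝ := 2 ^ r * (C' * T') * (‖β‖ + ‖u‖) with hA
  filter_upwards [self_mem_nhdsWithin, nhdsWithin_le_nhds (Iic_mem_nhds one_pos),
    nhdsWithin_le_nhds (ev0 (fun s => A * |κ₀ * s|) (δ / 3) (by fun_prop) (by simp) (by positivity))]
    with s hs hs1 hs2
  have hs : 0 < s := hs
  have hs1 : s ≤ 1 := hs1
  have hχ := smoothPer_chi hφ hψ b M0 s
  obtain ⟨Rχ, hRχ⟩ := bd_smoothPer hχ (r + 1)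
  obtain ⟨Kχ, hKχ0, hKχ⟩ := L2 (E := V) (W := ℝ) r (max Rχ ‖rd ℓ‖)
  set A' : ℝ := 2 ^ r * (C' * (T' * (|κ₀| + 1))) * ‖rd ℓ u‖ with hA'
  filter_upwards [ev0 (fun η => |η|) 1 (by fun_prop) (by simp) one_pos,
    ev0 (fun η => A' * |η|) 1 (by fun_prop) (by simp) one_pos,
    ev0 (fun η => 2 ^ r * (Kχ * (A' * |η|)) * ‖β‖) (δ / 3) (by fun_prop) (by simp) (by positivity)]
    with η hη1 hη2 hη3
  filter_upwards [self_mem_nhdsWithin, nhdsWithin_le_nhds (Iic_mem_nhds one_pos),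
    nhdsWithin_le_nhds (ev0 (fun s' => (‖v'‖ + A) * s') (δ / 3) (by fun_prop) (by simp)
      (by positivity))] with s' hs' hs1' hs2' κ hκ
  have hs' : 0 < s' := hs'
  have hs1' : s' ≤ 1 := hs1'
  have hκ1 : |κ| = 1 := by rcases hκ with rfl | rfl <;> simp
  have hχ' := smoothPer_chi hφ' hψ' (κ₀ * s) M0' s'
  have t0 := hC _ _ (hT b s κ hs hs1 hκ)
  have t1 := hC' _ _ (hT' (κ₀ * s) s' κ hs' hs1' hκ)
  set χ := chi b M0 φ ψ s with hχdef
  set χ' := chi (κ₀ * s) M0' φ' ψ' s' with hχdef'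
  have per : ∀ (f : ℝ → ℝ), Function.Periodic f 1 → ∀ (n : ℤ) (x y : ℝ), x = y + κ * n → f x = f y := by
    intro f hf n x y hxy
    rcases hκ with rfl | rfl
    · rw [hxy]; simpa using hf.int_mul n y
    · rw [hxy]; simpa using hf.int_mul (-n) y
  -- the pieces
  have E0 := (Bd.const (E := V) (r + 1) ((κ * s) • v)).add (t0.smul (Bd.const (r + 1) β))
  have hB : Bd r (max Rl R0) (fderiv ℝ fun P : V => P + κ • w +
      ((κ * s) • v + (χ (rd ℓ P + κ * s) - χ (rd ℓ P)) • β)) := by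
    have e : (fderiv ℝ fun P : V => P + κ • w +
        ((κ * s) • v + (χ (rd ℓ P + κ * s) - χ (rd ℓ P)) • β)) = fun P =>
        ContinuousLinearMap.id ℝ V + fderiv ℝ (fun P : V =>
          (κ * s) • v + (χ (rd ℓ P + κ * s) - χ (rd ℓ P)) • β) P := by
      funext P
      exact (((hasFDerivAt_id P).add_const _).add
        (E0.1.differentiable (by simp) P).hasFDerivAt).fderiv
    rw [e]
    refine ((Bd.const r _).add E0.fderiv).mono le_rfl (le_max_of_le_right ?_)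
    rw [hR0, norm_smul, Real.norm_eq_abs, abs_mul, hκ1, abs_of_pos hs, one_mul]
    gcongr
    · exact ContinuousLinearMap.norm_id_le
    · exact mul_le_of_le_one_left (norm_nonneg _) hs1
  have D1 : Bd r (A' * |η|) (fun P : V => (χ' (rd ℓ' P + κ * s') - χ' (rd ℓ' P)) • (η * rd ℓ u)) := by
    refine (t1.smul (Bd.const r (η * rd ℓ u))).mono le_rfl ?_
    rw [hA', norm_mul, Real.norm_eq_abs η, mul_comm |η|, ← mul_assoc, abs_mul, abs_of_pos hs]
    gcongr
    exact mul_le_of_le_one_right (abs_nonneg _) hs1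
  have D2 := hKχ ℝ χ (fun P => rd ℓ P + κ * s) _ _ hχ.smooth
    (hRχ.fderiv.mono le_rfl (le_max_left _ _)) ((rd ℓ).contDiff.add contDiff_const) (by
      rw [show fderiv ℝ (fun P => rd ℓ P + κ * s) = fun _ => rd ℓ from
        funext fun P => ((rd ℓ).hasFDerivAt.add_const _).fderiv]
      exact (Bd.const r _).mono le_rfl (le_max_right _ _)) D1 hη2
  have E1 := (((Bd.const (E := V) r ((κ * s') • v')).add (t1.smul (Bd.const r (β + η • u)))).add
    (D2.smul (Bd.const r β))).mono le_rfl (c' := δ) (by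
      have a1 : ‖β + η • u‖ ≤ ‖β‖ + ‖u‖ := by
        refine (norm_add_le _ _).trans ?_
        rw [norm_smul, Real.norm_eq_abs]
        gcongr
        exact mul_le_of_le_one_left (norm_nonneg _) hη1
      have a2 : 2 ^ r * (C' * (T' * (|κ₀ * s| + s'))) * ‖β + η • u‖ ≤ A * (|κ₀ * s| + s') := by
        calc _ ≤ 2 ^ r * (C' * (T' * (|κ₀ * s| + s'))) * (‖β‖ + ‖u‖) := by gcongr
          _ = _ := by rw [hA]; ring
      rw [norm_smul, Real.norm_eq_abs, abs_mul, hκ1, abs_of_pos hs', one_mul]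
      nlinarith)
  have F1 := hKi V _ Hi _ (hKl V Hl _ _ δ hHl.smooth (hRl.mono le_rfl (le_max_left _ _))
    ((contDiff_id.add contDiff_const).add E0.1) hB E1 hδ1) hHi.smooth hRi
  refine fun i hi x => le_of_eq_of_le ?_ ((F1.2 i hi x).trans hδ)
  congr 2
  funext y
  simp only [Function.comp, sh, ← rd_apply, Pi.neg_apply, id]
  generalize Hi y = P
  have a1 : χ' (rd ℓ' (P + -χ (rd ℓ P) • β + -χ' (rd ℓ' (P + -χ (rd ℓ P) • β)) • (β + η • u) +
      κ • (w + s • v + s' • v'))) = χ' (rd ℓ' P + κ * s') :=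
    per _ hχ'.per z' _ _ (by simp [h5, h6, h7, h8, h9]; ring)
  have a2 : rd ℓ' (P + -χ (rd ℓ P) • β) = rd ℓ' P := by simp [h5]
  have a3 : χ (rd ℓ (P + -χ (rd ℓ P) • β + κ • (w + s • v))) = χ (rd ℓ P + κ * s) :=
    per _ hχ.per z _ _ (by simp [h1, h2, h3]; ring)
  rw [a1, a2, a3]
  have a4 : χ (rd ℓ (P + -χ (rd ℓ P) • β + -χ' (rd ℓ' P) • (β + η • u) + κ • (w + s • v + s' • v') +
      χ' (rd ℓ' P + κ * s') • (β + η • u))) =
      χ (rd ℓ P + κ * s + (χ' (rd ℓ' P + κ * s') - χ' (rd ℓ' P)) • (η * rd ℓ u)) :=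
    per _ hχ.per z _ _ (by simp [h1, h2, h3, h4]; ring)
  rw [a4]
  congr 2 <;> module

end Crest.Agent.R81
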