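import Crest.Agent.R81.Basic

/-!
Row 81: the sequence of stages, `SeqStmt`.
-/

set_option autoImplicit false

namespace Crest.Agent.R81

open Crest.AnalysisR.Torus3 MeasureTheory Filter Topology

namespace Seq

instance : IsProbabilityMeasure (volume : Measure UnitAddCircle) :=
  ⟨by rw [AddCircle.measure_univ]; simp⟩

theorem integral_mFourier {k : Z3} (hk : k ≠ 0) : ∫ x : T3, UnitAddTorus.mFourier k x = 0 := by
  obtain ⟨i, hi⟩ := Function.ne_iff.1 hk
  have h : ∫ x : T3, ∏ i, fourier (k i) (x i) = ∏ i, ∫ y : UnitAddCircle, fourier (k i) y :=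
    integral_fintype_prod_volume_eq_prod fun i (y : UnitAddCircle) => fourier (k i) y
  refine h.trans (Finset.prod_eq_zero (Finset.mem_univ i) ?_)
  exact integral_eq_zero_of_add_right_eq_neg (fourier_add_half_inv_index hi one_pos)

theorem nrm_le (f : C(T3, ℂ)) : nrm f ≤ ‖f‖ := by
  have h := ContinuousMap.toLp_norm_le (p := 2) (E := ℂ) (𝕜 := ℂ) (volume : Measure T3)
  have h1 : measureUnivNNReal (volume : Measure T3) = 1 := by simp [measureUnivNNReal]
  rw [h1] at h
  refine (ContinuousLinearMap.le_opNorm _ _).trans (mul_le_of_le_one_left (norm_nonneg _) ?_)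
  simpa using h

theorem star_test (k : Z3) (c : ℂ) : star (test k c) = test k c := by
  rw [test, star_add, star_star, add_comm]

theorem integral_test {k : Z3} (hk : k ≠ 0) (c : ℂ) : ∫ x, test k c x = 0 := by
  have hi : ∀ l : Z3, ∀ c : ℂ, Integrable (fun x : T3 => c * UnitAddTorus.mFourier l x) := fun l c =>
    ((UnitAddTorus.mFourier l).continuous.integrable_of_hasCompactSupport
      (HasCompactSupport.of_compactSpace _)).const_mul c
  have e : ∀ x, test k c x = c * UnitAddTorus.mFourier k x +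
      (starRingEnd ℂ) c * UnitAddTorus.mFourier (-k) x := fun x => by
    simp [test, UnitAddTorus.mFourier_neg]
  simp only [e]
  rw [integral_add (hi _ _) (hi _ _), integral_const_mul, integral_const_mul, integral_mFourier hk,
    integral_mFourier (neg_ne_zero.2 hk)]
  simp

theorem nrm_test (k : Z3) {c : ℂ} (hc : ‖c‖ = 1) : nrm (test k c) ≤ 2 := by
  have h1 : nrm (c • UnitAddTorus.mFourier k) ≤ 1 := by
    rw [nrm_smul, hc, one_mul]
    exact (nrm_le _).trans UnitAddTorus.mFourier_norm.le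
  have := nrm_add_le (c • UnitAddTorus.mFourier k) (star (c • UnitAddTorus.mFourier k))
  rw [nrm_star] at this
  unfold test
  linarith

/-- the enumeration of the tests -/
noncomputable def tt (n : ℕ) : Z3 × Bool := (Encodable.decode (Nat.unpair n).1).getD default

open Classical in
/-- the test function of level `n` -/
noncomputable def FF (n : ℕ) : C(T3, ℂ) :=
  if (tt n).1 = 0 then 0 else test (tt n).1 (if (tt n).2 then 1 else Complex.I)

theorem FF_spec (n : ℕ) : star (FF n) = FF n ∧ ∫ x, FF n x = 0 ∧ nrm (FF n) ≤ 2 := by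
  unfold FF
  split_ifs with h h'
  · simp
  · exact ⟨star_test _ _, integral_test h _, nrm_test _ (by simp)⟩
  · exact ⟨star_test _ _, integral_test h _, nrm_test _ (by simp)⟩

open Classical in
theorem cycle (hP : PrepStmt) (hC : CapStmt) (n : ℕ)
    (p : {p : State × Finset C(UnitAddCircle, ℂ) // Ready n p.1 p.2}) :
    ∃ p' : {p : State × Finset C(UnitAddCircle, ℂ) // Ready (n + 1) p.1 p.2},
      p.1.2 ⊆ p'.1.2 ∧ Move n p.1.2 8 p.1.1 p'.1.1 ∧ ∃ φ ∈ p'.1.2,
        (∀ x, φ (-x) = (starRingEnd ℂ) (φ x)) ∧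
        nrm (FF n - (p'.1.1.Ψ φ + star (p'.1.1.Ψ φ))) ≤ 1000 / 2 ^ n := by
  obtain ⟨⟨S, Fam⟩, hX, R, e₀, ζ, hp, hm⟩ := p
  obtain ⟨f1, f2, f3⟩ := FF_spec n
  obtain ⟨S', hm', m1, ha⟩ := hP n Fam R e₀ ζ S (FF n) hp hm hX f1 f2
  obtain ⟨S'', φ, hr, m2, hs, hc⟩ := hC n Fam R e₀ ζ S' (FF n) hp hm' f3 ha
  obtain ⟨R', e', ζ', -, hm''⟩ := hr.2
  refine ⟨⟨(S'', insert φ Fam), hr⟩, Finset.subset_insert _ _, ?_, φ, Finset.mem_insert_self _ _,
    hs, hc⟩
  have := Move.trans hm.valid.toValid0 hm'.valid.toValid0 hm''.valid.toValid0 m1 m2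
  norm_num at this
  exact this

end Seq

open Crest.Agent.R81.Seq in
theorem seq (hP : PrepStmt) (hC : CapStmt) (hI : InitStmt) : SeqStmt := by
  obtain ⟨S0, h0⟩ := hI
  choose nx hsub hmove φ hφ hsym hcap using cycle hP hC
  let p : ∀ n : ℕ, {p : State × Finset C(UnitAddCircle, ℂ) // Ready n p.1 p.2} :=
    fun n => Nat.rec ⟨(S0, {1}), h0⟩ (fun n q => nx n q) n
  have hp : ∀ n, p (n + 1) = nx n (p n) := fun _ => rfl
  have hmono : Monotone fun n => (p n).1.2 := monotone_nat_of_le_succ fun n => hsub n (p n)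
  have hone : ∀ n, (1 : C(UnitAddCircle, ℂ)) ∈ (p n).1.2 := fun n =>
    hmono (Nat.zero_le n) (Finset.mem_singleton_self _)
  have hpos : ∀ n : ℕ, (0 : ℝ) < 2 ^ n := fun n => by positivity
  refine ⟨fun n => (p n).1.1, 1000, fun n => ?_, fun n => ?_, fun n => ?_, fun n => ?_,
    fun n l hl => ?_, fun k hk c hc δ hδ => ?_⟩
  · obtain ⟨R, e, ζ, -, hm⟩ := (p n).2.2
    exact hm.valid.toValid0
  · have h := (hmove n (p n)).1
    have : (8 : ℝ) / 2 ^ n ≤ 1000 / 2 ^ n := by gcongr; norm_num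
    exact ⟨h.1.mono this, h.2.mono this⟩
  · refine ((hmove n (p n)).2 1 (hone n)).trans ?_
    gcongr; norm_num
  · obtain ⟨R, e, ζ, hq, hm⟩ := (p n).2.2
    have h1 : √e ≤ 1 / 2 ^ n := (le_mul_of_one_le_left (Real.sqrt_nonneg _) hq.one_le).trans hq.Re
    have h2 : e ≤ √e := by
      rw [Real.le_sqrt hq.e_pos.le hq.e_pos.le]; nlinarith [hq.e_pos, hq.e_le]
    have h3 : (1000 : ℝ) / 2 ^ n = 1000 * (1 / 2 ^ n) := by ring
    have h4 := hm.gap_le
    have h5 := hq.e_pos
    rw [h3]; linarith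
  · obtain ⟨R, e, ζ, hq, hm⟩ := (p n).2.2
    refine (hm.valid.toValid0.wd_le hm.wd_le (hm.valid.sub hl)).trans (hq.ζ_le.trans ?_)
    gcongr; norm_num
  · obtain ⟨bb, hb⟩ : ∃ bb : Bool, c = if bb then 1 else Complex.I := by
      rcases hc with rfl | rfl
      exacts [⟨true, rfl⟩, ⟨false, rfl⟩]
    obtain ⟨m, hm⟩ : ∃ m : ℕ, 1300 / 2 ^ m ≤ δ := by
      obtain ⟨m, hm⟩ := pow_unbounded_of_one_lt (1300 / δ) (one_lt_two (α := ℝ))
      refine ⟨m, ?_⟩
      rw [div_le_iff₀ (hpos m), mul_comm, ← div_le_iff₀ hδ]; exact hm.le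
    set n0 := Nat.pair (Encodable.encode (k, bb)) m with hn0
    have ht : tt n0 = (k, bb) := by simp [tt, hn0]
    have hF : FF n0 = test k c := by simp [FF, ht, hk, hb]
    have hle : (1300 : ℝ) / 2 ^ n0 ≤ δ := by
      refine le_trans ?_ hm
      gcongr
      · norm_num
      · exact Nat.right_le_pair _ _
    refine ⟨φ n0 (p n0), hsym n0 (p n0), eventually_atTop.2 ⟨n0 + 1, fun n hn => ?_⟩⟩
    have key : ∀ n, n0 + 1 ≤ n → nrm (test k c - ((p n).1.1.Ψ (φ n0 (p n0)) +
        star ((p n).1.1.Ψ (φ n0 (p n0))))) ≤ 1000 / 2 ^ n0 + 240 / 2 ^ n0 - 480 / 2 ^ n := by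
      intro n hn
      induction n, hn using Nat.le_induction with
      | base =>
        have := hcap n0 (p n0)
        rw [hF] at this
        refine this.trans (le_of_eq ?_)
        rw [pow_succ]; field_simp; ring
      | succ n hn ih =>
        have h1 := (hmove n (p n)).2 _ (hmono hn (hφ n0 (p n0)))
        have h2 := nrm_two_re_le (test k c) ((p n).1.1.Ψ (φ n0 (p n0)))
          ((p (n + 1)).1.1.Ψ (φ n0 (p n0)))
        rw [nrm_sub_comm ((p n).1.1.Ψ _)] at h2
        rw [← hp] at h1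
        have h3 : (480 : ℝ) / 2 ^ (n + 1) = 480 / 2 ^ n - 2 * (15 * 8 / 2 ^ n) := by
          rw [pow_succ]; field_simp; ring
        linarith
    have h1 := key n hn
    have h2 : (0 : ℝ) ≤ 480 / 2 ^ n := by positivity
    have h3 : (1300 : ℝ) / 2 ^ n0 = 1000 / 2 ^ n0 + 240 / 2 ^ n0 + 60 / 2 ^ n0 := by ring
    have h4 : (0 : ℝ) ≤ 60 / 2 ^ n0 := by positivity
    linarith

end Crest.Agent.R81
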