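import Crest.Agent.R81.Defs

/-! Row 81: shears of the torus and their profiles. -/

set_option autoImplicit false

namespace Crest.Agent.R81

open Crest.AnalysisR.Torus3 MeasureTheory Filter Topology
open scoped ContDiff

namespace Shear

/-- A translation along a compact subgroup by an amount that is constant on its cosets preserves
an invariant measure. -/
theorem measurePreserving_add {G K : Type} [AddCommGroup G] [AddCommGroup K] [MeasurableSpace G]
    [MeasurableSpace K] [MeasurableAdd₂ G] [MeasurableAdd₂ K] (μ : Measure G) (ν : Measure K)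
    [SFinite μ] [IsProbabilityMeasure ν] [μ.IsAddRightInvariant] [ν.IsAddRightInvariant]
    (ι : K →+ G) (hι : Measurable ι) (c : G → K) (hc : Measurable c)
    (h : ∀ x k, c (x + ι k) = c x) : MeasurePreserving (fun x => x + ι (c x)) μ μ := by
  have h1 : MeasurePreserving (fun p : G × K => (p.1, p.2 + c p.1)) (μ.prod ν) (μ.prod ν) :=
    (MeasurePreserving.id μ).skew_product (g := fun x k => k + c x) (by fun_prop)
      (ae_of_all _ fun x => map_add_right_eq_self ν (c x))
  have h2 : MeasurePreserving (fun p : K × G => (p.1, p.2 + ι p.1)) (ν.prod μ) (ν.prod μ) :=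
    (MeasurePreserving.id ν).skew_product (g := fun k x => x + ι k) (by fun_prop)
      (ae_of_all _ fun k => map_add_right_eq_self μ (ι k))
  have h3 : MeasurePreserving (fun p : G × K => p.1 + ι p.2) (μ.prod ν) μ :=
    (measurePreserving_snd.comp h2).comp Measure.measurePreserving_swap
  have hm : Measurable fun x => x + ι (c x) := by fun_prop
  refine ⟨hm, ?_⟩
  conv_lhs => rw [← h3.map_eq, Measure.map_map hm h3.measurable]
  refine Eq.trans ?_ (h3.comp h1).map_eq
  congr 1
  ext p
  simp [h, add_assoc]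

/-- the linear form on the torus -/
noncomputable def lin (ℓ : Z3) : T3 →+ UnitAddCircle where
  toFun P := ∑ i, ℓ i • P i
  map_zero' := by simp
  map_add' P Q := by simp [Finset.sum_add_distrib]

theorem continuous_lin (ℓ : Z3) : Continuous (lin ℓ) :=
  show Continuous fun P : T3 => ∑ i, ℓ i • P i by fun_prop

theorem lin_proj (ℓ : Z3) (x : V) : lin ℓ (proj x) = ((rdot ℓ x : ℝ) : UnitAddCircle) := by
  simp only [lin, proj, rdot, AddMonoidHom.coe_mk, ZeroHom.coe_mk, Fin.sum_univ_three,
    AddCircle.coe_add, ← AddCircle.coe_zsmul, zsmul_eq_mul]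

theorem proj_add (x y : V) : proj (x + y) = proj x + proj y := rfl

theorem continuous_proj : Continuous proj :=
  continuous_pi fun i => (AddCircle.continuous_mk' 1).comp (continuous_apply i)

theorem rdot_smul (ℓ : Z3) (t : ℝ) (x : V) : rdot ℓ (t • x) = t * rdot ℓ x := by
  simp only [rdot, Pi.smul_apply, smul_eq_mul, Finset.mul_sum, mul_left_comm]

/-- periodisation of a function supported in the open unit interval -/
theorem smoothPer_fract {F : ℝ → ℝ} (hF : ContDiff ℝ ∞ F) {d : ℝ} (hd : 0 < d)
    (h : ∀ y, y ≤ d ∨ 1 - d ≤ y → F y = 0) : SmoothPer fun x => F (Int.fract x) := by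
  refine ⟨contDiff_iff_contDiffAt.2 fun x => ?_, fun x => by simp⟩
  refine (hF.comp (contDiff_id.sub
    (contDiff_const (c := (⌊x⌋ : ℝ))))).contDiffAt.congr_of_eventuallyEq ?_
  filter_upwards [Ioo_mem_nhds (a := ⌊x⌋ - min d 1) (b := ⌊x⌋ + 1)
    (by linarith [Int.floor_le x, lt_min hd one_pos]) (Int.lt_floor_add_one x)] with y hy
  have h1 := min_le_left d 1
  have h2 := min_le_right d 1
  rcases le_or_gt (⌊x⌋ : ℝ) y with h3 | h3
  · rw [Int.fract, Int.floor_eq_iff.2 ⟨h3, hy.2⟩]
    rfl
  · have h4 : ⌊y⌋ = ⌊x⌋ - 1 := Int.floor_eq_iff.2 ⟨by push_cast; linarith [hy.1], by simpa⟩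
    rw [Int.fract, h4, h _ (Or.inr (by push_cast; linarith [hy.1]))]
    exact (h _ (Or.inl (by simp only [id]; linarith))).symm

end Shear

open Shear

theorem shear : ShearStmt := by
  intro χ ℓ β hχ hp hβ
  let χ' : UnitAddCircle → ℝ := hp.lift
  have hχ' : Continuous χ' := (QuotientAddGroup.isQuotientMap_mk _).continuous_iff.2 hχ
  have hmem : ∀ t : ℝ, lin ℓ (proj (t • β)) = 0 := fun t => by
    rw [lin_proj, rdot_smul, hβ, mul_zero, AddCircle.coe_zero]
  have hc : Continuous fun P : T3 => χ' (lin ℓ P) • β :=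
    (hχ'.comp (continuous_lin ℓ)).smul continuous_const
  refine ⟨⟨⟨fun P => P + proj (χ' (lin ℓ P) • β), fun P => P + proj (-(χ' (lin ℓ P) • β)),
    fun P => ?_, fun P => ?_⟩, continuous_id.add (continuous_proj.comp hc),
    continuous_id.add (continuous_proj.comp hc.neg)⟩, ?_, fun x => ?_, fun x => ?_⟩
  · simp only [map_add, hmem, add_zero]
    rw [add_assoc, ← proj_add, add_neg_cancel]
    exact add_zero P
  · simp only [← neg_smul, map_add, hmem, add_zero]
    rw [add_assoc, ← proj_add, neg_smul, neg_add_cancel]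
    exact add_zero P
  · have hK : IsClosed ((lin ℓ).ker : Set T3) := isClosed_singleton.preimage (continuous_lin ℓ)
    have : CompactSpace (lin ℓ).ker := isCompact_iff_compactSpace.1 hK.isCompact
    have : IsProbabilityMeasure
        (Measure.addHaarMeasure (⊤ : TopologicalSpace.PositiveCompacts (lin ℓ).ker)) :=
      ⟨Measure.addHaarMeasure_self⟩
    exact measurePreserving_add volume
      (Measure.addHaarMeasure (⊤ : TopologicalSpace.PositiveCompacts (lin ℓ).ker))
      (lin ℓ).ker.subtype measurable_subtype_coe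
      (fun P => ⟨proj (χ' (lin ℓ P) • β), hmem _⟩)
      (continuous_proj.comp hc).measurable.subtype_mk fun x k => by
        have hk : lin ℓ k = 0 := k.2
        simp [hk]
  · change proj x + proj (χ' (lin ℓ (proj x)) • β) = _
    rw [lin_proj]
    rfl
  · change proj x + proj (-(χ' (lin ℓ (proj x)) • β)) = _
    rw [lin_proj, ← neg_smul]
    rfl

theorem profile : ProfileStmt := by
  intro e M0 t he he' hM
  let B : ContDiffBump (1 / 2 : ℝ) := ⟨1 / 2 - e, 1 / 2 - e / 2, by linarith, by linarith⟩
  have hB1 : ∀ y, e ≤ y → y ≤ 1 - e → B y = 1 := fun y h1 h2 =>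
    B.one_of_mem_closedBall (by
      rw [Metric.mem_closedBall, Real.dist_eq, abs_le]
      constructor <;> simp only [B] <;> linarith)
  have hB0 : ∀ y, y ≤ e / 2 ∨ 1 - e / 2 ≤ y → B y = 0 := fun y h =>
    B.zero_of_le_dist (by
      rw [Real.dist_eq, le_abs]
      simp only [B]
      rcases h with h | h
      · right; linarith
      · left; linarith)
  have hM' : (0 : ℝ) < M0 := by exact_mod_cast hM
  have hB : ContDiff ℝ ∞ B := B.contDiff
  refine ⟨_, _, smoothPer_fract (F := fun y => B y * ((y - 1 / 2) ^ 2 / 2)) (by fun_prop)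
    (half_pos he) fun y hy => by rw [hB0 y hy, zero_mul],
    smoothPer_fract (F := fun y => ∑ i ∈ Finset.range M0, t i * B (M0 * y - i)) (by fun_prop)
    (d := e / 2 / M0) (by positivity) fun y hy => ?_, fun y h1 h2 => ?_, fun i hi y h1 h2 => ?_⟩
  · refine Finset.sum_eq_zero fun i hi => ?_
    have h1 : (i : ℝ) + 1 ≤ M0 := by exact_mod_cast Finset.mem_range.1 hi
    have h2 : (0 : ℝ) ≤ i := Nat.cast_nonneg i
    rw [hB0, mul_zero]
    refine hy.imp (fun h => ?_) fun h => ?_
    · rw [le_div_iff₀' hM'] at h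
      linarith
    · rw [sub_le_comm, le_div_iff₀' hM'] at h
      linarith
  · rw [Int.fract_eq_self.2 ⟨by linarith, by linarith⟩, hB1 y h1 h2, one_mul]
  · have h3 : (i : ℝ) + 1 ≤ M0 := by exact_mod_cast hi
    have h4 : (0 : ℝ) ≤ i := Nat.cast_nonneg i
    rw [Int.fract_eq_self.2 ⟨div_nonneg (by linarith) hM'.le, (div_lt_one hM').2 (by linarith)⟩,
      mul_div_cancel₀ _ hM'.ne', Finset.sum_eq_single_of_mem i (Finset.mem_range.2 hi),
      add_sub_cancel_left, hB1 y h1 h2, mul_one]
    intro j _ hj
    rw [hB0, mul_zero]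
    rcases lt_or_gt_of_ne hj with h | h
    · have : (j : ℝ) + 1 ≤ i := by exact_mod_cast h
      right; linarith
    · have : (i : ℝ) + 1 ≤ j := by exact_mod_cast h
      left; linarith

end Crest.Agent.R81
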