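import Crest.Agent.R81.Basic

/-! Row 81: one step of the construction, and the initial state. -/

set_option autoImplicit false

namespace Crest.Agent.R81

open Crest.AnalysisR.Torus3 MeasureTheory Filter Topology
open Crest.Agent.R75 (ee)
open scoped ContDiff

namespace Step

lemma rdot_single_left (a : Fin 3) (z : ℤ) (x : V) : rdot (Pi.single a z) x = z * x a := by
  simp [rdot, Pi.single_apply]

lemma chi_continuous {φ ψ : ℝ → ℝ} (hφ : SmoothPer φ) (hψ : SmoothPer ψ) (b : ℝ) (M0 : ℕ)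
    (s : ℝ) : Continuous (chi b M0 φ ψ s) := by
  have h1 := hφ.smooth.continuous
  have h2 := hψ.smooth.continuous
  unfold chi
  fun_prop

lemma chi_periodic {φ ψ : ℝ → ℝ} (hφ : SmoothPer φ) (hψ : SmoothPer ψ) (b : ℝ) (M0 : ℕ)
    (s : ℝ) : Function.Periodic (chi b M0 φ ψ s) 1 := by
  intro x
  simp only [chi]
  rw [hψ.per x, mul_add, hφ.per.nat_mul M0]

lemma exists_anchor {S : State} (hw : RatVec S.w) (hM : 0 < S.d.M0) {p : ℝ → Prop}
    (h : ∀ᶠ s in 𝓝[>] (0 : ℝ), p s) : ∃ s, Anchor S s ∧ p s := by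
  obtain ⟨Dw, hDw, hz⟩ := hw
  choose z hz using hz
  have hM' : (0 : ℝ) < S.d.M0 := by exact_mod_cast hM
  have hD' : (0 : ℝ) < Dw := by exact_mod_cast hDw
  have h1 : Tendsto (fun k : ℕ => ((k : ℝ) + 1) * (S.d.M0 * Dw)) atTop atTop :=
    (tendsto_atTop_add_const_right _ 1 tendsto_natCast_atTop_atTop).atTop_mul_const
      (mul_pos hM' hD')
  obtain ⟨k, hk⟩ := ((tendsto_inv_atTop_nhdsGT_zero.comp h1).eventually h).exists
  have hk1 : (0 : ℝ) < (k : ℝ) + 1 := by positivity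
  refine ⟨_, ⟨fun i => ⟨(k + 1) * z i, ?_⟩, ⟨(k + 1) * Dw, ?_⟩⟩, hk⟩
  · simp only [Function.comp]
    push_cast
    rw [← hz i]
    field_simp
  · simp only [Function.comp]
    push_cast
    field_simp

lemma exists_next (hD : DesignStmt) (hP : ProfileStmt) {S : State} (hV : Valid S) {e' : ℝ}
    (he : 0 < e') (he' : e' ≤ 1 / 10) (W Nn : Finset Z3) (hN : ∀ l ∈ Nn, l ∈ S.X ∧ l ∉ S.O) :
    ∃ n : NextData, NextSpec S n ∧ n.d.e = e' ∧ (∀ l ∈ W, |idot l n.B| ≤ n.d.Amax) ∧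
      n.d.Vnew = Nn.image fun l => idot l n.B := by
  obtain ⟨D', hD', hB⟩ := hV.ratβ
  choose B' hB' using hB
  obtain ⟨Dw, hDw, hw⟩ := hV.ratw
  choose z hz using hw
  have hD'' : (0 : ℝ) < D' := by exact_mod_cast hD'
  have hBeq : ∀ i, (B' i : ℝ) = D' * S.β i := fun i => (hB' i).symm
  have hpos : ∀ l ∈ S.X, 1 ≤ idot l B' := by
    intro l hl
    have h1 := (abs_le.1 (hV.near1 l hl)).1
    have h2 : (1 : ℝ) ≤ (idot l S.B : ℤ) := by exact_mod_cast (hV.val l hl).1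
    have h3 := hV.spec.e_le
    have h4 : (0 : ℝ) < S.D := by exact_mod_cast hV.D_pos
    have h5 : 0 < rdot l S.β := pos_of_mul_pos_left (b := (S.D : ℝ)) (by linarith) h4.le
    have h6 : (0 : ℝ) < (idot l B' : ℤ) := by
      rw [idot_cast hBeq]
      exact mul_pos hD'' h5
    have h7 : 0 < idot l B' := by exact_mod_cast h6
    omega
  obtain ⟨A, hA⟩ := ((S.X ∪ W).image fun l => |idot l B'|).exists_le
  have hA' : ∀ l ∈ S.X ∪ W, |idot l B'| ≤ max 1 A := fun l hl =>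
    (hA _ (Finset.mem_image_of_mem _ hl)).trans (le_max_right _ _)
  have hAX : ∀ l ∈ S.X, idot l B' ≤ max 1 A := fun l hl =>
    (le_abs_self _).trans (hA' l (Finset.mem_union_left _ hl))
  obtain ⟨K, hK⟩ := (S.X.image fun l => |l S.a'| + idot l B').exists_le
  obtain ⟨d, hde, hdA, hdV, hspec, hsep⟩ := hD e' (max 1 A) (2 * K) (Nn.image fun l => idot l B')
    he he' (le_max_left _ _) fun a ha => by
      obtain ⟨l, hl, rfl⟩ := Finset.mem_image.1 ha
      exact ⟨hpos l (hN l hl).1, hAX l (hN l hl).1⟩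
  obtain ⟨φ, ψ, hprof⟩ := hP d.e d.M0 (fun i => D' * d.τ i) hspec.e_pos hspec.e_le hspec.M0_pos
  have ha : S.a ≠ S.a' ∧ S.a ≠ 2 ∧ S.a' ≠ 2 := by
    rcases hV.aa with ⟨h1, h2⟩ | ⟨h1, h2⟩ <;> rw [h1, h2] <;> decide
  refine ⟨⟨D' * Dw, Pi.single S.a' ((D' * Dw : ℕ) : ℤ) - Pi.single 2 (Dw * B' S.a'), D', B', d,
    φ, ψ⟩, ⟨Nat.mul_pos hD' hDw, ?_, ?_, ?_, ?_, hD', hBeq, hspec, hprof, ?_, ?_, ?_⟩, hde, ?_, hdV⟩
  · simp [Pi.single_eq_of_ne ha.2.2]
  · simp [Pi.single_eq_of_ne ha.1, Pi.single_eq_of_ne ha.2.1]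
  · simp only
    rw [rdot_sub_left, rdot_single_left, rdot_single_left, hV.β2]
    push_cast
    rw [hBeq]
    ring
  · refine ⟨D' * z S.a' - B' S.a' * z 2, ?_⟩
    simp only
    rw [rdot_sub_left, rdot_single_left, rdot_single_left]
    push_cast
    rw [← hz, ← hz]
    ring
  · intro l hl
    simp only
    rw [hdA]
    exact hAX l hl
  · intro l hl a' ha' hdvd
    simp only at ha' hdvd
    rw [hdV] at ha'
    obtain ⟨l', hl', rfl⟩ := Finset.mem_image.1 ha'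
    obtain ⟨m, hm⟩ := hdvd
    have h1 : rdot (l - m • l') S.β = 0 := by
      have h2 := idot_cast hBeq (l - m • l')
      rw [idot_sub_left, idot_smul_left, hm, mul_comm m, sub_self, Int.cast_zero] at h2
      exact (mul_eq_zero.1 h2.symm).resolve_left hD''.ne'
    have h2 := hV.gen l (hV.sub hl) l' (hN l' hl').1 m h1
    have h3 := hpos l (hV.sub hl)
    have h4 := hpos l' (hN l' hl').1
    have h5 : 0 < m := by
      rw [hm] at h3
      exact pos_of_mul_pos_right (a := idot l' B') (by omega) (by omega)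
    exact (hN l' hl').2 (hV.dO l hl m l' h5 h2)
  · intro l hl l' hl' hV' k hk k' hk'
    simp only at hV' hk hk' ⊢
    have h1 := hsep (idot l B') (hpos l hl) (hdA ▸ hAX l hl) _ hV' k hk k' hk'
    have h2 := hK _ (Finset.mem_image_of_mem _ hl)
    have h3 := hK _ (Finset.mem_image_of_mem _ hl')
    exact ⟨by linarith [h1.1], fun hne => by linarith [h1.2 hne]⟩
  · intro l hl
    simp only
    rw [hdA]
    exact hA' l (Finset.mem_union_right _ hl)

end Step

open Step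

theorem step (hC : CoreStmt) (hD : DesignStmt) (hP : ProfileStmt) (hS : ShearStmt) (hL : SLStmt)
    (hF : FreeStmt) : StepStmt := by
  intro S hV e' ζ ε ε' r r' W Nn he he' hζ hε' hN
  obtain ⟨n, hn, hne, hnW, hnV⟩ := exists_next hD hP hV he he' W Nn hN
  have hL0 : (S.L : ℝ) ≠ 0 := by exact_mod_cast hV.L_pos.ne'
  have hL1 : (n.L : ℝ) ≠ 0 := by exact_mod_cast hn.L_pos.ne'
  have e1 := hC S n hV hn
  have e2 := hL S.Hl S.Hi S.w S.β S.v ((n.L : ℝ)⁻¹ • Pi.single S.a' (1 : ℝ)) (Pi.single S.a (1 : ℝ))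
    S.ℓ n.ℓ S.b ((1 - S.d.e) * S.D) S.d.M0 n.d.M0 S.φ S.ψ n.φ n.ψ r' ε' hV.eHl hV.eHi hV.prof.hφ
    hV.prof.hψ hn.prof.hφ hn.prof.hψ hV.spec.M0_pos hn.spec.M0_pos hV.ℓβ hV.ℓw
    (by rw [State.v, rdot_smul_right, rdot_single, hV.ℓa]; simp [hL0])
    (by rw [rdot_smul_right, rdot_single, hV.ℓa']; simp) hn.ℓβ hn.ℓw
    (by rw [State.v, rdot_smul_right, rdot_single, hn.ℓa']; simp)
    (by rw [rdot_single, hn.ℓa']; simp)
    (by rw [rdot_smul_right, rdot_single, hn.ℓa]; simp [hL1]) hε'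
  have e3 : ∀ᶠ s in 𝓝[>] (0 : ℝ), S.Promise r ε → ∀ κ : ℝ, κ = 1 ∨ κ = -1 → Close r ε
      (fun x => S.Hl (sh (S.chi s) S.ℓ S.β (sh (-S.chi s) S.ℓ S.β (S.Hi x) + κ • (S.w + s • S.v))))
      (fun x => S.Hl (S.Hi x + κ • S.w)) := by
    by_cases h : S.Promise r ε
    · filter_upwards [h] with s hs _
      exact hs
    · exact Eventually.of_forall fun s h' => (h h').elim
  have e4 : ∀ᶠ s in 𝓝[>] (0 : ℝ), (1 - S.d.e) * S.D * s * n.d.Amax ≤ ζ * n.D := by
    have h1 : (0 : ℝ) < ζ * n.D := mul_pos hζ (by exact_mod_cast hn.D_pos)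
    have h2 : Continuous fun s : ℝ => (1 - S.d.e) * S.D * s * n.d.Amax := by fun_prop
    have h3 := (h2.tendsto 0).eventually_le_const (u := ζ * n.D) (by simpa using h1)
    exact h3.filter_mono nhdsWithin_le_nhds
  obtain ⟨s, hs, h1, h2, h3, h4⟩ :=
    exists_anchor hV.ratw hV.spec.M0_pos (e1.and (e2.and (e3.and e4)))
  have hc : Continuous (S.chi s) := chi_continuous hV.prof.hφ hV.prof.hψ _ _ _
  have hp : Function.Periodic (S.chi s) 1 := chi_periodic hV.prof.hφ hV.prof.hψ _ _ _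
  obtain ⟨h, hh⟩ := hS (S.chi s) S.ℓ S.β hc hp hV.ℓβ
  obtain ⟨O, X, γ, hpre, hout⟩ := h1 hs h hh
  exact ⟨S.next n s h O X γ, hpre, hout, rfl, rfl, rfl, hne, h4, hnW, hnV,
    hF S.H h (S.chi s) S.ℓ S.β hV.mp hc hp hV.ℓβ hV.ℓ_ne hh,
    fun hpr => ⟨h3 hpr 1 (Or.inl rfl), h3 hpr (-1) (Or.inr rfl)⟩, h2⟩

namespace Step

/-- the starting state -/
noncomputable def S0 (d : Design) (φ ψ : ℝ → ℝ) : State where
  H := Homeomorph.refl T3
  Hl := id
  Hi := id
  w := ![1 / 4, 0, 0]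
  β := ![1, 1, 1]
  a := 0
  a' := 1
  L := 4
  ℓ := ![4, 0, -4]
  b := 1 / 2
  D := 1
  B := ![1, 1, 1]
  d := d
  φ := φ
  ψ := ψ
  O := {![1, 0, 0]}
  X := {![1, 0, 0]}
  γ := fun _ => ((√(1 / 2) : ℝ) : ℂ)

lemma divClosed_one : DivClosed {![1, 0, 0]} := by
  intro l hl d μ hd h
  rw [Finset.mem_singleton] at hl ⊢
  have h0 : d * μ 0 = 1 := by
    have := congrFun (hl.symm.trans h) 0
    simpa using this.symm
  have h1 : d = 1 := Int.eq_one_of_mul_eq_one_right hd.le h0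
  rw [← hl, h, h1, one_smul]

lemma valid_S0 {d : Design} {φ ψ : ℝ → ℝ} (hA : d.Amax = 1) (hV : d.Vnew = ∅)
    (hspec : DesignSpec d) (hprof : Profile d.e d.M0 (fun i => ((1 : ℕ) : ℝ) * d.τ i) φ ψ) :
    Valid (S0 d φ ψ) := by
  have hid : Equivar id := ⟨contDiff_id, fun _ _ => rfl⟩
  have i1 : idot ![1, 0, 0] ![1, 1, 1] = 1 := by simp [idot, Fin.sum_univ_three]
  have r1 : rdot ![1, 0, 0] ![1, 1, 1] = 1 := by simp [rdot, Fin.sum_univ_three]
  have r2 : rdot ![1, 0, 0] ![1 / 4, 0, 0] = 1 / 4 := by simp [rdot, Fin.sum_univ_three]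
  have wd1 : (S0 d φ ψ).wd ![1, 0, 0] = 1 / 2 := by
    simp [State.wd, S0, i1]
  refine
    { mp := MeasurePreserving.id _
      eHl := hid
      eHi := hid
      lHl := fun _ => rfl
      lHi := fun _ => rfl
      aa := Or.inl ⟨rfl, rfl⟩
      β2 := by simp [S0]
      ratw := ⟨4, by norm_num, fun i => ?_⟩
      L_pos := by simp [S0]
      ℓa := by simp [S0]
      ℓa' := by simp [S0]
      ℓβ := by simp [S0, rdot, Fin.sum_univ_three]
      ℓB := by simp [S0, idot, Fin.sum_univ_three]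
      ℓw := ⟨1, by simp [S0, rdot, Fin.sum_univ_three]⟩
      b_pos := by simp [S0]
      D_pos := by simp [S0]
      bA := by simp [S0, hA]
      spec := hspec
      prof := hprof
      sub := Finset.Subset.refl _
      ne := Finset.singleton_nonempty _
      dO := divClosed_one
      dX := divClosed_one
      val := fun l hl => ?_
      γn := fun l hl => ?_
      sep := fun l hl l' hl' => ?_
      old := fun l _ a' ha' => ?_
      sepX := fun l _ l' _ ha' => ?_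
      ratβ := ⟨1, by norm_num, fun i => ⟨1, ?_⟩⟩
      near1 := fun l hl => ?_
      near2 := fun l hl i _ => ?_
      gen := fun l hl l' hl' m hm => ?_ }
  · fin_cases i
    · exact ⟨1, by simp [S0]⟩
    · exact ⟨0, by simp [S0]⟩
    · exact ⟨0, by simp [S0]⟩
  · obtain rfl : l = ![1, 0, 0] := Finset.mem_singleton.1 hl
    simp [S0, i1, hA]
  · obtain rfl : l = ![1, 0, 0] := Finset.mem_singleton.1 hl
    rw [wd1]
    change ‖((√(1 / 2) : ℝ) : ℂ)‖ ^ 2 = 1 / 2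
    rw [Complex.norm_real, Real.norm_eq_abs, sq_abs, Real.sq_sqrt (by norm_num)]
  · obtain rfl : l = ![1, 0, 0] := Finset.mem_singleton.1 hl
    obtain rfl : l' = ![1, 0, 0] := Finset.mem_singleton.1 hl'
    refine ⟨?_, fun h => (h rfl).elim⟩
    rw [wd1]
    change _ ≤ ‖((rdot ![1, 0, 0] ![1 / 4, 0, 0] : ℝ) : UnitAddCircle) +
      ((rdot ![1, 0, 0] ![1 / 4, 0, 0] : ℝ) : UnitAddCircle)‖
    rw [r2, ← AddCircle.coe_add, show (1 / 4 + 1 / 4 : ℝ) = 1 / 2 by norm_num,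
      AddCircle.norm_half_period_eq]
    norm_num
  · change a' ∈ d.Vnew at ha'
    simp [hV] at ha'
  · change _ ∈ d.Vnew at ha'
    simp [hV] at ha'
  · fin_cases i <;> simp [S0]
  · obtain rfl : l = ![1, 0, 0] := Finset.mem_singleton.1 hl
    have := hspec.e_pos
    simp only [S0, i1, r1]
    simp
    positivity
  · obtain rfl : l = ![1, 0, 0] := Finset.mem_singleton.1 hl
    simp only [S0, i1, r1]
    simpa using hspec.e_pos.le
  · obtain rfl : l = ![1, 0, 0] := Finset.mem_singleton.1 hl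
    obtain rfl : l' = ![1, 0, 0] := Finset.mem_singleton.1 hl'
    change rdot _ ![1, 1, 1] = 0 at hm
    rw [rdot_sub_left, rdot_smul_left, r1, mul_one, sub_eq_zero] at hm
    have h1 : m = 1 := by exact_mod_cast hm.symm
    rw [h1, one_smul]

end Step

theorem initState (hD : DesignStmt) (hP : ProfileStmt) (hS : StepStmt) (hU : UpdStmt) :
    InitStmt := by
  obtain ⟨d, hde, hdA, hdV, hspec, -⟩ := hD (1 / 10) 1 0 ∅ (by norm_num) le_rfl le_rfl (by simp)
  obtain ⟨φ, ψ, hprof⟩ := hP d.e d.M0 (fun i => ((1 : ℕ) : ℝ) * d.τ i) hspec.e_pos hspec.e_le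
    hspec.M0_pos
  have hV := valid_S0 hdA hdV hspec hprof
  obtain ⟨P, hpre, hout, -, -, -, hPe, hPb, -, -, -, -, hpr⟩ :=
    hS _ hV (1 / 10) 1 1 (1 / 2 ^ 0) 0 0 ∅ ∅ (by norm_num) le_rfl one_pos (by norm_num) (by simp)
  obtain ⟨η, hη, hpr'⟩ := exists_upd hU hpre (hpr.filter_mono nhdsWithin_le_nhds)
  refine ⟨P.upd η, ?_, 1, 1 / 10, 1, ?_, hη, hpr', hPe.le, ?_, hPb⟩
  · refine Finset.Subset.antisymm (fun ν hν => ?_) hpre.sub
    by_contra h
    obtain ⟨l, hl, hl', -⟩ := hout.parN ν hν h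
    exact hl' hl
  · refine ⟨by norm_num, le_rfl, one_pos, by norm_num, le_rfl, ?_, ?_, ?_⟩
    · rw [one_mul, pow_zero, div_one (1 : ℝ), Real.sqrt_le_left zero_le_one]
      norm_num
    · intro f hf x
      rw [Finset.mem_singleton.1 hf]
      simp
    · intro f hf x y _
      rw [Finset.mem_singleton.1 hf]
      simp
  · have h1 : P.gap ≤ 7 * d.e := hout.gap
    rw [hde] at h1
    exact h1

end Crest.Agent.R81
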