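import Crest.Agent.R81.Defs

/-!
Row 81: orthogonality, transfer and density of modes on the torus.
-/

set_option autoImplicit false

namespace Crest.Agent.R81

open Crest.AnalysisR.Torus3 MeasureTheory Filter Topology
open Crest.Agent.R75
open scoped ComplexConjugate

namespace Torus

instance probCircle : IsProbabilityMeasure (volume : Measure UnitAddCircle) :=
  ⟨UnitAddCircle.measure_univ⟩

instance probT3 : IsProbabilityMeasure (volume : Measure T3) :=
  inferInstanceAs (IsProbabilityMeasure (Measure.pi fun _ : Fin 3 => (volume : Measure UnitAddCircle)))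

instance haarT3 : Measure.IsAddHaarMeasure (volume : Measure T3) :=
  inferInstanceAs
    (Measure.IsAddHaarMeasure (Measure.pi fun _ : Fin 3 => (volume : Measure UnitAddCircle)))

/-- the class in `L²` -/
noncomputable abbrev L2 (f : C(T3, ℂ)) : Lp ℂ 2 (volume : Measure T3) :=
  ContinuousMap.toLp (E := ℂ) 2 (volume : Measure T3) ℂ f

lemma nrm_nonneg (f : C(T3, ℂ)) : 0 ≤ nrm f := norm_nonneg _

lemma nrm_sq (f : C(T3, ℂ)) : nrm f ^ 2 = ∫ x, ‖f x‖ ^ 2 := by
  have h := ContinuousMap.inner_toLp (𝕜 := ℂ) (volume : Measure T3) f f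
  rw [inner_self_eq_norm_sq_to_K] at h
  simp only [Complex.mul_conj, Complex.normSq_eq_norm_sq] at h
  rw [integral_complex_ofReal] at h
  unfold nrm
  apply Complex.ofReal_injective
  rw [← h]
  push_cast
  rfl

lemma nrm_congr {f g : C(T3, ℂ)} (h : ∫ x, ‖f x‖ ^ 2 = ∫ x, ‖g x‖ ^ 2) : nrm f = nrm g := by
  rw [← nrm_sq, ← nrm_sq] at h
  exact (pow_left_inj₀ (nrm_nonneg f) (nrm_nonneg g) two_ne_zero).1 h

lemma nrm_star (f : C(T3, ℂ)) : nrm (star f) = nrm f := nrm_congr (by simp)

lemma nrm_add_le (f g : C(T3, ℂ)) : nrm (f + g) ≤ nrm f + nrm g := by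
  unfold nrm; rw [map_add]; exact norm_add_le _ _

lemma nrm_smul (a : ℂ) (f : C(T3, ℂ)) : nrm (a • f) = ‖a‖ * nrm f := by
  unfold nrm; rw [map_smul, norm_smul]

lemma nrm_sum_le {ι : Type} (s : Finset ι) (u : ι → C(T3, ℂ)) :
    nrm (∑ i ∈ s, u i) ≤ ∑ i ∈ s, nrm (u i) := by
  unfold nrm; rw [map_sum]; exact norm_sum_le _ _

lemma nrm_le_norm (f : C(T3, ℂ)) : nrm f ≤ ‖f‖ := by
  refine (pow_le_pow_iff_left₀ (nrm_nonneg f) (norm_nonneg f) two_ne_zero).1 ?_
  rw [nrm_sq]
  have h := integral_mono_of_nonneg (μ := (volume : Measure T3)) (f := fun x => ‖f x‖ ^ 2)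
    (g := fun _ => ‖f‖ ^ 2) (Eventually.of_forall fun x => by positivity) (integrable_const _)
    (Eventually.of_forall fun x => pow_le_pow_left₀ (norm_nonneg _) (f.norm_coe_le_norm x) 2)
  simpa using h

lemma integral_comp {E : Type} [NormedAddCommGroup E] [NormedSpace ℝ E] (K : T3 ≃ₜ T3)
    (hK : MeasurePreserving K (volume : Measure T3) volume) (g : T3 → E) :
    ∫ x, g (K x) = ∫ x, g x :=
  hK.integral_comp K.measurableEmbedding g

lemma nrm_comp (K : T3 ≃ₜ T3) (hK : MeasurePreserving K (volume : Measure T3) volume)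
    (f : C(T3, ℂ)) : nrm (f.comp (K : C(T3, T3))) = nrm f :=
  nrm_congr (integral_comp K hK fun x => ‖f x‖ ^ 2)

lemma nrm_sum_sq {ι : Type} (s : Finset ι) (u : ι → C(T3, ℂ))
    (h : ∀ i ∈ s, ∀ j ∈ s, i ≠ j → ∫ x, u j x * conj (u i x) = 0) :
    nrm (∑ i ∈ s, u i) ^ 2 = ∑ i ∈ s, nrm (u i) ^ 2 := by
  classical
  induction s using Finset.induction_on with
  | empty => simp [nrm]
  | insert a s ha ih =>
    rw [Finset.sum_insert ha, Finset.sum_insert ha, ← ih fun i hi j hj =>
      h i (Finset.mem_insert_of_mem hi) j (Finset.mem_insert_of_mem hj)]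
    unfold nrm
    rw [map_add, sq, sq, sq]
    refine norm_add_sq_eq_norm_sq_add_norm_sq_of_inner_eq_zero (𝕜 := ℂ) _ _ ?_
    rw [map_sum, inner_sum]
    refine Finset.sum_eq_zero fun j hj => ?_
    rw [ContinuousMap.inner_toLp]
    exact h a (Finset.mem_insert_self _ _) j (Finset.mem_insert_of_mem hj)
      fun e => ha (e ▸ hj)

lemma proj_add (x y : V) : proj (x + y) = proj x + proj y := by
  funext i; simp [proj]

lemma proj_surj (P : T3) : ∃ x, proj x = P := by
  choose x hx using fun i => QuotientAddGroup.mk_surjective (P i)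
  exact ⟨x, funext hx⟩

lemma fourier_coe (n : ℤ) (x : ℝ) : fourier n (x : UnitAddCircle) = ee (n * x) := by
  rw [fourier_coe_apply, ee]; congr 1; push_cast; ring

lemma ee_sum {ι : Type} (s : Finset ι) (a : ι → ℝ) : ee (∑ i ∈ s, a i) = ∏ i ∈ s, ee (a i) := by
  classical
  induction s using Finset.induction_on with
  | empty => simp
  | insert i s hi ih => rw [Finset.sum_insert hi, Finset.prod_insert hi, ee_add, ih]

lemma mF_proj (l : Z3) (x : V) : UnitAddTorus.mFourier l (proj x) = ee (rdot l x) := by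
  simp only [UnitAddTorus.mFourier, ContinuousMap.coe_mk, proj, fourier_coe, rdot, ee_sum]

lemma rdot_add (l : Z3) (x y : V) : rdot l (x + y) = rdot l x + rdot l y := by
  simp [rdot, mul_add, Finset.sum_add_distrib]

lemma rdot_smul (l : Z3) (t : ℝ) (y : V) : rdot l (t • y) = t * rdot l y := by
  simp only [rdot, Pi.smul_apply, smul_eq_mul, Finset.mul_sum]
  exact Finset.sum_congr rfl fun i _ => by ring

lemma rdot_add_zsmul (l ℓ : Z3) (n : ℤ) (x : V) :
    rdot (l + n • ℓ) x = rdot l x + n * rdot ℓ x := by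
  simp only [rdot, Pi.add_apply, Pi.smul_apply, smul_eq_mul, Finset.mul_sum,
    ← Finset.sum_add_distrib]
  exact Finset.sum_congr rfl fun i _ => by push_cast; ring

/-- `u` is an eigenfunction of the flow in the direction `y`, of frequency `a` -/
def Eig (u : T3 → ℂ) (y : V) (a : ℝ) : Prop :=
  ∀ (t : ℝ) (x : V), u (proj (x + t • y)) = ee (t * a) * u (proj x)

lemma Eig.integral {u : T3 → ℂ} {y : V} {a : ℝ} (h : Eig u y a) (ha : a ≠ 0) : ∫ x, u x = 0 := by
  have h1 := integral_add_right_eq_self (μ := (volume : Measure T3)) u (proj ((1 / (2 * a)) • y))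
  have h2 : ∀ P, u (P + proj ((1 / (2 * a)) • y)) = -u P := fun P => by
    obtain ⟨x, rfl⟩ := proj_surj P
    rw [← proj_add, h, show 1 / (2 * a) * a = 1 / 2 by field_simp, ee_half, neg_one_mul]
  simp only [h2, integral_neg] at h1
  exact CharZero.neg_eq_self_iff.1 h1

lemma Eig.inner {u v : T3 → ℂ} {y : V} {a b : ℝ} (hu : Eig u y a) (hv : Eig v y b) (hab : a ≠ b) :
    ∫ x, v x * conj (u x) = 0 := by
  refine Eig.integral (y := y) (a := b - a) (fun t x => ?_) (sub_ne_zero.2 hab.symm)
  rw [hu, hv, map_mul, conj_ee, show t * (b - a) = t * b + -(t * a) by ring, ee_add]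
  ring

lemma Eig.smul {u : C(T3, ℂ)} {y : V} {a : ℝ} (h : Eig u y a) (c : ℂ) : Eig (c • u :) y a :=
  fun t x => by
    simp only [ContinuousMap.smul_apply, smul_eq_mul, h t x]
    ring

lemma eig_mF (l : Z3) (y : V) : Eig (UnitAddTorus.mFourier l) y (rdot l y) := fun t x => by
  rw [mF_proj, mF_proj, rdot_add, rdot_smul, ee_add, mul_comm]

lemma rdot_single (l : Z3) (i : Fin 3) : rdot l (Pi.single i 1) = l i := by
  simp [rdot, Pi.single_apply]

lemma integral_mF {l : Z3} (hl : l ≠ 0) : ∫ x : T3, UnitAddTorus.mFourier l x = 0 := by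
  obtain ⟨i, hi⟩ := Function.ne_iff.1 hl
  refine (eig_mF l (Pi.single i 1)).integral ?_
  rw [rdot_single]
  exact_mod_cast hi

lemma norm_mF (l : Z3) (P : T3) : ‖UnitAddTorus.mFourier l P‖ = 1 := by
  obtain ⟨x, rfl⟩ := proj_surj P
  rw [mF_proj, norm_ee]

lemma nrm_mF (l : Z3) : nrm (UnitAddTorus.mFourier l) ^ 2 = 1 := by
  simp [nrm_sq, norm_mF]

lemma mode_apply (H : T3 ≃ₜ T3) (l : Z3) (P : T3) :
    mode H l (H P) = UnitAddTorus.mFourier l P := by
  simp [mode]

lemma comb_comp (H : T3 ≃ₜ T3) (Y : Finset Z3) (f : Z3 → ℂ) :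
    (comb H Y f).comp (H : C(T3, T3)) = ∑ l ∈ Y, f l • UnitAddTorus.mFourier l := by
  ext P
  simp [comb, mode]

lemma star_mode (H : T3 ≃ₜ T3) (l : Z3) : star (mode H l) = mode H (-l) := by
  ext P
  simp [mode, UnitAddTorus.mFourier_neg]

lemma star_comb (H : T3 ≃ₜ T3) (Y : Finset Z3) (f : Z3 → ℂ) :
    star (comb H Y f) = comb H (Y.image Neg.neg) fun l => conj (f (-l)) := by
  unfold comb
  rw [Finset.sum_image fun _ _ _ _ h => neg_injective h, star_sum]
  refine Finset.sum_congr rfl fun l _ => ?_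
  simp only [star_smul, star_mode, neg_neg]
  rfl

/-- the character `P ↦ ℓ · P` with values in the circle -/
def chr (ℓ : Z3) : T3 →+ UnitAddCircle where
  toFun P := ∑ j, ℓ j • P j
  map_zero' := by simp
  map_add' P Q := by simp [Finset.sum_add_distrib]

lemma chr_proj (ℓ : Z3) (x : V) : chr ℓ (proj x) = ((rdot ℓ x : ℝ) : UnitAddCircle) := by
  change ∑ j, ℓ j • ((x j : ℝ) : UnitAddCircle) = _
  simp only [rdot, ← zsmul_eq_mul, ← AddCircle.coe_zsmul]
  exact (map_sum (QuotientAddGroup.mk' (AddSubgroup.zmultiples (1 : ℝ))) _ _).symm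

lemma chr_mp {ℓ : Z3} (hℓ : ℓ ≠ 0) :
    MeasurePreserving (chr ℓ) (volume : Measure T3) (volume : Measure UnitAddCircle) := by
  refine AddMonoidHom.measurePreserving ?_ (fun z => ?_) (by simp)
  · change Continuous fun P : T3 => ∑ j, ℓ j • P j
    fun_prop
  · obtain ⟨i, hi⟩ := Function.ne_iff.1 hℓ
    obtain ⟨s, rfl⟩ := QuotientAddGroup.mk_surjective z
    have hi' : (ℓ i : ℝ) ≠ 0 := by exact_mod_cast hi
    refine ⟨proj ((s / ℓ i) • Pi.single i 1), ?_⟩
    rw [chr_proj, rdot_smul, rdot_single, div_mul_cancel₀ _ hi']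

lemma continuous_lift {E : Type} [TopologicalSpace E] {G : ℝ → E} (hG : Continuous G)
    (hp : Function.Periodic G 1) : Continuous fun z : UnitAddCircle => hp.lift z :=
  continuous_coinduced_dom.2 hG

lemma integral_chr {ℓ : Z3} (hℓ : ℓ ≠ 0) {G : ℝ → ℝ} (hG : Continuous G)
    (hp : Function.Periodic G 1) {w : T3 → ℝ} (hw : ∀ x, w (proj x) = G (rdot ℓ x)) :
    ∫ P, w P = ∫ x in (0 : ℝ)..1, G x := by
  have e : ∀ P, w P = hp.lift (chr ℓ P) := fun P => by
    obtain ⟨x, rfl⟩ := proj_surj P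
    rw [hw, chr_proj]
    rfl
  have h1 := integral_map (μ := (volume : Measure T3)) (chr_mp hℓ).measurable.aemeasurable
    (f := fun z : UnitAddCircle => hp.lift z) (continuous_lift hG hp).aestronglyMeasurable
  rw [(chr_mp hℓ).map_eq, ← UnitAddCircle.intervalIntegral_preimage 0, zero_add] at h1
  simp only [e]
  exact h1.symm

lemma exists_trig {g : ℝ → ℂ} (hg : Continuous g) (hp : Function.Periodic g 1) {ε : ℝ}
    (hε : 0 < ε) : ∃ (S : Finset ℤ) (c : ℤ → ℂ), ∀ x : ℝ, ‖g x - ∑ n ∈ S, c n * ee (n * x)‖ ≤ ε := by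
  let φ : C(UnitAddCircle, ℂ) := ⟨fun z => hp.lift z, continuous_lift hg hp⟩
  have h1 : φ ∈ closure (Submodule.span ℂ (Set.range (@fourier 1)) : Set C(UnitAddCircle, ℂ)) := by
    rw [← Submodule.topologicalClosure_coe, span_fourier_closure_eq_top]
    trivial
  obtain ⟨ψ, hψ, hd⟩ := Metric.mem_closure_iff.1 h1 ε hε
  obtain ⟨c, rfl⟩ := Finsupp.mem_span_range_iff_exists_finsupp.1 hψ
  refine ⟨c.support, c, fun x => ?_⟩
  have h2 := (ContinuousMap.dist_apply_le_dist (f := φ) (g := c.sum fun i a => a • fourier i)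
    (x : UnitAddCircle)).trans hd.le
  rw [dist_eq_norm] at h2
  simp only [Finsupp.sum, ContinuousMap.coe_sum, Finset.sum_apply, ContinuousMap.smul_apply,
    smul_eq_mul, fourier_coe] at h2
  exact h2

/-- The equation lemmas of the definitions above, generated once here. -/
theorem anchor : True := by
  have := @Eig.eq_1
  have := @chr.eq_1
  trivial

end Torus

open Torus

theorem orth : OrthStmt := by
  intro H hH Y f
  rw [← nrm_comp H hH, comb_comp, nrm_sum_sq]
  · refine Finset.sum_congr rfl fun l _ => ?_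
    rw [nrm_smul, mul_pow, nrm_mF, mul_one]
  · intro l _ l' _ hne
    obtain ⟨i, hi⟩ := Function.ne_iff.1 hne
    refine ((eig_mF l (Pi.single i 1)).smul (f l)).inner ((eig_mF l' (Pi.single i 1)).smul (f l')) ?_
    rw [rdot_single, rdot_single]
    exact_mod_cast hi

theorem orthStar : OrthStarStmt := by
  classical
  intro H hH Y f hY
  have hd : Disjoint Y (Y.image Neg.neg) := by
    rw [Finset.disjoint_left]
    intro l hl hl'
    obtain ⟨k, hk, rfl⟩ := Finset.mem_image.1 hl'
    exact hY k hk hl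
  have e : comb H Y f + star (comb H Y f) =
      comb H (Y ∪ Y.image Neg.neg) fun l => if l ∈ Y then f l else conj (f (-l)) := by
    rw [star_comb]
    unfold comb
    rw [Finset.sum_union hd]
    congr 1
    · exact Finset.sum_congr rfl fun l hl => by simp only [if_pos hl]
    · exact Finset.sum_congr rfl fun l hl => by simp only [if_neg (Finset.disjoint_right.1 hd hl)]
  rw [e, orth H hH, Finset.sum_union hd, Finset.sum_image fun _ _ _ _ h => neg_injective h, two_mul]
  congr 1
  · exact Finset.sum_congr rfl fun l hl => by rw [if_pos hl]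
  · exact Finset.sum_congr rfl fun l hl => by rw [if_neg (hY l hl), neg_neg, Complex.norm_conj]

theorem trans : TransStmt := by
  intro H h χ ℓ β hH hχ hp hβ hℓ hs X S c δ hX hδ f
  let u : Z3 → C(T3, ℂ) := fun l => (UnitAddTorus.mFourier l).comp (h : C(T3, T3)) -
    ∑ n ∈ S l, c l n • UnitAddTorus.mFourier (l + n • ℓ)
  have hu : ∀ l x, u l (proj x) = ee (rdot l x) *
      (ee (rdot l β * χ (rdot ℓ x)) - ∑ n ∈ S l, c l n * ee (n * rdot ℓ x)) := by
    intro l x
    simp only [u, ContinuousMap.sub_apply, ContinuousMap.comp_apply, ContinuousMap.coe_sum,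
      Finset.sum_apply, ContinuousMap.smul_apply, smul_eq_mul, mF_proj, rdot_add_zsmul, ee_add,
      ContinuousMap.coe_coe, hs.lift, sh, rdot_add, rdot_smul, mul_sub, Finset.mul_sum]
    rw [mul_comm (χ _)]
    congr 1
    exact Finset.sum_congr rfl fun n _ => by ring
  have he : ∀ l, Eig (u l) β (rdot l β) := fun l t x => by
    rw [hu, hu, rdot_add, rdot_add, rdot_smul, rdot_smul, hβ, mul_zero, add_zero, ee_add]
    ring
  have hK : MeasurePreserving (h.trans H) (volume : Measure T3) volume := hH.comp hs.mp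
  have e : (comb H X f - ∑ l ∈ X, ∑ n ∈ S l, (f l * c l n) • mode (h.trans H) (l + n • ℓ)).comp
      (h.trans H : C(T3, T3)) = ∑ l ∈ X, f l • u l := by
    ext P
    simp only [u, comb, mode, ContinuousMap.sub_apply, ContinuousMap.comp_apply,
      ContinuousMap.coe_sum, Finset.sum_apply, ContinuousMap.smul_apply, smul_eq_mul,
      ContinuousMap.coe_coe, Homeomorph.symm_apply_apply, mul_sub, Finset.mul_sum,
      Finset.sum_sub_distrib, mul_assoc]
    simp
  rw [← nrm_comp _ hK, e, nrm_sum_sq, Finset.mul_sum]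
  · refine Finset.sum_le_sum fun l hl => ?_
    rw [nrm_smul, mul_pow, mul_comm δ, nrm_sq]
    refine mul_le_mul_of_nonneg_left (le_of_eq_of_le ?_ (hδ l hl)) (by positivity)
    refine integral_chr hℓ (by fun_prop) (fun x => ?_) fun x => ?_
    · simp only [hp x, mul_add, mul_one, ee_add_int]
    · rw [hu, norm_mul, norm_ee, one_mul]
  · intro l hl l' hl' hne
    exact ((he l).smul (f l)).inner ((he l').smul (f l')) fun e => hne (hX l hl l' hl' e)

theorem dens : DensStmt := by
  classical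
  intro H hH F hF hF0 δ hδ
  have h1 : F.comp (H : C(T3, T3)) ∈ closure (Submodule.span ℂ
      (Set.range (UnitAddTorus.mFourier (d := Fin 3))) : Set C(T3, ℂ)) := by
    rw [← Submodule.topologicalClosure_coe, UnitAddTorus.span_mFourier_closure_eq_top]
    trivial
  obtain ⟨ψ, hψ, hd⟩ := Metric.mem_closure_iff.1 h1 (δ / 2) (by positivity)
  obtain ⟨c, rfl⟩ := Finsupp.mem_span_range_iff_exists_finsupp.1 hψ
  rw [dist_eq_norm] at hd
  set p : C(T3, ℂ) := ∑ l ∈ c.support.erase 0, c l • UnitAddTorus.mFourier l with hp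
  have e : (c.sum fun i a => a • UnitAddTorus.mFourier i) = p + c 0 • (1 : C(T3, ℂ)) := by
    unfold Finsupp.sum
    by_cases h0 : (0 : Z3) ∈ c.support
    · rw [← Finset.sum_erase_add _ _ h0]
      simp only [UnitAddTorus.mFourier_zero, hp]
    · rw [hp, Finset.erase_eq_of_notMem h0, Finsupp.notMem_support_iff.1 h0]
      ext x
      simp
  rw [e] at hd
  have hint : ∀ g : C(T3, ℂ), Integrable g (volume : Measure T3) := fun g =>
    g.continuous.integrable_of_hasCompactSupport (HasCompactSupport.of_compactSpace _)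
  have hp0 : ∫ x, p x = 0 := by
    simp only [hp, ContinuousMap.coe_sum, Finset.sum_apply]
    rw [integral_finsetSum _ fun l _ => hint _]
    refine Finset.sum_eq_zero fun l hl => ?_
    simp only [ContinuousMap.smul_apply, integral_smul, integral_mF (Finset.ne_of_mem_erase hl),
      smul_zero]
  have hq0 : ∫ x, (F.comp (H : C(T3, T3)) - p) x = 0 := by
    simp only [ContinuousMap.sub_apply]
    rw [integral_sub (hint _) (hint _), hp0, sub_zero]
    exact (integral_comp H hH F).trans hF0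
  have h2 : nrm (F.comp (H : C(T3, T3)) - p) < δ := by
    have h3 := nrm_sum_sq (Finset.univ : Finset Bool)
      (fun b => if b then F.comp (H : C(T3, T3)) - p else (-c 0) • (1 : C(T3, ℂ))) (by
        intro i _ j _ hij
        cases i <;> cases j
        · exact absurd rfl hij
        · simp only [if_true, Bool.false_eq_true, if_false, ContinuousMap.smul_apply,
            ContinuousMap.one_apply]
          rw [integral_mul_const, hq0, zero_mul]
        · simp only [if_true, Bool.false_eq_true, if_false, ContinuousMap.smul_apply,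
            ContinuousMap.one_apply]
          rw [integral_const_mul, integral_conj, hq0]
          simp
        · exact absurd rfl hij)
    simp only [Fintype.sum_bool, if_true, Bool.false_eq_true, if_false] at h3
    have h4 := nrm_le_norm (F.comp (H : C(T3, T3)) - (p + c 0 • (1 : C(T3, ℂ))))
    rw [show F.comp (H : C(T3, T3)) - p + (-c 0) • (1 : C(T3, ℂ)) =
      F.comp (H : C(T3, T3)) - (p + c 0 • (1 : C(T3, ℂ))) by ext x; simp; ring] at h3
    have h5 := nrm_nonneg (F.comp (H : C(T3, T3)) - (p + c 0 • (1 : C(T3, ℂ))))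
    have h6 := nrm_nonneg (F.comp (H : C(T3, T3)) - p)
    have h7 := sq_nonneg (nrm ((-c 0) • (1 : C(T3, ℂ))))
    nlinarith
  refine ⟨c.support.erase 0, Finset.notMem_erase _ _, fun l => (1 / 2 : ℂ) * c l, ?_⟩
  have h8 : nrm (F - comb H (c.support.erase 0) c) < δ := by
    rwa [← nrm_comp H hH, ContinuousMap.sub_comp, comb_comp]
  have e2 : comb H (c.support.erase 0) (fun l => (1 / 2 : ℂ) * c l) =
      (1 / 2 : ℂ) • comb H (c.support.erase 0) c := by
    simp only [comb, Finset.smul_sum, smul_smul]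
  have e3 : F - ((1 / 2 : ℂ) • comb H (c.support.erase 0) c +
      star ((1 / 2 : ℂ) • comb H (c.support.erase 0) c)) =
      (1 / 2 : ℂ) • (F - comb H (c.support.erase 0) c) +
        (1 / 2 : ℂ) • star (F - comb H (c.support.erase 0) c) := by
    rw [star_sub, hF, star_smul, show star (1 / 2 : ℂ) = 1 / 2 by simp]
    module
  rw [e2, e3]
  refine lt_of_le_of_lt (nrm_add_le _ _) ?_
  rw [nrm_smul, nrm_smul, nrm_star, show ‖(1 / 2 : ℂ)‖ = 1 / 2 by simp]
  linarith

theorem free : FreeStmt := by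
  classical
  intro H h χ ℓ β hH hχ hp hβ hℓ hs F W δ hW ⟨f, hf⟩
  set η := δ - nrm (F - (comb H W f + star (comb H W f))) with hη
  have hη0 : 0 < η := sub_pos.2 hf
  have hA : 0 ≤ ∑ l ∈ W, ‖f l‖ := by positivity
  set ε := η / (2 * ∑ l ∈ W, ‖f l‖ + 1) with hε
  have hε0 : 0 < ε := by positivity
  have key : ∀ l : Z3, ∃ (S : Finset ℤ) (c : ℤ → ℂ), (rdot l β = 0 → S = {0}) ∧
      ∀ x : ℝ, ‖ee (rdot l β * χ x) - ∑ n ∈ S, c n * ee (n * x)‖ ≤ ε := by
    intro l
    by_cases h0 : rdot l β = 0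
    · exact ⟨{0}, fun _ => 1, fun _ => rfl, fun x => by simp [h0, hε0.le]⟩
    · obtain ⟨S, c, hc⟩ := exists_trig (g := fun x => ee (rdot l β * χ x)) (by fun_prop)
        (fun x => by simp only [hp x]) hε0
      exact ⟨S, c, fun e => absurd e h0, hc⟩
  choose S c hS hc using key
  let r : Z3 → C(T3, ℂ) := fun l => ∑ n ∈ S l, (f l * c l n) • mode (h.trans H) (l + n • ℓ)
  have hr : ∀ l, nrm (f l • mode H l - r l) ≤ ε * ‖f l‖ := by
    intro l
    have h1 := trans H h χ ℓ β hH hχ hp hβ hℓ hs {l} S c (ε ^ 2) (by simp) (fun l' _ => by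
      have h2 := intervalIntegral.integral_mono_on (μ := volume) (a := (0 : ℝ)) (b := 1)
        (f := fun x => ‖ee (rdot l' β * χ x) - ∑ n ∈ S l', c l' n * ee (n * x)‖ ^ 2)
        (g := fun _ => ε ^ 2) zero_le_one (Continuous.intervalIntegrable (by fun_prop) _ _)
        (Continuous.intervalIntegrable (by fun_prop) _ _)
        fun x _ => pow_le_pow_left₀ (norm_nonneg _) (hc l' x) 2
      simpa using h2) f
    simp only [comb, Finset.sum_singleton] at h1
    refine (pow_le_pow_iff_left₀ (nrm_nonneg _) (by positivity) two_ne_zero).1 ?_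
    rw [mul_pow]
    exact h1
  let W' : Finset Z3 := (W.sigma S).image fun q => q.1 + q.2 • ℓ
  let f' : Z3 → ℂ := fun ν => ∑ q ∈ (W.sigma S).filter fun q => q.1 + q.2 • ℓ = ν, f q.1 * c q.1 q.2
  have e : comb (h.trans H) W' f' = ∑ l ∈ W, r l := by
    simp only [comb, r, f']
    rw [Finset.sum_sigma' W S, ← Finset.sum_fiberwise_of_maps_to (s := W.sigma S) (t := W')
      (g := fun q => q.1 + q.2 • ℓ) fun q hq => Finset.mem_image_of_mem _ hq]
    refine Finset.sum_congr rfl fun ν _ => ?_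
    ext x
    simp only [ContinuousMap.smul_apply, ContinuousMap.coe_sum, Finset.sum_apply, smul_eq_mul,
      Finset.sum_mul]
    refine Finset.sum_congr rfl fun q hq => ?_
    rw [(Finset.mem_filter.1 hq).2]
  refine ⟨W', fun h0 => ?_, fun ν hν => ?_, f', ?_⟩
  · obtain ⟨q, hq, e0⟩ := Finset.mem_image.1 h0
    rw [Finset.mem_sigma] at hq
    have h1 : rdot q.1 β = 0 := by
      have := rdot_add_zsmul q.1 ℓ q.2 β
      rw [e0, hβ, mul_zero, add_zero] at this
      rw [← this]; simp [rdot]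
    have h2 := hq.2
    rw [hS _ h1, Finset.mem_singleton] at h2
    rw [h2, zero_smul, add_zero] at e0
    exact hW (e0 ▸ hq.1)
  · obtain ⟨q, hq, rfl⟩ := Finset.mem_image.1 hν
    exact ⟨q.1, (Finset.mem_sigma.1 hq).1, q.2, rfl⟩
  · have h1 : nrm (comb H W f - ∑ l ∈ W, r l) ≤ ε * ∑ l ∈ W, ‖f l‖ := by
      rw [comb, ← Finset.sum_sub_distrib, Finset.mul_sum]
      exact (nrm_sum_le _ _).trans (Finset.sum_le_sum fun l _ => hr l)
    have e2 : F - (∑ l ∈ W, r l + star (∑ l ∈ W, r l)) = (F - (comb H W f + star (comb H W f))) +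
        ((comb H W f - ∑ l ∈ W, r l) + star (comb H W f - ∑ l ∈ W, r l)) := by
      rw [star_sub]; abel
    rw [e, e2]
    have h2 := nrm_add_le (F - (comb H W f + star (comb H W f)))
      ((comb H W f - ∑ l ∈ W, r l) + star (comb H W f - ∑ l ∈ W, r l))
    have h3 := nrm_add_le (comb H W f - ∑ l ∈ W, r l) (star (comb H W f - ∑ l ∈ W, r l))
    rw [nrm_star] at h3
    have h4 : ε * (2 * ∑ l ∈ W, ‖f l‖ + 1) = η := by rw [hε]; field_simp
    nlinarith

end Crest.Agent.R81
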